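import Vale.Agent.P231.S2N.Tra
import Vale.Agent.P231.H766.SL3

/-!
# P231, stages 2 and 3, S2-NEG: **the lift of the geodesic flow to the space of pairs and the
push-off**
-/

set_option maxSynthPendingDepth 3
set_option linter.unusedSectionVars false
set_option linter.unusedVariables false

open Bundle Manifold Set Filter Module MeasureTheory
open scoped ContDiff Manifold Topology ENNReal

namespace Vale.Agent.P231.S2N

noncomputable section

open Vale.Agent.P234 Vale.Agent.P231 Vale.Agent.P231.Fm Vale.Agent.P231.W Vale.Agent.P231.WR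
open Vale.Agent.P231.H775 Vale.Agent.P231.WC Vale.Agent.P231.WF

variable {E : Type*} [NormedAddCommGroup E] [NormedSpace ℝ E]
  {M : Type*} [MetricSpace M] [ChartedSpace E M]
  [RiemannianBundle (fun x : M => TangentSpace 𝓘(ℝ, E) x)]
  {e : ∀ x : M, TangentSpace 𝓘(ℝ, E) x → M}
  [FiniteDimensional ℝ E] [IsManifold 𝓘(ℝ, E) ∞ M]
  [IsContMDiffRiemannianBundle 𝓘(ℝ, E) ∞ E (fun x : M => TangentSpace 𝓘(ℝ, E) x)]
  [CompactSpace M] [ConnectedSpace M] [IsRiemannianManifold 𝓘(ℝ, E) M]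

variable {D : ℝ}

/-! ### normalisation of raw vectors -/

theorem nm_ne_zero {x : M} {a : E} (ha : a ≠ 0) : nm x a ≠ 0 :=
  (norm_ne_zero_iff (E := TangentSpace 𝓘(ℝ, E) x)).2 ha

theorem nm_pos' {x : M} {a : E} (ha : a ≠ 0) : 0 < nm x a :=
  (norm_pos_iff (E := TangentSpace 𝓘(ℝ, E) x)).2 ha

/-- the normalised vector -/
def nrm (x : M) (a : E) : E := (nm x a)⁻¹ • a

theorem nm_nrm {x : M} {a : E} (ha : a ≠ 0) : nm x (nrm x a) = 1 := by
  unfold nrm
  rw [nm_smul, abs_inv, abs_of_pos (nm_pos' ha), inv_mul_cancel₀ (nm_ne_zero ha)]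

theorem nrm_smul {x : M} {a : E} {c : ℝ} (hc : 0 < c) : nrm x (c • a) = nrm x a := by
  unfold nrm
  rw [nm_smul, abs_of_pos hc, smul_smul, mul_inv, mul_comm c⁻¹, mul_assoc, inv_mul_cancel₀ hc.ne',
    mul_one]

theorem nrm_neg {x : M} {a : E} : nrm x (-a) = -nrm x a := by
  unfold nrm
  have h1 : nm x (-a) = nm x a := norm_neg (E := TangentSpace 𝓘(ℝ, E) x) _
  rw [h1, smul_neg]

theorem nrm_of_one {x : M} {a : E} (h : nm x a = 1) : nrm x a = a := by
  unfold nrm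
  rw [h, inv_one, one_smul]

section Plots

variable {E' : Type} [NormedAddCommGroup E'] [NormedSpace ℝ E'] [FiniteDimensional ℝ E']

theorem at_nrm {f : E' → M} {a : E' → E} {x : E'} (ha : (dTM E M).At (fun s => tb (f s) (a s)) x)
    (h0 : ∀ s, a s ≠ 0) : (dTM E M).At (fun s => tb (f s) (nrm (f s) (a s))) x := by
  rw [at_tb] at ha ⊢
  filter_upwards [ha] with s hs
  have h1 : ContDiffAt ℝ ∞ (fun s => nm (f s) (a s) ^ 2) s := SmV.norm_sq hs
  have h2 : ∀ s, Real.sqrt (nm (f s) (a s) ^ 2) = nm (f s) (a s) := fun s =>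
    Real.sqrt_sq (nm_pos' (h0 s)).le
  have h3 : ContDiffAt ℝ ∞ (fun s => (nm (f s) (a s))⁻¹) s := by
    have k : ContDiffAt ℝ ∞ (fun s => (Real.sqrt (nm (f s) (a s) ^ 2))⁻¹) s := by
      refine ContDiffAt.inv (ContDiffAt.sqrt h1 (pow_ne_zero 2 (nm_ne_zero (h0 s)))) ?_
      rw [h2]
      exact nm_ne_zero (h0 s)
    simpa only [h2] using k
  exact SmV.smul h3 hs

/-- the second vector of a pair as a raw vector at the foot of the first -/
theorem at_w {u : E' → Pr e D} {x : E'} (hu : (dPr e D).At u x) :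
    (dTM E M).At (fun s => tb (foot (u s).v) (vec' (u s).w)) x := by
  have h1 : (dUT E M).At (fun s => (u s).w) x := map_w hu
  have h2 : ∀ᶠ s in 𝓝 x, SmV (fun s => foot (u s).w) (fun s => tv (u s).w) s := at_iff.1 h1
  rw [at_tb]
  filter_upwards [h2] with s hs
  refine ContMDiffAt.congr_of_eventuallyEq hs ?_
  exact Eventually.of_forall fun s' => tb_congr (u s').isL.foot_eq.symm rfl

end Plots

theorem Pr.nm_w (b : Pr e D) : nm (foot b.v) (vec' b.w) = 1 := nm_eq_one b.isL.ip_self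

theorem Pr.w_ne (b : Pr e D) : vec' b.w ≠ 0 := by
  intro h
  have h1 := b.isL.ip_self
  rw [h] at h1
  have h2 : ip (foot b.v) (0 : E) 0 = 0 :=
    inner_zero_left (E := TangentSpace 𝓘(ℝ, E) (foot b.v)) (𝕜 := ℝ) _
  rw [h2] at h1
  exact zero_ne_one h1

variable {ι : Type} [Fintype ι] [DecidableEq ι]

variable {F : Facts e} {hD : 0 < D} {hB : InjGE e D} {hdiam : ∀ p q : M, dist p q ≤ D}
  {l : ℕ} {X δ : ι → UT E M → E} {ε : ℝ}

/-- the lifted flow -/
def Lam (hP : ∀ x y : M, dist x y = D → finrank ℝ (H775.Pl e D x y) = l + 1)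
    (h : Fam F hD hB hdiam l X δ ε) (q : Pr e D × ℝ) : Pr e D :=
  ⟨(phi F (q.1.v, q.2), W.mk (foot (phi F (q.1.v, q.2)))
      (nrm (gm e (q.1.v, q.2)) (At F hD hB hdiam X δ ε q.1.v q.2 (vec' q.1.w)))
      (nm_nrm (h.At_ne_zero hP q.1.v q.2 q.1.isL.mem_Lf (Pr.w_ne q.1)))),
    (isL_iff F hD hB hdiam (v := phi F (q.1.v, q.2)) (nm_nrm (h.At_ne_zero hP q.1.v q.2
      q.1.isL.mem_Lf (Pr.w_ne q.1)))).1 (Submodule.smul_mem _ _ (At_mem q.1.v q.2 _))⟩

variable (hP : ∀ x y : M, dist x y = D → finrank ℝ (H775.Pl e D x y) = l + 1)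
  (h : Fam F hD hB hdiam l X δ ε)

@[simp] theorem Lam_v (b : Pr e D) (t : ℝ) : (Lam hP h (b, t)).v = phi F (b.v, t) := rfl

theorem Lam_w (b : Pr e D) (t : ℝ) : vec' (Lam hP h (b, t)).w =
    nrm (gm e (b.v, t)) (At F hD hB hdiam X δ ε b.v t (vec' b.w)) := rfl

/-- the coefficient vector of a pair -/
def ab (F : Facts e) (hD : 0 < D) (hB : InjGE e D) (hdiam : ∀ p q : M, dist p q ≤ D)
    (X δ : ι → UT E M → E) (ε : ℝ) (b : Pr e D) : EuclideanSpace ℝ ι :=
  am F hD hB hdiam X δ ε b.v (vec' b.w)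

/-- the normalised coefficient vector of a pair -/
def ah (F : Facts e) (hD : 0 < D) (hB : InjGE e D) (hdiam : ∀ p q : M, dist p q ≤ D)
    (X δ : ι → UT E M → E) (ε : ℝ) (b : Pr e D) : EuclideanSpace ℝ ι :=
  ‖ab F hD hB hdiam X δ ε b‖⁻¹ • ab F hD hB hdiam X δ ε b

/-- the push-off field -/
def Yb (F : Facts e) (hD : 0 < D) (hB : InjGE e D) (hdiam : ∀ p q : M, dist p q ≤ D)
    (X δ : ι → UT E M → E) (ε : ℝ) (b : Pr e D) : E :=
  XX X (ah F hD hB hdiam X δ ε b) b.v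

include hP h in
theorem ab_ne (b : Pr e D) : ab F hD hB hdiam X δ ε b ≠ 0 :=
  h.am_ne_zero hP b.v b.isL.mem_Lf (Pr.w_ne b)

theorem ab_Lam (b : Pr e D) (t : ℝ) : ab F hD hB hdiam X δ ε (Lam hP h (b, t)) =
    (nm (gm e (b.v, t)) (At F hD hB hdiam X δ ε b.v t (vec' b.w)))⁻¹ •
      ab F hD hB hdiam X δ ε b := by
  unfold ab
  rw [Lam_v, Lam_w, nrm, am_smul, h.am_phi hP b.v t b.isL.mem_Lf]

theorem ah_smul_aux {V : Type*} [NormedAddCommGroup V] [NormedSpace ℝ V] {c : ℝ} (hc : 0 < c)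
    (a : V) : ‖c • a‖⁻¹ • (c • a) = ‖a‖⁻¹ • a := by
  rw [norm_smul, Real.norm_eq_abs, abs_of_pos hc, smul_smul, mul_inv, mul_comm c⁻¹, mul_assoc,
    inv_mul_cancel₀ hc.ne', mul_one]

/-- the normalised coefficient vector is constant along the lifted flow -/
theorem ah_Lam (b : Pr e D) (t : ℝ) :
    ah F hD hB hdiam X δ ε (Lam hP h (b, t)) = ah F hD hB hdiam X δ ε b := by
  unfold ah
  rw [ab_Lam hP h]
  exact ah_smul_aux (inv_pos.2 (nm_pos' (h.At_ne_zero hP b.v t b.isL.mem_Lf (Pr.w_ne b)))) _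

include hP h in
theorem norm_ah (b : Pr e D) : ‖ah F hD hB hdiam X δ ε b‖ = 1 := by
  unfold ah
  rw [norm_smul, norm_inv, norm_norm, inv_mul_cancel₀ (norm_ne_zero_iff.2 (ab_ne hP h b))]

include hP h in
theorem Pm_ah (b : Pr e D) : Pm F D X δ ε b.v (ah F hD hB hdiam X δ ε b) =
    ah F hD hB hdiam X δ ε b := by
  unfold ah ab
  rw [map_smul, h.Pm_am hP b.v b.isL.mem_Lf]

/-- the lifted flow is smooth -/
theorem map_Lam : ((dPr e D).prod (Dif.lin ℝ)).Map (dPr e D) (Lam hP h) := by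
  intro E' _ _ _ u x hu
  have h1 : (dUT E M).At (fun s => (u s).1.v) x := map_v hu.1
  have h2 : (dUT E M).At (fun s => phi F ((u s).1.v, (u s).2)) x :=
    map_phi F (u := fun s => ((u s).1.v, (u s).2)) ⟨h1, hu.2⟩
  have h3 := h.at_At hP h1 (at_w hu.1) hu.2
  have h4 := at_nrm h3 (fun s => h.At_ne_zero hP (u s).1.v (u s).2 (u s).1.isL.mem_Lf
    (Pr.w_ne (u s).1))
  exact ⟨h2, h4⟩

theorem Lam_zero (b : Pr e D) : Lam hP h (b, 0) = b := by
  refine Pr.ext' (phi_zero F b.v) ?_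
  refine Eq.trans ?_ (mk_eta b.w)
  refine mk_congr ((gm_zero F b.v).trans b.isL.foot_eq.symm) ?_
  rw [h.At_zero hP b.v b.isL.mem_Lf, gm_zero F]
  exact nrm_of_one (Pr.nm_w b)

theorem Lam_per (b : Pr e D) : Lam hP h (b, 2 * D) = b := by
  have h1 := W.phi_per F hD hB hdiam b.v
  have h2 : gm e (b.v, 2 * D) = foot b.v := congrArg foot h1
  refine Pr.ext' h1 ?_
  refine Eq.trans ?_ (mk_eta b.w)
  refine mk_congr (h2.trans b.isL.foot_eq.symm) ?_
  rw [h.At_per hP b.v b.isL.mem_Lf, h2]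
  exact nrm_of_one (Pr.nm_w b)

theorem Lam_add (b : Pr e D) (s t : ℝ) : Lam hP h (Lam hP h (b, s), t) = Lam hP h (b, s + t) := by
  have k1 : At F hD hB hdiam X δ ε (phi F (b.v, s)) t (vec' (Lam hP h (b, s)).w) =
      (nm (gm e (b.v, s)) (At F hD hB hdiam X δ ε b.v s (vec' b.w)))⁻¹ •
        At F hD hB hdiam X δ ε b.v (s + t) (vec' b.w) := by
    rw [Lam_w, nrm, At_smul, h.At_At hP b.v s t b.isL.mem_Lf]
  refine Pr.ext' (phi_add F b.v s t) ?_
  refine mk_congr (gm_phi F b.v s t) ?_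
  change nrm (gm e (phi F (b.v, s), t)) (At F hD hB hdiam X δ ε (phi F (b.v, s)) t
    (vec' (Lam hP h (b, s)).w)) = nrm (gm e (b.v, s + t))
      (At F hD hB hdiam X δ ε b.v (s + t) (vec' b.w))
  rw [k1, gm_phi F]
  exact nrm_smul (inv_pos.2 (nm_pos' (h.At_ne_zero hP b.v s b.isL.mem_Lf (Pr.w_ne b))))

/-- the lifted flow is a flow of period `2 D` -/
theorem isFlow_Lam : IsFlow (dPr e D) (2 * D) (Lam hP h) where
  map := map_Lam hP h
  zero := Lam_zero hP h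
  add := Lam_add hP h
  per := Lam_per hP h

theorem Lam_neg (b : Pr e D) (t : ℝ) :
    Lam hP h (H766.ngP F hD hB hdiam b, t) = H766.ngP F hD hB hdiam (Lam hP h (b, t)) := by
  refine Pr.ext' rfl ?_
  refine mk_congr rfl ?_
  have h1 : At F hD hB hdiam X δ ε b.v t (-vec' b.w) =
      -At F hD hB hdiam X δ ε b.v t (vec' b.w) := by
    have k := At_smul (F := F) (hD := hD) (hB := hB) (hdiam := hdiam) (X := X) (δ := δ) (ε := ε)
      b.v t (-1) (vec' b.w)
    rw [neg_smul, neg_smul, one_smul, one_smul] at k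
    exact k
  change nrm (gm e (b.v, t)) (At F hD hB hdiam X δ ε b.v t (-vec' b.w)) =
    -nrm (gm e (b.v, t)) (At F hD hB hdiam X δ ε b.v t (vec' b.w))
  rw [h1, nrm_neg]

theorem Lam_w_D (b : Pr e D) : vec' (Lam hP h (b, D)).w = -vec' (phi F (b.w, D)) := by
  have h3 := isL_Th F hD hB hdiam b.isL
  have h4 : nm (gm e (b.v, D)) (vec' (phi F (b.w, D))) = 1 := nm_eq_one h3.ip_self
  rw [Lam_w, h.At_half hP b.v b.isL.mem_Lf, b.isL.Tr_eq F hD hB hdiam, nrm_neg, nrm_of_one h4]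

theorem Lam_half (b : Pr e D) :
    Lam hP h (b, D) = H766.ngP F hD hB hdiam (Th F hD hB hdiam b) := by
  have h3 := isL_Th F hD hB hdiam b.isL
  have hw : (Lam hP h (b, D)).w = ng (phi F (b.w, D)) := by
    rw [← mk_eta (Lam hP h (b, D)).w]
    exact mk_congr h3.foot_eq.symm (Lam_w_D hP h b)
  refine Pr.ext' ?_ ?_
  · rw [Lam_v, H766.ngP_v, Th_v]
  · rw [hw, H766.ngP_w, Th_w]

include hP h in
/-- the push-off field is smooth -/
theorem fld_Yb : H766.IsFldP (Yb F hD hB hdiam X δ ε) := by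
  intro E' _ _ _ u x hu
  have h1 : (dUT E M).At (fun s => (u s).v) x := map_v hu
  have h2 : Sm (fun s => ab F hD hB hdiam X δ ε (u s)) x := h.sm_am hP h1 (at_w hu)
  have h3 : Sm (fun s => ah F hD hB hdiam X δ ε (u s)) x := by
    filter_upwards [h2] with s hs
    have k := ab_ne hP h (u s)
    exact ((hs.norm ℝ k).inv (norm_ne_zero_iff.2 k)).smul hs
  exact at_XX (fun i => (h.df i).fld) h1 h3

theorem Yb_neg (b : Pr e D) : Yb F hD hB hdiam X δ ε (H766.ngP F hD hB hdiam b) =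
    -Yb F hD hB hdiam X δ ε b := by
  have h1 : ab F hD hB hdiam X δ ε (H766.ngP F hD hB hdiam b) = -ab F hD hB hdiam X δ ε b := by
    have k := am_smul F hD hB hdiam X δ ε b.v (-1) (vec' b.w)
    rw [neg_smul, neg_smul, one_smul, one_smul] at k
    exact k
  unfold Yb ah
  rw [h1, norm_neg, smul_neg]
  have h2 := XX_smul X (-1) (‖ab F hD hB hdiam X δ ε b‖⁻¹ • ab F hD hB hdiam X δ ε b) b.v
  rw [neg_smul, neg_smul, one_smul, one_smul] at h2
  exact h2

/-- the push-off field along the lifted flow -/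
theorem Yb_Lam (b : Pr e D) (t : ℝ) : Yb F hD hB hdiam X δ ε (Lam hP h (b, t)) =
    XX X (ah F hD hB hdiam X δ ε b) (phi F (b.v, t)) := by
  unfold Yb
  rw [ah_Lam hP h]
  rfl

theorem Yb_sgn (b : Pr e D) : 0 < ip (foot b.v) (Yb F hD hB hdiam X δ ε b) (vec' b.w) +
    ip (foot (Lam hP h (b, D)).v) (Yb F hD hB hdiam X δ ε (Lam hP h (b, D)))
      (vec' (Lam hP h (b, D)).w) := by
  have h1 : vec' (Lam hP h (b, D)).w = -Tr F hD hB hdiam b.v (vec' b.w) := by
    rw [Lam_w_D hP h, b.isL.Tr_eq F hD hB hdiam]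
  rw [h1, Yb_Lam hP h, ip_neg_right']
  have h2 := ip_Th0 F hD hB hdiam (XX X (ah F hD hB hdiam X δ ε b)) b.v b.isL.mem_Lf
  have h3 : Th0 F hD hB hdiam (XX X (ah F hD hB hdiam X δ ε b)) b.v =
      ‖ab F hD hB hdiam X δ ε b‖⁻¹ • vec' b.w := by
    have k := h.Th0_am hP b.v b.isL.mem_Lf
    rw [Th0_XX] at k ⊢
    rw [← k, Finset.smul_sum]
    refine Finset.sum_congr rfl fun i _ => ?_
    unfold ah
    rw [PiLp.smul_apply, smul_eq_mul, mul_smul]
    rfl
  rw [h3, ip_smul_right', b.isL.ip_self, mul_one] at h2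
  have h4 : 0 < ‖ab F hD hB hdiam X δ ε b‖⁻¹ := inv_pos.2 (norm_pos_iff.2 (ab_ne hP h b))
  have e1 : ip (foot b.v) (Yb F hD hB hdiam X δ ε b) (vec' b.w) =
      ip (foot b.v) (vec' b.w) (XX X (ah F hD hB hdiam X δ ε b) b.v) := ip_comm' _ _ _
  have e2 : ip (foot (Lam hP h (b, D)).v) (XX X (ah F hD hB hdiam X δ ε b) (phi F (b.v, D)))
      (Tr F hD hB hdiam b.v (vec' b.w)) = ip (gm e (b.v, D)) (Tr F hD hB hdiam b.v (vec' b.w))
        (XX X (ah F hD hB hdiam X δ ε b) (phi F (b.v, D))) := ip_comm' _ _ _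
  rw [e1, e2, ← sub_eq_add_neg, ← h2]
  exact h4

include hP h in
theorem Yb_perp (b : Pr e D) : ip (foot b.v) (vec' b.v) (Yb F hD hB hdiam X δ ε b) = 0 :=
  (DF.xx h.df (ah F hD hB hdiam X δ ε b)).perp b.v

/-- the energy of the push-off -/
theorem enB_eq (b : Pr e D) (r : ℝ) : H766.enB e (Lam hP h) (Yb F hD hB hdiam X δ ε) b r =
    enZ e D b.v (fun t => XX X (ah F hD hB hdiam X δ ε b) (phi F (b.v, t))) r := by
  have h1 : (fun t => H766.poP e (Yb F hD hB hdiam X δ ε) r (Lam hP h (b, t))) =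
      fun t => po2 e b.v (fun t => XX X (ah F hD hB hdiam X δ ε b) (phi F (b.v, t))) (r, t) := by
    funext t
    unfold H766.poP po2
    rw [Yb_Lam hP h]
    rfl
  unfold H766.enB enZ
  refine intervalIntegral.integral_congr fun t _ => ?_
  have h2 := congrFun h1 t
  change nm (H766.poP e (Yb F hD hB hdiam X δ ε) r (Lam hP h (b, t)))
    (WC.vl (fun t => H766.poP e (Yb F hD hB hdiam X δ ε) r (Lam hP h (b, t))) t : E) ^ 2 = _
  rw [h1, h2]
  rfl

theorem enB_deriv (b : Pr e D) :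
    deriv (fun r => H766.enB e (Lam hP h) (Yb F hD hB hdiam X δ ε) b r) 0 = 0 := by
  have h1 : (fun r => H766.enB e (Lam hP h) (Yb F hD hB hdiam X δ ε) b r) =
      enZ e D b.v (fun t => XX X (ah F hD hB hdiam X δ ε b) (phi F (b.v, t))) :=
    funext (enB_eq hP h b)
  rw [h1]
  exact (DF.xx h.df (ah F hD hB hdiam X δ ε b)).enZ_deriv b.v

theorem enB_deriv2 (b : Pr e D) :
    deriv (deriv (fun r => H766.enB e (Lam hP h) (Yb F hD hB hdiam X δ ε) b r)) 0 ≤ -4 * ε := by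
  have h1 : (fun r => H766.enB e (Lam hP h) (Yb F hD hB hdiam X δ ε) b r) =
      enZ e D b.v (fun t => XX X (ah F hD hB hdiam X δ ε b) (phi F (b.v, t))) :=
    funext (enB_eq hP h b)
  rw [h1]
  have h2 := (DF.xx h.df (ah F hD hB hdiam X δ ε b)).enZ_deriv2 b.v
  have h3 := inner_Qm_self (D := D) F (fun i => (h.df i).fld) (fun i => (h.df i).sfld) b.v
    (ah F hD hB hdiam X δ ε b)
  have h4 := h.neg b.v (Pm_ah hP h b)
  rw [norm_ah hP h, h3] at h4
  have h5 : nI F D (XX δ (ah F hD hB hdiam X δ ε b)) (XX X (ah F hD hB hdiam X δ ε b)) b.v =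
    ∫ t in (0 : ℝ)..(2 * D), ip (gm e (b.v, t)) (XX δ (ah F hD hB hdiam X δ ε b) (phi F (b.v, t)))
      (XX X (ah F hD hB hdiam X δ ε b) (phi F (b.v, t))) := rfl
  rw [← h5] at h2
  linarith

/-- **the lift of the geodesic flow and the push-off** -/
theorem exists_pushL_of_fam : ∃ ε₀ : ℝ,
    H766.PushL F hD hB hdiam (Lam hP h) (Yb F hD hB hdiam X δ ε) ε₀ :=
  H766.exists_pushL F hD hB hdiam hP (isFlow_Lam hP h) (Lam_v hP h) (Lam_neg hP h)
    (Lam_half hP h) (fld_Yb hP h) Yb_neg (Yb_sgn hP h) (enB_deriv hP h) (fun b => by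
      have h1 := enB_deriv2 hP h b
      have h2 := h.eps_pos b.v
      linarith)

/-- **S2-NEG**: existence of the lift of the geodesic flow to the space of pairs and of the
push-off, for every cut multiplicity -/
theorem exists_lift (F : Facts e) (hD : 0 < D) (hB : InjGE e D)
    (hdiam : ∀ p q : M, dist p q ≤ D) {l : ℕ}
    (hP : ∀ x y : M, dist x y = D → finrank ℝ (H775.Pl e D x y) = l + 1) :
    ∃ (Lm : Pr e D × ℝ → Pr e D) (Y : Pr e D → E) (ε₀ : ℝ),
      H766.PushL F hD hB hdiam Lm Y ε₀ ∧ ∀ b, ip (foot b.v) (vec' b.v) (Y b) = 0 := by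
  obtain ⟨ι, _, _, X, δ, ε, σ, hfam, -, -, -⟩ := exists_fam F hD hB hdiam hP
  obtain ⟨ε₀, h1⟩ := exists_pushL_of_fam hP hfam
  exact ⟨_, _, ε₀, h1, Yb_perp hP hfam⟩

end

end Vale.Agent.P231.S2N
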