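import Vale.Agent.P231.S2N.Var

/-!
# P231, stage 2, S2-NEG: fields with antiperiodic source
-/

set_option maxSynthPendingDepth 3
set_option linter.unusedSectionVars false
set_option linter.unusedVariables false

open Bundle Manifold Set Filter Module MeasureTheory
open scoped ContDiff Manifold Topology ENNReal

namespace Vale.Agent.P231.S2N

noncomputable section

open Vale.Agent.P234 Vale.Agent.P231 Vale.Agent.P231.Fm Vale.Agent.P231.W Vale.Agent.P231.WR
open Vale.Agent.P231.H775 Vale.Agent.P231.WC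

variable {E : Type*} [NormedAddCommGroup E] [NormedSpace ℝ E]
  {M : Type*} [MetricSpace M] [ChartedSpace E M]
  [RiemannianBundle (fun x : M => TangentSpace 𝓘(ℝ, E) x)]
  {e : ∀ x : M, TangentSpace 𝓘(ℝ, E) x → M}
  [FiniteDimensional ℝ E] [IsManifold 𝓘(ℝ, E) ∞ M]
  [IsContMDiffRiemannianBundle 𝓘(ℝ, E) ∞ E (fun x : M => TangentSpace 𝓘(ℝ, E) x)]
  [CompactSpace M] [ConnectedSpace M] [IsRiemannianManifold 𝓘(ℝ, E) M]

variable {D : ℝ}

/-! ### reversal -/

theorem phi_ng (F : Facts e) (v : UT E M) (t : ℝ) : phi F (ng v, t) = ng (phi F (v, -t)) := by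
  refine mk_congr (gm_ng v t) ?_
  change dE e (foot v) (t • (-vec' v : E)) (-vec' v : E) = -(dE e (foot v) ((-t) • vec' v) (vec' v))
  have h1 : t • (-vec' v : E) = (-t) • vec' v := by rw [smul_neg, neg_smul]
  have h2 : (-vec' v : E) = (-1 : ℝ) • vec' v := by rw [neg_smul, one_smul]
  rw [h1, h2, dE_smul, neg_smul, one_smul]

theorem ng_phi (F : Facts e) (v : UT E M) (t : ℝ) : ng (phi F (v, t)) = phi F (ng v, -t) := by
  rw [phi_ng, neg_neg]

theorem phi_neg_D (F : Facts e) (hD : 0 < D) (hB : InjGE e D) (hdiam : ∀ p q : M, dist p q ≤ D)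
    (v : UT E M) : phi F (v, -D) = phi F (v, D) := by
  have h1 := W.phi_per F hD hB hdiam (phi F (v, -D))
  rw [phi_add] at h1
  rw [← h1]
  congr 2
  ring

theorem phi_D_D (F : Facts e) (hD : 0 < D) (hB : InjGE e D) (hdiam : ∀ p q : M, dist p q ≤ D)
    (v : UT E M) : phi F (phi F (v, D), D) = v := by
  rw [phi_add, ← two_mul]
  exact W.phi_per F hD hB hdiam v

theorem bar_ng (F : Facts e) (hD : 0 < D) (hB : InjGE e D) (hdiam : ∀ p q : M, dist p q ≤ D)
    (v : UT E M) : bar e D (ng v) = bar e D v := by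
  change gm e (ng v, D) = gm e (v, D)
  rw [gm_ng]
  exact congrArg foot (phi_neg_D F hD hB hdiam v)

theorem isL_ng (F : Facts e) (hD : 0 < D) (hB : InjGE e D) (hdiam : ∀ p q : M, dist p q ≤ D)
    {v w : UT E M} (h : IsL e D v w) : IsL e D (ng v) w where
  foot_eq := h.foot_eq
  orth := by
    change ip (foot v) (-vec' v) (vec' w) = 0
    rw [ip_comm', ip_neg_right', ip_comm', h.orth, neg_zero]
  bar_eq := h.bar_eq.trans (bar_ng F hD hB hdiam v).symm

theorem mem_Lf_ng (F : Facts e) (hD : 0 < D) (hB : InjGE e D) (hdiam : ∀ p q : M, dist p q ≤ D)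
    {v : UT E M} {a : E} (h : (a : TangentSpace 𝓘(ℝ, E) (foot v)) ∈ Lf e D v) :
    (a : TangentSpace 𝓘(ℝ, E) (foot (ng v))) ∈ Lf e D (ng v) := by
  obtain ⟨h1, h2⟩ := mem_Lf.1 h
  refine mem_Lf.2 ⟨?_, ?_⟩
  · rw [bar_ng F hD hB hdiam v]
    exact h1
  · change ip (foot v) (-vec' v) a = 0
    rw [ip_comm', ip_neg_right', ip_comm', h2, neg_zero]

theorem Tr_ng (F : Facts e) (hD : 0 < D) (hB : InjGE e D) (hdiam : ∀ p q : M, dist p q ≤ D)
    {l : ℕ} (hP : ∀ x y : M, dist x y = D → finrank ℝ (H775.Pl e D x y) = l + 1) (v : UT E M)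
    (a : E) : Tr F hD hB hdiam (ng v) a = Tr F hD hB hdiam v a := by
  obtain ⟨W, hW⟩ := exists_isLF F hD hB hdiam hP v
  have hW' : IsLF e D (ng v) W :=
    ⟨fun i => isL_ng F hD hB hdiam (hW.isL i), fun i j hij => hW.orth i j hij⟩
  rw [hW'.Tr_eq F hD hB hdiam hP a, hW.Tr_eq F hD hB hdiam hP a]
  rfl

/-! ### fields with antiperiodic source in `L` -/

/-- `X` is a smooth field, orthogonal to the direction, which satisfies the Jacobi equation with
the source `δ`, an antiperiodic smooth section of `L` -/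
structure DF (F : Facts e) (hD : 0 < D) (hB : InjGE e D) (hdiam : ∀ p q : M, dist p q ≤ D)
    (X δ : UT E M → E) : Prop where
  fld : Fld X
  sfld : Fld δ
  perp : ∀ v, ip (foot v) (vec' v) (X v) = 0
  mem : ∀ v, (δ v : TangentSpace 𝓘(ℝ, E) (foot v)) ∈ Lf e D v
  half : ∀ v, δ (phi F (v, D)) = -Tr F hD hB hdiam v (δ v)
  je : ∀ v, JE e (foot v) v (fun t => X (phi F (v, t))) (δ v)

variable {F : Facts e} {hD : 0 < D} {hB : InjGE e D} {hdiam : ∀ p q : M, dist p q ≤ D}

theorem Fld.fa {X : UT E M → E} (h : Fld X) (F : Facts e) (v : UT E M) (t : ℝ) :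
    FA e v (fun t => X (phi F (v, t))) t := WC.field_of_map F h.map v t

theorem DF.add {X Y δ η : UT E M → E} (h : DF F hD hB hdiam X δ) (h' : DF F hD hB hdiam Y η) :
    DF F hD hB hdiam (fun v => X v + Y v) (fun v => δ v + η v) where
  fld := h.fld.add h'.fld
  sfld := h.sfld.add h'.sfld
  perp v := by rw [ip_add_right', h.perp, h'.perp, add_zero]
  mem v := Submodule.add_mem _ (h.mem v) (h'.mem v)
  half v := by rw [h.half, h'.half, Tr_add, neg_add]
  je v := JE.add F (mem_extChartAt_source _) (h.fld.fa F v 0) (h'.fld.fa F v 0) (h.je v) (h'.je v)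

theorem DF.smul (c : ℝ) {X δ : UT E M → E} (h : DF F hD hB hdiam X δ) :
    DF F hD hB hdiam (fun v => c • X v) (fun v => c • δ v) where
  fld := h.fld.const_smul c
  sfld := h.sfld.const_smul c
  perp v := by rw [ip_smul_right', h.perp, mul_zero]
  mem v := Submodule.smul_mem _ c (h.mem v)
  half v := by rw [h.half, Tr_smul, smul_neg]
  je v := JE.smul F (mem_extChartAt_source _) c (h.fld.fa F v 0) (h.je v)

theorem DF.zero : DF F hD hB hdiam (fun _ => 0) (fun _ => 0) where
  fld := Fld.zero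
  sfld := Fld.zero
  perp v := inner_zero_right (E := TangentSpace 𝓘(ℝ, E) (foot v)) (𝕜 := ℝ) _
  mem v := Submodule.zero_mem _
  half v := by
    have h := Tr_smul F hD hB hdiam v 0 (0 : E)
    rw [zero_smul, zero_smul] at h
    rw [h, neg_zero]
  je v := JE.zero F v

theorem DF.sum {ι : Type*} (t : Finset ι) {X δ : ι → UT E M → E}
    (h : ∀ i, DF F hD hB hdiam (X i) (δ i)) :
    DF F hD hB hdiam (fun v => ∑ i ∈ t, X i v) (fun v => ∑ i ∈ t, δ i v) := by
  classical
  induction t using Finset.induction_on with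
  | empty => simpa using DF.zero
  | insert i t hi ih =>
    simp only [Finset.sum_insert hi]
    exact (h i).add ih

/-- reversal -/
theorem DF.ng {l : ℕ} (hP : ∀ x y : M, dist x y = D → finrank ℝ (H775.Pl e D x y) = l + 1)
    {X δ : UT E M → E} (h : DF F hD hB hdiam X δ) :
    DF F hD hB hdiam (fun v => X (WR.ng v)) (fun v => δ (WR.ng v)) where
  fld := ⟨fun {E'} _ _ _ {u x} hu => h.fld.map (map_ng hu)⟩
  sfld := ⟨fun {E'} _ _ _ {u x} hu => h.sfld.map (map_ng hu)⟩
  perp v := by
    have h1 := h.perp (WR.ng v)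
    change ip (foot v) (-vec' v) (X (WR.ng v)) = 0 at h1
    rw [ip_comm', ip_neg_right', ip_comm', neg_eq_zero] at h1
    exact h1
  mem v := by
    have h1 := mem_Lf_ng F hD hB hdiam (h.mem (WR.ng v))
    rw [ng_ng] at h1
    exact h1
  half v := by
    rw [ng_phi, phi_neg_D F hD hB hdiam, h.half, Tr_ng F hD hB hdiam hP]
  je v := by
    have h1 := JE.ng F (x₀ := foot v) (v := WR.ng v) (mem_extChartAt_source (I := 𝓘(ℝ, E)) _)
      (h.je (WR.ng v))
    rw [ng_ng] at h1
    refine JE.congr (fun t => ?_) rfl h1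
    rw [phi_ng, neg_neg]

/-- the fields `Y_W` -/
theorem DF.yW {l : ℕ} (hP : ∀ x y : M, dist x y = D → finrank ℝ (H775.Pl e D x y) = l + 1)
    {W : UT E M → E} (h : LS e D W) :
    DF F hD hB hdiam (YW F D W) (dl F hD hB hdiam W) where
  fld := fld_YW F D h.fld
  sfld := by
    refine ⟨fun {E'} _ _ _ {u x} hu => ?_⟩
    have h1 := h.fld.map hu
    have hu' : (dUT E M).At (fun s => phi F (u s, -D)) x := map_phiD F (-D) hu
    have h2 := h.fld.map hu'
    have h3 := at_Tr F hD hB hdiam hP hu' h2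
    have h4 : (dTM E M).At (fun s => tb (foot (u s))
        (Tr F hD hB hdiam (phi F (u s, -D)) (W (phi F (u s, -D))))) x := by
      have k : (fun s => tb (foot (u s))
          (Tr F hD hB hdiam (phi F (u s, -D)) (W (phi F (u s, -D))))) =
          fun s => tb (gm e (phi F (u s, -D), D))
            (Tr F hD hB hdiam (phi F (u s, -D)) (W (phi F (u s, -D)))) := by
        funext s
        refine tb_congr ?_ rfl
        rw [gm_phi, neg_add_cancel, gm_zero F]
      rw [k]
      exact h3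
    have h5 := at_smul (f := fun s => foot (u s)) (Sm.of_contDiff (contDiff_const (c := (-1 : ℝ))) x) h4
    have h6 := at_add (f := fun s => foot (u s)) h1 h5
    have h7 : ((fun v : UT E M => tb (foot v) (dl F hD hB hdiam W v)) ∘ u) = fun s =>
        tb (foot (u s)) (W (u s) + (-1 : ℝ) •
          Tr F hD hB hdiam (phi F (u s, -D)) (W (phi F (u s, -D)))) := by
      funext s
      refine tb_congr rfl ?_
      rw [neg_smul, one_smul, ← sub_eq_add_neg]
      rfl
    rw [h7]
    exact h6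
  perp v := YW_perp F D h v
  mem v := by
    refine Submodule.sub_mem _ (mem_Lf.2 ⟨h.mem v, h.orth v⟩) ?_
    have h1 := Tr_mem F hD hB hdiam (phi F (v, -D)) (W (phi F (v, -D)))
    rw [phi_add, neg_add_cancel, phi_zero] at h1
    exact h1
  half v := by
    unfold dl
    have hn := phi_neg_D F hD hB hdiam v
    have h1 : phi F (phi F (v, D), -D) = v := by rw [phi_add, add_neg_cancel, phi_zero]
    rw [h1, hn, sub_eq_add_neg (W v), Tr_add]
    have h2 : -Tr F hD hB hdiam (phi F (v, D)) (W (phi F (v, D))) =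
        (-1 : ℝ) • Tr F hD hB hdiam (phi F (v, D)) (W (phi F (v, D))) := by
      rw [neg_smul, one_smul]
    rw [h2, Tr_smul]
    have h3 := Tr_Tr F hD hB hdiam (phi F (v, D)) (W (phi F (v, D)))
    rw [phi_D_D F hD hB hdiam] at h3
    have h4 : prL (E := E) e D (phi F (v, D)) (W (phi F (v, D))) = W (phi F (v, D)) :=
      prL_of_mem (mem_Lf.2 ⟨h.mem (phi F (v, D)), h.orth (phi F (v, D))⟩)
    rw [h3, h4, neg_smul, one_smul, neg_add, neg_neg]
    abel
  je v := je_YW F hD hB hdiam h (foot v) v (mem_extChartAt_source _)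

/-- the energy of the push-off along a field with antiperiodic source -/
theorem DF.enZ_deriv {X δ : UT E M → E} (h : DF F hD hB hdiam X δ) (v : UT E M) :
    deriv (enZ e D v (fun t => X (phi F (v, t)))) 0 = 0 :=
  deriv_enZ F hD hB hdiam (h.fld.fa F v) (fun t => by
    have k := W.phi_per F hD hB hdiam (phi F (v, t))
    rw [phi_add] at k
    exact congrArg X k)

theorem DF.je_shift {X δ : UT E M → E} (h : DF F hD hB hdiam X δ) (v : UT E M) (t : ℝ) :
    JE e (foot (phi F (v, t))) (phi F (v, t)) (fun s => X (phi F (v, t + s)))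
      (δ (phi F (v, t))) := by
  refine JE.congr (fun s => ?_) rfl (h.je (phi F (v, t)))
  rw [phi_add]

theorem cont_ip (F : Facts e) {X Y : UT E M → E} (hX : Fld X) (hY : Fld Y) (v : UT E M) :
    Continuous fun t => ip (gm e (v, t)) (X (phi F (v, t))) (Y (phi F (v, t))) :=
  (H766.contDiff_phi F (f := fun v => ip (foot v) (X v) (Y v)) (hX.ip hY) v).continuous

theorem DF.enZ_deriv2 {X δ : UT E M → E} (h : DF F hD hB hdiam X δ) (v : UT E M) :
    (1 / 2 : ℝ) * deriv (deriv (enZ e D v (fun t => X (phi F (v, t))))) 0 =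
      -∫ t in (0 : ℝ)..(2 * D), ip (gm e (v, t)) (δ (phi F (v, t))) (X (phi F (v, t))) :=
  deriv2_enZ F hD hB hdiam (h.fld.fa F v) (fun t => by
    have k := W.phi_per F hD hB hdiam (phi F (v, t))
    rw [phi_add] at k
    exact congrArg X k) (δ := fun t => δ (phi F (v, t))) (h.je_shift v) (cont_ip F h.sfld h.fld v)

end

end Vale.Agent.P231.S2N
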