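import Vale.Agent.P231.S2N.Rev
import Vale.Agent.P231.S2I3.Flow

/-!
# P231, stages 2 and 3, S2-NEG: the linear transport of `L`, in the form used by the flow on frames
-/

set_option maxSynthPendingDepth 3
set_option linter.unusedSectionVars false
set_option linter.unusedVariables false

open Bundle Manifold Set Filter Module MeasureTheory
open scoped ContDiff Manifold Topology ENNReal

namespace Vale.Agent.P231.S2N

noncomputable section

open Vale.Agent.P234 Vale.Agent.P231 Vale.Agent.P231.Fm Vale.Agent.P231.W Vale.Agent.P231.WR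
open Vale.Agent.P231.H775 Vale.Agent.P231.WC Vale.Agent.P231.WF

variable {E : Type*} [NormedAddCommGroup E] [NormedSpace ℝ E]
  {M : Type*} [MetricSpace M] [ChartedSpace E M]
  [RiemannianBundle (fun x : M => TangentSpace 𝓘(ℝ, E) x)]
  {e : ∀ x : M, TangentSpace 𝓘(ℝ, E) x → M}
  [FiniteDimensional ℝ E] [IsManifold 𝓘(ℝ, E) ∞ M]
  [IsContMDiffRiemannianBundle 𝓘(ℝ, E) ∞ E (fun x : M => TangentSpace 𝓘(ℝ, E) x)]
  [CompactSpace M] [ConnectedSpace M] [IsRiemannianManifold 𝓘(ℝ, E) M]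

variable {D : ℝ} {ι : Type} [Fintype ι] [DecidableEq ι]

/-- the transport as a linear map -/
def Tl (F : Facts e) (hD : 0 < D) (hB : InjGE e D) (hdiam : ∀ p q : M, dist p q ≤ D)
    (X δ : ι → UT E M → E) (ε : ℝ) (v : UT E M) (t : ℝ) : E →ₗ[ℝ] E where
  toFun := At F hD hB hdiam X δ ε v t
  map_add' := At_add v t
  map_smul' := At_smul v t

@[simp] theorem Tl_apply (F : Facts e) (hD : 0 < D) (hB : InjGE e D)
    (hdiam : ∀ p q : M, dist p q ≤ D) (X δ : ι → UT E M → E) (ε : ℝ) (v : UT E M) (t : ℝ)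
    (a : E) : Tl F hD hB hdiam X δ ε v t a = At F hD hB hdiam X δ ε v t a := rfl

variable {F : Facts e} {hD : 0 < D} {hB : InjGE e D} {hdiam : ∀ p q : M, dist p q ≤ D}
  {l : ℕ} {X δ : ι → UT E M → E} {ε : ℝ} {σ : ι ≃ ι}

theorem Fam.lt (hP : ∀ x y : M, dist x y = D → finrank ℝ (H775.Pl e D x y) = l + 1)
    (h : Fam F hD hB hdiam l X δ ε) (hX : ∀ i v, X (σ i) v = X i (ng v))
    (hδ : ∀ i v, δ (σ i) v = δ i (ng v)) :
    S2I3.LT F hD hB hdiam (Tl F hD hB hdiam X δ ε) where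
  mem v t a _ := At_mem v t a
  zero v a ha := h.At_zero hP v ha
  comp v s t a ha := h.At_At hP v s t ha
  half v a ha := h.At_half hP v ha
  rev v t a ha := h.At_ng hP hX hδ v t ha
  map hu ht ha _ := h.at_At hP hu ha ht

/-- **S2-NEG, complete statement**: a reversible linear transport `Tl` of `L` along the geodesic
flow, the lifted flow `Lm = ` normalised `Tl`, and the push-off `Y` -/
theorem exists_all (F : Facts e) (hD : 0 < D) (hB : InjGE e D)
    (hdiam : ∀ p q : M, dist p q ≤ D) {l : ℕ}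
    (hP : ∀ x y : M, dist x y = D → finrank ℝ (H775.Pl e D x y) = l + 1) :
    ∃ (T : UT E M → ℝ → E →ₗ[ℝ] E) (Lm : Pr e D × ℝ → Pr e D) (Y : Pr e D → E) (ε₀ : ℝ),
      S2I3.LT F hD hB hdiam T ∧
      (∀ b t, vec' (Lm (b, t)).w = (nm (gm e (b.v, t)) (T b.v t (vec' b.w)))⁻¹ •
        T b.v t (vec' b.w)) ∧
      H766.PushL F hD hB hdiam Lm Y ε₀ ∧ (∀ b, ip (foot b.v) (vec' b.v) (Y b) = 0) ∧
      (∀ b t, Lm (rev F hD hB hdiam b, t) = rev F hD hB hdiam (Lm (b, -t))) ∧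
      ∀ b, Y (rev F hD hB hdiam b) = Y b := by
  obtain ⟨ι, _, _, X, δ, ε, σ, hfam, -, hX, hδ⟩ := exists_fam F hD hB hdiam hP
  obtain ⟨ε₀, h1⟩ := exists_pushL_of_fam hP hfam
  exact ⟨Tl F hD hB hdiam X δ ε, _, _, ε₀, hfam.lt hP hX hδ, Lam_w hP hfam, h1,
    Yb_perp hP hfam, Lam_rev hP hfam hX hδ, Yb_rev hP hfam hX hδ⟩

end

end Vale.Agent.P231.S2N
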