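import Vale.Agent.P231.S2N.Fam

/-!
# P231, stage 2, S2-NEG: a finite family, closed under reversal, whose index form has a uniform gap
-/

set_option maxSynthPendingDepth 3
set_option linter.unusedSectionVars false
set_option linter.unusedVariables false

open Bundle Manifold Set Filter Module MeasureTheory
open scoped ContDiff Manifold Topology ENNReal

namespace Vale.Agent.P231.S2N

noncomputable section

open Vale.Agent.P234 Vale.Agent.P231 Vale.Agent.P231.Fm Vale.Agent.P231.W Vale.Agent.P231.WR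
open Vale.Agent.P231.H775 Vale.Agent.P231.WC Vale.Agent.P231.WF

variable {E : Type*} [NormedAddCommGroup E] [NormedSpace ℝ E]
  {M : Type*} [MetricSpace M] [ChartedSpace E M]
  [RiemannianBundle (fun x : M => TangentSpace 𝓘(ℝ, E) x)]
  {e : ∀ x : M, TangentSpace 𝓘(ℝ, E) x → M}
  [FiniteDimensional ℝ E] [IsManifold 𝓘(ℝ, E) ∞ M]
  [IsContMDiffRiemannianBundle 𝓘(ℝ, E) ∞ E (fun x : M => TangentSpace 𝓘(ℝ, E) x)]
  [CompactSpace M] [ConnectedSpace M] [IsRiemannianManifold 𝓘(ℝ, E) M]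

variable {D : ℝ}

attribute [local instance] topUT in
/-- finitely many negative definite families -/
theorem exists_cover (F : Facts e) (hD : 0 < D) (hB : InjGE e D) (hdiam : ∀ p q : M, dist p q ≤ D)
    {l : ℕ} (hP : ∀ x y : M, dist x y = D → finrank ℝ (H775.Pl e D x y) = l + 1) :
    ∃ (m : ℕ) (X δ : Fin m × Fin l → UT E M → E) (ε : ℝ), 0 < ε ∧
      (∀ i, DF F hD hB hdiam (X i) (δ i)) ∧
      ∀ v, ∃ k : Fin m, ∀ c : Fin l → ℝ, ε * ∑ i, c i ^ 2 ≤
        nI F D (fun v => ∑ i, c i • δ (k, i) v) (fun v => ∑ i, c i • X (k, i) v) v := by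
  have : CompactSpace (UT E M) := compactSpace_UT
  choose X δ hdf hneg using exists_neg F hD hB hdiam hP
  have hcont : ∀ v₀ i j, Continuous (nI F D (δ v₀ i) (X v₀ j)) := fun v₀ i j =>
    continuous_of_map_dUT (D' := Dif.lin ℝ) (plotsCont_lin ℝ)
      (map_nI F (hdf v₀ i).sfld (hdf v₀ j).fld)
  have hlin : ∀ v₀ v (c : Fin l → ℝ), ∑ i, ∑ j, c i * c j * nI F D (δ v₀ i) (X v₀ j) v =
      nI F D (fun v => ∑ i, c i • δ v₀ i v) (fun v => ∑ i, c i • X v₀ i v) v := fun v₀ v c =>
    (nI_lin F c c (fun i => (hdf v₀ i).sfld) (fun i => (hdf v₀ i).fld) v).symm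
  have h1 : ∀ v₀, ∃ ε : ℝ, 0 < ε ∧ ∀ᶠ v in 𝓝 v₀, ∀ c : Fin l → ℝ, ε * ∑ i, c i ^ 2 ≤
      ∑ i, ∑ j, c i * c j * nI F D (δ v₀ i) (X v₀ j) v := fun v₀ =>
    pd_open (T := UT E M) (n := fun i j v => nI F D (δ v₀ i) (X v₀ j) v)
      (fun i j => (hcont v₀ i j).continuousAt) (fun c hc => by
        rw [hlin]
        exact hneg v₀ c hc)
  choose ε hε hev using h1
  obtain ⟨t, ht⟩ := CompactSpace.elim_nhds_subcover
    (fun v₀ => {v | ∀ c : Fin l → ℝ, ε v₀ * ∑ i, c i ^ 2 ≤
      ∑ i, ∑ j, c i * c j * nI F D (δ v₀ i) (X v₀ j) v}) hev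
  have hmin : ∃ ε₀ : ℝ, 0 < ε₀ ∧ ∀ b ∈ t, ε₀ ≤ ε b := by
    classical
    clear ht
    induction t using Finset.induction_on with
    | empty => exact ⟨1, one_pos, fun b hb => absurd hb (by simp)⟩
    | insert a s ha ih =>
      obtain ⟨δ', h1, h2⟩ := ih
      refine ⟨min δ' (ε a), lt_min h1 (hε a), fun b hb => ?_⟩
      rcases Finset.mem_insert.1 hb with h3 | h3
      · rw [h3]; exact min_le_right _ _
      · exact (min_le_left _ _).trans (h2 b h3)
  obtain ⟨ε₀, hε₀, hle⟩ := hmin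
  refine ⟨t.card, fun p => X (t.equivFin.symm p.1) p.2, fun p => δ (t.equivFin.symm p.1) p.2, ε₀,
    hε₀, fun p => hdf _ _, fun v => ?_⟩
  have h3 : v ∈ ⋃ x ∈ t, {v | ∀ c : Fin l → ℝ, ε x * ∑ i, c i ^ 2 ≤
      ∑ i, ∑ j, c i * c j * nI F D (δ x i) (X x j) v} := by
    rw [ht]
    trivial
  simp only [mem_iUnion, exists_prop] at h3
  obtain ⟨a, ha, hb⟩ := h3
  refine ⟨t.equivFin ⟨a, ha⟩, fun c => ?_⟩
  have h4 : ((t.equivFin.symm (t.equivFin ⟨a, ha⟩) : t) : UT E M) = a := by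
    rw [Equiv.symm_apply_apply]
  have h5 : ε₀ * ∑ i, c i ^ 2 ≤
      nI F D (fun v => ∑ i, c i • δ a i v) (fun v => ∑ i, c i • X a i v) v := by
    rw [← hlin]
    exact (mul_le_mul_of_nonneg_right (hle a ha)
      (Finset.sum_nonneg fun i _ => sq_nonneg _)).trans (hb c)
  simp only [h4]
  exact h5

/-- a finite family with a uniform gap -/
structure Fam (F : Facts e) (hD : 0 < D) (hB : InjGE e D) (hdiam : ∀ p q : M, dist p q ≤ D)
    (l : ℕ) {ι : Type} [Fintype ι] [DecidableEq ι] (X δ : ι → UT E M → E) (ε : ℝ) : Prop where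
  df : ∀ i, DF F hD hB hdiam (X i) (δ i)
  gap : ∀ v, ∃ N : Submodule ℝ (EuclideanSpace ℝ ι), finrank ℝ N = l ∧
    Gap ε (Qm F D X δ v) N (LinearMap.ker (ThL F hD hB hdiam X v))

section Block

variable {m l : ℕ}

/-- the vectors of one block -/
def blk (k : Fin m) : (Fin l → ℝ) →ₗ[ℝ] EuclideanSpace ℝ ((Fin m × Fin l) × Bool) where
  toFun c := WithLp.toLp 2 fun j => if j.1.1 = k ∧ j.2 = false then c j.1.2 else 0
  map_add' c c' := by
    ext j
    simp only [PiLp.add_apply, Pi.add_apply]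
    split_ifs <;> simp
  map_smul' r c := by
    ext j
    simp only [PiLp.smul_apply, Pi.smul_apply, RingHom.id_apply, smul_eq_mul]
    split_ifs <;> simp

theorem blk_apply (k : Fin m) (c : Fin l → ℝ) (j : (Fin m × Fin l) × Bool) :
    blk k c j = if j.1.1 = k ∧ j.2 = false then c j.1.2 else 0 := rfl

theorem blk_inj (k : Fin m) : Function.Injective (blk (l := l) k) := by
  intro c c' h
  funext i
  have h1 : blk k c ((k, i), false) = blk k c' ((k, i), false) := by rw [h]
  rw [blk_apply, blk_apply] at h1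
  simpa using h1

theorem sum_blk {G : Type*} [AddCommGroup G] [Module ℝ G] (k : Fin m) (c : Fin l → ℝ)
    (f : (Fin m × Fin l) × Bool → G) :
    ∑ j, blk k c j • f j = ∑ i, c i • f ((k, i), false) := by
  rw [Fintype.sum_prod_type, Fintype.sum_prod_type]
  simp only [Fintype.sum_bool, blk_apply]
  rw [Finset.sum_eq_single k]
  · refine Finset.sum_congr rfl fun i _ => ?_
    simp
  · intro b _ hb
    refine Finset.sum_eq_zero fun i _ => ?_
    simp [hb]
  · intro h
    exact absurd (Finset.mem_univ k) h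

theorem norm_blk (k : Fin m) (c : Fin l → ℝ) : ‖blk k c‖ ^ 2 = ∑ i, c i ^ 2 := by
  rw [EuclideanSpace.real_norm_sq_eq]
  have h1 := sum_blk k c (fun j => blk k c j)
  have h2 : ∀ i, blk k c ((k, i), false) = c i := by
    intro i
    rw [blk_apply]
    simp
  simp only [smul_eq_mul, h2] at h1
  simp only [sq]
  exact h1

end Block

/-- **the family**: closed under reversal, with a uniform gap -/
theorem exists_fam (F : Facts e) (hD : 0 < D) (hB : InjGE e D) (hdiam : ∀ p q : M, dist p q ≤ D)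
    {l : ℕ} (hP : ∀ x y : M, dist x y = D → finrank ℝ (H775.Pl e D x y) = l + 1) :
    ∃ (ι : Type) (_ : Fintype ι) (_ : DecidableEq ι) (X δ : ι → UT E M → E) (ε : ℝ) (σ : ι ≃ ι),
      Fam F hD hB hdiam l X δ ε ∧ (∀ i, σ (σ i) = i) ∧ (∀ i v, X (σ i) v = X i (ng v)) ∧
      (∀ i v, δ (σ i) v = δ i (ng v)) := by
  obtain ⟨m, X, δ, ε, hε, hdf, hcov⟩ := exists_cover F hD hB hdiam hP
  let X' : (Fin m × Fin l) × Bool → UT E M → E := fun j v =>
    if j.2 = true then X j.1 (ng v) else X j.1 v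
  let δ' : (Fin m × Fin l) × Bool → UT E M → E := fun j v =>
    if j.2 = true then δ j.1 (ng v) else δ j.1 v
  let σ : (Fin m × Fin l) × Bool ≃ (Fin m × Fin l) × Bool :=
    (Equiv.refl _).prodCongr Equiv.boolNot
  have hσ : ∀ j, σ j = (j.1, !j.2) := fun j => rfl
  have hdf' : ∀ j, DF F hD hB hdiam (X' j) (δ' j) := by
    rintro ⟨p, b⟩
    cases b
    · exact hdf p
    · exact (hdf p).ng hP
  refine ⟨_, inferInstance, inferInstance, X', δ', ε / 2, σ, ⟨hdf', fun v => ?_⟩,
    fun i => ?_, fun i v => ?_, fun i v => ?_⟩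
  · obtain ⟨k, hk⟩ := hcov v
    refine ⟨LinearMap.range (blk (l := l) k), ?_, ?_⟩
    · rw [LinearMap.finrank_range_of_inj (blk_inj k), finrank_pi, Fintype.card_fin]
    · refine ⟨half_pos hε, Qm_symm F X' δ' v, ?_, ?_, ?_⟩
      · rintro _ ⟨c, rfl⟩
        rw [inner_Qm_self F (fun i => (hdf' i).fld) (fun i => (hdf' i).sfld), norm_blk]
        have h1 : XX X' (blk k c) = fun v => ∑ i, c i • X (k, i) v := by
          funext v
          exact sum_blk k c (fun j => X' j v)
        have h2 : XX δ' (blk k c) = fun v => ∑ i, c i • δ (k, i) v := by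
          funext v
          exact sum_blk k c (fun j => δ' j v)
        rw [h1, h2]
        have h3 := hk c
        linarith
      · intro x hx
        refine Qm_nonneg (hD := hD) (hB := hB) (hdiam := hdiam) hP hdf' v ?_
        have h1 : ThL F hD hB hdiam X' v x = 0 := hx
        rw [← ThL_apply, h1]
        rfl
      · have h1 := finrank_ker_ThL (F := F) (hD := hD) (hB := hB) (hdiam := hdiam) hP X' v
        rw [LinearMap.finrank_range_of_inj (blk_inj k), finrank_pi, Fintype.card_fin]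
        exact h1
  · rw [hσ, hσ, Bool.not_not]
  · obtain ⟨p, b⟩ := i
    rw [hσ]
    cases b
    · simp [X']
    · simp [X', ng_ng]
  · obtain ⟨p, b⟩ := i
    rw [hσ]
    cases b
    · simp [δ']
    · simp [δ', ng_ng]

end

end Vale.Agent.P231.S2N
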