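import Vale.Agent.P231.Fm.Homot

/-!
# P231, stage 2, S2-NEG: the negative spectral projection of a symmetric operator is a smooth
function of the operator
-/

set_option linter.unusedSectionVars false

open Set Filter Module Topology MeasureTheory
open scoped ContDiff

namespace Vale.Agent.P231.S2N

noncomputable section

/-- `∫ λ / (λ² cos² + sin²) = π / 2` for `λ > 0` -/
theorem integral_sgn_pos {l : ℝ} (hl : 0 < l) :
    ∫ θ in (0 : ℝ)..(Real.pi / 2), l / (Real.cos θ ^ 2 * l ^ 2 + Real.sin θ ^ 2) = Real.pi / 2 := by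
  have hpi := Real.pi_pos
  -- the curve `z θ = l cos θ + i sin θ` in the slit plane
  set z : ℝ → ℂ := fun θ => ((l * Real.cos θ : ℝ) : ℂ) + ((Real.sin θ : ℝ) : ℂ) * Complex.I with hz
  have hre : ∀ θ, (z θ).re = l * Real.cos θ := fun θ => by
    simp [hz, -Complex.ofReal_mul, -Complex.ofReal_cos, -Complex.ofReal_sin]
  have him : ∀ θ, (z θ).im = Real.sin θ := fun θ => by
    simp [hz, -Complex.ofReal_mul, -Complex.ofReal_cos, -Complex.ofReal_sin]
  have hden : ∀ θ : ℝ, 0 < Real.cos θ ^ 2 * l ^ 2 + Real.sin θ ^ 2 := by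
    intro θ
    by_cases h : Real.cos θ = 0
    · have h1 := Real.sin_sq_add_cos_sq θ
      rw [h] at h1 ⊢
      nlinarith
    · positivity
  have hslit : ∀ θ ∈ Icc (0 : ℝ) (Real.pi / 2), z θ ∈ Complex.slitPlane := by
    intro θ hθ
    rw [Complex.mem_slitPlane_iff, hre, him]
    by_cases h : θ = Real.pi / 2
    · right
      rw [h, Real.sin_pi_div_two]
      exact one_ne_zero
    · left
      exact mul_pos hl (Real.cos_pos_of_mem_Ioo ⟨by linarith [hθ.1], lt_of_le_of_ne hθ.2 h⟩)
  have hder : ∀ θ ∈ Icc (0 : ℝ) (Real.pi / 2), HasDerivAt (fun θ => (Complex.log (z θ)).im)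
      (l / (Real.cos θ ^ 2 * l ^ 2 + Real.sin θ ^ 2)) θ := by
    intro θ hθ
    have h1 : HasDerivAt z (((l * (-Real.sin θ) : ℝ) : ℂ) + ((Real.cos θ : ℝ) : ℂ) * Complex.I) θ := by
      have k1 : HasDerivAt (fun θ : ℝ => ((l * Real.cos θ : ℝ) : ℂ)) ((l * (-Real.sin θ) : ℝ) : ℂ) θ :=
        ((Real.hasDerivAt_cos θ).const_mul l).ofReal_comp
      have k2 : HasDerivAt (fun θ : ℝ => ((Real.sin θ : ℝ) : ℂ)) ((Real.cos θ : ℝ) : ℂ) θ :=
        (Real.hasDerivAt_sin θ).ofReal_comp
      exact k1.add (k2.mul_const Complex.I)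
    have h2 := h1.clog_real (hslit θ hθ)
    have h3 := (Complex.imCLM.hasFDerivAt (x := Complex.log (z θ))).comp_hasDerivAt θ h2
    have h4 : (Complex.imCLM ((((l * (-Real.sin θ) : ℝ) : ℂ) + ((Real.cos θ : ℝ) : ℂ) * Complex.I)
        / z θ)) = l / (Real.cos θ ^ 2 * l ^ 2 + Real.sin θ ^ 2) := by
      rw [Complex.imCLM_apply, Complex.div_im, hre, him, Complex.normSq_apply, hre, him]
      have h5 : l * Real.cos θ * (l * Real.cos θ) + Real.sin θ * Real.sin θ =
        Real.cos θ ^ 2 * l ^ 2 + Real.sin θ ^ 2 := by ring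
      rw [h5]
      have h6 := (hden θ).ne'
      have h7 := Real.sin_sq_add_cos_sq θ
      simp only [Complex.add_im, Complex.add_re, Complex.ofReal_im, Complex.ofReal_re,
        Complex.mul_im, Complex.mul_re, Complex.I_im, Complex.I_re]
      field_simp
      linear_combination l * h7
    rw [h4] at h3
    exact h3
  have hint := intervalIntegral.integral_eq_sub_of_hasDerivAt (a := 0) (b := Real.pi / 2)
    (f := fun θ => (Complex.log (z θ)).im)
    (f' := fun θ => l / (Real.cos θ ^ 2 * l ^ 2 + Real.sin θ ^ 2))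
    (fun θ hθ => hder θ (by rwa [uIcc_of_le (by positivity)] at hθ))
    (Continuous.intervalIntegrable (by
      refine continuous_const.div ?_ fun θ => (hden θ).ne'
      fun_prop) _ _)
  rw [hint]
  have h1 : z (Real.pi / 2) = Complex.I := by simp [hz]
  have h0 : z 0 = ((l : ℝ) : ℂ) := by simp [hz]
  rw [h1, h0, Complex.log_I, ← Complex.ofReal_log hl.le]
  simp

theorem integral_sgn_neg {l : ℝ} (hl : l < 0) :
    ∫ θ in (0 : ℝ)..(Real.pi / 2), l / (Real.cos θ ^ 2 * l ^ 2 + Real.sin θ ^ 2) =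
      -(Real.pi / 2) := by
  have h := integral_sgn_pos (l := -l) (by linarith)
  have h2 : ∫ θ in (0 : ℝ)..(Real.pi / 2), l / (Real.cos θ ^ 2 * l ^ 2 + Real.sin θ ^ 2) =
      -∫ θ in (0 : ℝ)..(Real.pi / 2), -l / (Real.cos θ ^ 2 * (-l) ^ 2 + Real.sin θ ^ 2) := by
    rw [← intervalIntegral.integral_neg]
    refine intervalIntegral.integral_congr fun θ _ => ?_
    simp only [neg_sq, neg_div, neg_neg]
  rw [h2, h]

theorem integral_sgn {l : ℝ} (hl : l ≠ 0) :
    ∫ t in (0 : ℝ)..1, l / (Real.cos (Real.pi / 2 * t) ^ 2 * l ^ 2 +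
      Real.sin (Real.pi / 2 * t) ^ 2) = SignType.sign l := by
  have hpi := Real.pi_pos
  have h1 := intervalIntegral.smul_integral_comp_mul_left (a := 0) (b := 1)
    (fun θ : ℝ => l / (Real.cos θ ^ 2 * l ^ 2 + Real.sin θ ^ 2)) (Real.pi / 2)
  simp only [mul_zero, mul_one, smul_eq_mul] at h1
  have h2 : (Real.pi / 2) ≠ 0 := by positivity
  rcases lt_or_gt_of_ne hl with h | h
  · rw [integral_sgn_neg h] at h1
    rw [sign_neg h]
    refine mul_left_cancel₀ h2 ?_
    rw [h1]
    simp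
  · rw [integral_sgn_pos h] at h1
    rw [sign_pos h]
    refine mul_left_cancel₀ h2 ?_
    rw [h1]
    simp

variable {V : Type*} [NormedAddCommGroup V] [InnerProductSpace ℝ V] [FiniteDimensional ℝ V]

/-- the denominator -/
def nn (c s : ℝ) (A : V →L[ℝ] V) : V →L[ℝ] V := c ^ 2 • (A * A) + s ^ 2 • 1

theorem nn_apply (c s : ℝ) (A : V →L[ℝ] V) (x : V) : nn c s A x = c ^ 2 • A (A x) + s ^ 2 • x := by
  simp [nn]

/-- the sign of an operator -/
def SG (A : V →L[ℝ] V) : V →L[ℝ] V :=
  ∫ t in (0 : ℝ)..1, A * Ring.inverse (nn (Real.cos (Real.pi / 2 * t)) (Real.sin (Real.pi / 2 * t)) A)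

/-- the domain of the sign function -/
def Dm (V : Type*) [NormedAddCommGroup V] [InnerProductSpace ℝ V] : Set (V →L[ℝ] V) :=
  {A | ∀ c s : ℝ, c ^ 2 + s ^ 2 = 1 → IsUnit (nn c s A)}

omit [FiniteDimensional ℝ V] in
theorem contDiff_nn (n : WithTop ℕ∞) :
    ContDiff ℝ n (fun p : (ℝ × ℝ) × (V →L[ℝ] V) => nn p.1.1 p.1.2 p.2) := by
  unfold nn
  have h1 : ContDiff ℝ n (fun p : (ℝ × ℝ) × (V →L[ℝ] V) => p.1.1) :=
    contDiff_fst.comp contDiff_fst
  have h2 : ContDiff ℝ n (fun p : (ℝ × ℝ) × (V →L[ℝ] V) => p.1.2) :=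
    contDiff_snd.comp contDiff_fst
  have h3 : ContDiff ℝ n (fun p : (ℝ × ℝ) × (V →L[ℝ] V) => p.2) := contDiff_snd
  exact ((h1.pow 2).smul (h3.mul h3)).add ((h2.pow 2).smul contDiff_const)

theorem isOpen_Dm : IsOpen (Dm V) := by
  have hV : CompleteSpace V := FiniteDimensional.complete ℝ V
  have hK : IsCompact {p : ℝ × ℝ | p.1 ^ 2 + p.2 ^ 2 = 1} := by
    refine Metric.isCompact_of_isClosed_isBounded ?_ ?_
    · exact isClosed_eq (by fun_prop) continuous_const
    · refine (Metric.isBounded_closedBall (x := (0 : ℝ × ℝ)) (r := 1)).subset fun p hp => ?_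
      have h1 : p.1 ^ 2 + p.2 ^ 2 = 1 := hp
      rw [mem_closedBall_zero_iff, Prod.norm_def, sup_le_iff, Real.norm_eq_abs, Real.norm_eq_abs]
      constructor
      · rw [abs_le_one_iff_mul_self_le_one]
        nlinarith
      · rw [abs_le_one_iff_mul_self_le_one]
        nlinarith
  rw [isOpen_iff_mem_nhds]
  intro A hA
  have h := hK.eventually_forall_of_forall_eventually (x₀ := A)
    (P := fun A (p : ℝ × ℝ) => IsUnit (nn p.1 p.2 A)) (by
      rintro ⟨c, s⟩ hcs
      have h1 : IsUnit (nn c s A) := hA c s hcs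
      have h2 : Continuous (fun z : (V →L[ℝ] V) × (ℝ × ℝ) => nn z.2.1 z.2.2 z.1) :=
        (contDiff_nn (V := V) 0).continuous.comp continuous_swap
      exact (h2.tendsto (A, (c, s))).eventually (Units.isOpen.mem_nhds h1))
  filter_upwards [h] with B hB c s hcs
  exact hB (c, s) hcs

theorem contDiffOn_SG : ContDiffOn ℝ ∞ (SG : (V →L[ℝ] V) → _) (Dm V) := by
  have hV : CompleteSpace V := FiniteDimensional.complete ℝ V
  refine Fm.contDiffOn_time (n := (⊤ : ℕ∞)) isOpen_Dm (g := fun p : (V →L[ℝ] V) × ℝ =>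
    p.1 * Ring.inverse (nn (Real.cos (Real.pi / 2 * p.2)) (Real.sin (Real.pi / 2 * p.2)) p.1)) ?_
  rintro ⟨A, t⟩ ⟨hA, -⟩
  have h1 : ContDiffAt ℝ ∞ (fun p : (V →L[ℝ] V) × ℝ =>
      nn (Real.cos (Real.pi / 2 * p.2)) (Real.sin (Real.pi / 2 * p.2)) p.1) (A, t) := by
    have h2 : ContDiff ℝ ∞ (fun p : (V →L[ℝ] V) × ℝ =>
        (((Real.cos (Real.pi / 2 * p.2), Real.sin (Real.pi / 2 * p.2)), p.1) :
          (ℝ × ℝ) × (V →L[ℝ] V))) := by
      have h3 : ContDiff ℝ ∞ (fun p : (V →L[ℝ] V) × ℝ => Real.pi / 2 * p.2) :=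
        contDiff_const.mul contDiff_snd
      exact ((Real.contDiff_cos.comp h3).prodMk (Real.contDiff_sin.comp h3)).prodMk contDiff_fst
    exact ((contDiff_nn ∞).comp h2).contDiffAt
  obtain ⟨u, hu⟩ := hA (Real.cos (Real.pi / 2 * t)) (Real.sin (Real.pi / 2 * t))
    (Real.cos_sq_add_sin_sq _)
  have h3 : ContDiffAt ℝ ∞ (Ring.inverse : (V →L[ℝ] V) → _)
      (nn (Real.cos (Real.pi / 2 * t)) (Real.sin (Real.pi / 2 * t)) A) := by
    rw [← hu]
    exact contDiffAt_ringInverse ℝ u
  have h4 := h3.comp (A, t) h1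
  exact (contDiffAt_fst.mul h4).contDiffWithinAt

theorem isUnit_nn {A : V →L[ℝ] V} (hA : ∀ x y, inner ℝ (A x) y = inner ℝ x (A y))
    (h0 : ∀ x, A x = 0 → x = 0) {c s : ℝ} (hcs : c ^ 2 + s ^ 2 = 1) : IsUnit (nn c s A) := by
  have hV : CompleteSpace V := FiniteDimensional.complete ℝ V
  have hinj : Function.Injective (nn c s A) := by
    rw [injective_iff_map_eq_zero]
    intro x hx
    have h1 : inner ℝ (nn c s A x) x = (0 : ℝ) := by rw [hx, inner_zero_left]
    rw [nn_apply, inner_add_left, inner_smul_left, inner_smul_left, hA,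
      real_inner_self_eq_norm_sq, real_inner_self_eq_norm_sq] at h1
    simp only [conj_trivial] at h1
    by_cases hs : s = 0
    · have hc : c ^ 2 = 1 := by rw [hs] at hcs; linarith
      rw [hs, hc] at h1
      have h2 : ‖A x‖ ^ 2 = 0 := by linarith
      exact h0 x (norm_eq_zero.1 (pow_eq_zero_iff two_ne_zero |>.1 h2))
    · have h2 : 0 < s ^ 2 := by positivity
      have h3 : 0 ≤ c ^ 2 * ‖A x‖ ^ 2 := by positivity
      have h4 : s ^ 2 * ‖x‖ ^ 2 = 0 := by
        have : 0 ≤ s ^ 2 * ‖x‖ ^ 2 := by positivity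
        linarith
      have h5 : ‖x‖ ^ 2 = 0 := (mul_eq_zero.1 h4).resolve_left h2.ne'
      exact norm_eq_zero.1 (pow_eq_zero_iff two_ne_zero |>.1 h5)
  rw [ContinuousLinearMap.isUnit_iff_bijective]
  exact ⟨hinj, LinearMap.surjective_of_injective (f := (nn c s A : V →ₗ[ℝ] V)) hinj⟩

theorem mem_Dm {A : V →L[ℝ] V} (hA : ∀ x y, inner ℝ (A x) y = inner ℝ x (A y))
    (h0 : ∀ x, A x = 0 → x = 0) : A ∈ Dm V := fun _ _ hcs => isUnit_nn hA h0 hcs

/-- the sign operator on eigenvectors -/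
theorem SG_apply {A : V →L[ℝ] V} (hA : A ∈ Dm V) {x : V} {l : ℝ} (hl : l ≠ 0)
    (hx : A x = l • x) : SG A x = (SignType.sign l : ℝ) • x := by
  have hV : CompleteSpace V := FiniteDimensional.complete ℝ V
  set g : ℝ → (V →L[ℝ] V) := fun t =>
    A * Ring.inverse (nn (Real.cos (Real.pi / 2 * t)) (Real.sin (Real.pi / 2 * t)) A) with hg
  have hcont : Continuous g := by
    have h1 : Continuous fun t : ℝ =>
        nn (Real.cos (Real.pi / 2 * t)) (Real.sin (Real.pi / 2 * t)) A := by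
      unfold nn
      fun_prop
    refine continuous_const.mul ?_
    rw [continuous_iff_continuousAt]
    intro t
    obtain ⟨u, hu⟩ := hA (Real.cos (Real.pi / 2 * t)) (Real.sin (Real.pi / 2 * t))
      (Real.cos_sq_add_sin_sq _)
    have h2 : ContinuousAt (Ring.inverse : (V →L[ℝ] V) → _)
        (nn (Real.cos (Real.pi / 2 * t)) (Real.sin (Real.pi / 2 * t)) A) := by
      rw [← hu]
      exact NormedRing.inverse_continuousAt u
    exact ContinuousAt.comp (f := fun t : ℝ =>
        nn (Real.cos (Real.pi / 2 * t)) (Real.sin (Real.pi / 2 * t)) A) h2 h1.continuousAt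
  have h1 : SG A x = ∫ t in (0 : ℝ)..1, g t x :=
    (ContinuousLinearMap.intervalIntegral_apply (hcont.intervalIntegrable 0 1) x)
  have h2 : ∀ t, g t x = (l / (Real.cos (Real.pi / 2 * t) ^ 2 * l ^ 2 +
      Real.sin (Real.pi / 2 * t) ^ 2)) • x := by
    intro t
    set c := Real.cos (Real.pi / 2 * t)
    set s := Real.sin (Real.pi / 2 * t)
    have hcs : c ^ 2 + s ^ 2 = 1 := Real.cos_sq_add_sin_sq _
    obtain ⟨u, hu⟩ := hA c s hcs
    set μ : ℝ := c ^ 2 * l ^ 2 + s ^ 2 with hμ
    have hμ0 : μ ≠ 0 := by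
      intro h
      have h3 : 0 ≤ c ^ 2 * l ^ 2 := by positivity
      have h4 : 0 ≤ s ^ 2 := by positivity
      have h5 : s ^ 2 = 0 := by linarith
      have h6 : c ^ 2 = 1 := by linarith
      rw [hμ, h5, h6] at h
      have : 0 < l ^ 2 := by positivity
      linarith
    have h3 : nn c s A x = μ • x := by
      rw [nn_apply, hx, map_smul, hx, smul_smul, smul_smul, ← add_smul]
      congr 1
      rw [hμ]
      ring
    have h4 : Ring.inverse (nn c s A) x = μ⁻¹ • x := by
      have h5 : Ring.inverse (nn c s A) * nn c s A = 1 := Ring.inverse_mul_cancel _ ⟨u, hu⟩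
      have h6 : Ring.inverse (nn c s A) (nn c s A x) = x := by
        have := congrArg (fun L : V →L[ℝ] V => L x) h5
        exact this
      rw [h3, map_smul] at h6
      rw [← h6, smul_smul, inv_mul_cancel₀ hμ0, one_smul, h6]
    change A (Ring.inverse (nn c s A) x) = _
    rw [h4, map_smul, hx, smul_smul]
    congr 1
    field_simp
  rw [h1, intervalIntegral.integral_congr (g := fun t => (l / (Real.cos (Real.pi / 2 * t) ^ 2 *
    l ^ 2 + Real.sin (Real.pi / 2 * t) ^ 2)) • x) fun t _ => h2 t,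
    intervalIntegral.integral_smul_const, integral_sgn hl]

/-- the spectral projection onto the negative space of `Q`, if there is no eigenvalue in
`(-2 δ, 0)` -/
def pm (δ : ℝ) (Q : V →L[ℝ] V) : V →L[ℝ] V := (1 / 2 : ℝ) • (1 - SG (Q + δ • 1))

/-- `Q` is symmetric, at most `-2 δ` on `F`, nonnegative on `K` -/
structure Gap (δ : ℝ) (Q : V →L[ℝ] V) (F K : Submodule ℝ V) : Prop where
  pos : 0 < δ
  symm : ∀ x y, inner ℝ (Q x) y = inner ℝ x (Q y)
  neg : ∀ x ∈ F, inner ℝ (Q x) x ≤ -2 * δ * ‖x‖ ^ 2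
  nonneg : ∀ x ∈ K, 0 ≤ inner ℝ (Q x) x
  dim : finrank ℝ V ≤ finrank ℝ F + finrank ℝ K

namespace Gap

variable {δ : ℝ} {Q : V →L[ℝ] V} {F K : Submodule ℝ V}

/-- eigenbasis with the gap -/
theorem exists_basis (h : Gap δ Q F K) : ∃ (b : OrthonormalBasis (Fin (finrank ℝ V)) ℝ V)
    (l : Fin (finrank ℝ V) → ℝ), (∀ i, Q (b i) = l i • b i) ∧
      (∀ i, l i ≤ -2 * δ ∨ 0 ≤ l i) ∧
      finrank ℝ F = (Finset.univ.filter fun i => l i < 0).card := by
  classical
  set n := finrank ℝ V with hn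
  have hs : (Q : V →ₗ[ℝ] V).IsSymmetric := h.symm
  set b := hs.eigenvectorBasis hn.symm with hb
  set l : Fin n → ℝ := hs.eigenvalues hn.symm with hl
  have hbl : ∀ i, Q (b i) = l i • b i := fun i => by
    have := hs.apply_eigenvectorBasis hn.symm i
    exact this
  have hfr : ∀ S : Finset (Fin n), finrank ℝ (Submodule.span ℝ (b '' (S : Set (Fin n)))) = S.card := by
    intro S
    have h1 : LinearIndependent ℝ (fun i : (S : Set (Fin n)) => b i) :=
      b.orthonormal.linearIndependent.comp _ Subtype.val_injective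
    have h2 := finrank_span_eq_card h1
    rw [← Set.image_eq_range] at h2
    rw [h2]
    simp
  have hq : ∀ (S : Finset (Fin n)) (x : V), x ∈ Submodule.span ℝ (b '' (S : Set (Fin n))) →
      (∀ i, i ∉ S → inner ℝ (b i) x = (0 : ℝ)) := by
    intro S x hx i hi
    induction hx using Submodule.span_induction with
    | mem z hz =>
      obtain ⟨j, hj, rfl⟩ := hz
      rw [orthonormal_iff_ite.1 b.orthonormal, if_neg]
      rintro rfl
      exact hi hj
    | zero => exact inner_zero_right _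
    | add a c _ _ ha hc => rw [inner_add_right, ha, hc, add_zero]
    | smul r a _ ha => rw [inner_smul_right, ha, mul_zero]
  have hQx : ∀ x, inner ℝ (Q x) x = ∑ i, l i * (inner ℝ (b i) x : ℝ) ^ 2 := by
    intro x
    have h1 : Q x = ∑ i, (inner ℝ (b i) x * l i : ℝ) • b i := by
      conv_lhs => rw [← b.sum_repr' x]
      rw [map_sum]
      refine Finset.sum_congr rfl fun i _ => ?_
      rw [map_smul, hbl, smul_smul]
    rw [h1, sum_inner]
    refine Finset.sum_congr rfl fun i _ => ?_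
    rw [inner_smul_left]
    simp only [conj_trivial]
    ring
  have hnx : ∀ x, ‖x‖ ^ 2 = ∑ i, (inner ℝ (b i) x : ℝ) ^ 2 := fun x => by
    have := b.sum_sq_norm_inner_right x
    simp only [Real.norm_eq_abs, sq_abs] at this
    exact this.symm
  set Sn : Finset (Fin n) := Finset.univ.filter fun i => l i < 0 with hSn
  set Sp : Finset (Fin n) := Finset.univ.filter fun i => -2 * δ < l i with hSp
  -- negative eigenvectors do not meet `K`
  have h1 : Sn.card + finrank ℝ K ≤ n := by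
    have hd : Disjoint (Submodule.span ℝ (b '' (Sn : Set (Fin n)))) K := by
      rw [Submodule.disjoint_def]
      intro x hx hxK
      have h2 := h.nonneg x hxK
      rw [hQx] at h2
      have h3 : ∀ i ∈ Finset.univ, l i * (inner ℝ (b i) x : ℝ) ^ 2 ≤ 0 := by
        intro i _
        by_cases hi : i ∈ Sn
        · have : l i < 0 := (Finset.mem_filter.1 hi).2
          nlinarith [sq_nonneg (inner ℝ (b i) x : ℝ)]
        · rw [hq _ _ hx i hi]
          simp
      have h4 : ∑ i, l i * (inner ℝ (b i) x : ℝ) ^ 2 = 0 :=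
        le_antisymm (Finset.sum_nonpos h3) h2
      have h5 := (Finset.sum_eq_zero_iff_of_nonpos h3).1 h4
      have h6 : ∀ i, (inner ℝ (b i) x : ℝ) = 0 := by
        intro i
        by_cases hi : i ∈ Sn
        · have h7 : l i < 0 := (Finset.mem_filter.1 hi).2
          have h8 := h5 i (Finset.mem_univ i)
          have h9 := (mul_eq_zero.1 h8).resolve_left h7.ne
          exact pow_eq_zero_iff two_ne_zero |>.1 h9
        · exact hq _ _ hx i hi
      have h7 : ‖x‖ ^ 2 = 0 := by
        rw [hnx]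
        exact Finset.sum_eq_zero fun i _ => by rw [h6 i]; norm_num
      exact norm_eq_zero.1 (pow_eq_zero_iff two_ne_zero |>.1 h7)
    have h2 := Submodule.finrank_add_finrank_le_of_disjoint hd
    rwa [hfr] at h2
  have h2 : finrank ℝ F + Sp.card ≤ n := by
    have hd : Disjoint F (Submodule.span ℝ (b '' (Sp : Set (Fin n)))) := by
      rw [Submodule.disjoint_def]
      intro x hxF hx
      have h2 := h.neg x hxF
      rw [hQx, hnx, Finset.mul_sum] at h2
      have h3 : ∀ i ∈ Finset.univ, -2 * δ * (inner ℝ (b i) x : ℝ) ^ 2 ≤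
          l i * (inner ℝ (b i) x : ℝ) ^ 2 := by
        intro i _
        by_cases hi : i ∈ Sp
        · have : -2 * δ < l i := (Finset.mem_filter.1 hi).2
          nlinarith [sq_nonneg (inner ℝ (b i) x : ℝ)]
        · rw [hq _ _ hx i hi]
          simp
      have h4 := (Finset.sum_eq_sum_iff_of_le h3).1 (le_antisymm (Finset.sum_le_sum h3) h2)
      have h6 : ∀ i, (inner ℝ (b i) x : ℝ) = 0 := by
        intro i
        by_cases hi : i ∈ Sp
        · have h7 : -2 * δ < l i := (Finset.mem_filter.1 hi).2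
          have h8 := h4 i (Finset.mem_univ i)
          have h9 : (l i - -2 * δ) * (inner ℝ (b i) x : ℝ) ^ 2 = 0 := by linarith
          have h10 := (mul_eq_zero.1 h9).resolve_left (by linarith)
          exact pow_eq_zero_iff two_ne_zero |>.1 h10
        · exact hq _ _ hx i hi
      have h7 : ‖x‖ ^ 2 = 0 := by
        rw [hnx]
        exact Finset.sum_eq_zero fun i _ => by rw [h6 i]; norm_num
      exact norm_eq_zero.1 (pow_eq_zero_iff two_ne_zero |>.1 h7)
    have h2 := Submodule.finrank_add_finrank_le_of_disjoint hd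
    rwa [hfr] at h2
  have h3 : Spᶜ ⊆ Sn := by
    intro i hi
    rw [Finset.mem_compl, Finset.mem_filter] at hi
    rw [Finset.mem_filter]
    refine ⟨Finset.mem_univ i, ?_⟩
    have h4 : ¬ (-2 * δ < l i) := fun h5 => hi ⟨Finset.mem_univ i, h5⟩
    have := h.pos
    linarith
  have h4 : Spᶜ.card = n - Sp.card := by rw [Finset.card_compl, Fintype.card_fin]
  have h5 := Finset.card_le_card h3
  have h6 := h.dim
  have h7 : Sp.card ≤ n := by
    have := Finset.card_le_univ Sp
    rwa [Fintype.card_fin] at this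
  have h8 : Spᶜ = Sn := Finset.eq_of_subset_of_card_le h3 (by omega)
  have h9 : finrank ℝ F = Sn.card := by omega
  refine ⟨b, l, hbl, fun i => ?_, by convert h9⟩
  by_cases hi : i ∈ Sn
  · rw [← h8, Finset.mem_compl, Finset.mem_filter] at hi
    left
    by_contra hcon
    exact hi ⟨Finset.mem_univ i, not_le.1 hcon⟩
  · right
    by_contra hcon
    exact hi (Finset.mem_filter.2 ⟨Finset.mem_univ i, not_le.1 hcon⟩)

/-- the projection on the eigenbasis -/
theorem pm_basis (h : Gap δ Q F K) {x : V} {l : ℝ} (hx : Q x = l • x)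
    (hl : l ≤ -2 * δ ∨ 0 ≤ l) (hm : Q + δ • 1 ∈ Dm V) :
    pm δ Q x = if l < 0 then x else 0 := by
  have hδ := h.pos
  have h1 : (Q + δ • (1 : V →L[ℝ] V)) x = (l + δ) • x := by
    simp [hx, add_smul]
  have h2 : l + δ ≠ 0 := by
    rcases hl with h3 | h3
    · intro h4; linarith
    · intro h4; linarith
  have h3 := SG_apply hm h2 h1
  have h4 : pm δ Q x = (1 / 2 : ℝ) • (x - SG (Q + δ • 1) x) := by
    simp [pm]
  rw [h4, h3]
  rcases hl with h5 | h5
  · have h6 : l + δ < 0 := by linarith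
    rw [sign_neg h6, if_pos (by linarith)]
    simp only [SignType.coe_neg, SignType.coe_one]
    module
  · have h6 : 0 < l + δ := by linarith
    rw [sign_pos h6, if_neg (not_lt.2 h5)]
    simp

theorem mem_Dm (h : Gap δ Q F K) : Q + δ • 1 ∈ Dm V := by
  obtain ⟨b, l, hb, hl, -⟩ := h.exists_basis
  have hδ := h.pos
  have hsym : ∀ x y, inner ℝ ((Q + δ • (1 : V →L[ℝ] V)) x) y =
      (inner ℝ x ((Q + δ • (1 : V →L[ℝ] V)) y) : ℝ) := by
    intro x y
    simp only [add_apply, smul_apply, one_apply_eq_self]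
    rw [inner_add_left, inner_add_right, h.symm, inner_smul_left, inner_smul_right]
    simp
  refine S2N.mem_Dm hsym fun x hx => ?_
  have h1 : ∀ i, (inner ℝ (b i) x : ℝ) = 0 := by
    intro i
    have h2 : inner ℝ (b i) ((Q + δ • (1 : V →L[ℝ] V)) x) = (0 : ℝ) := by
      rw [hx, inner_zero_right]
    rw [← hsym] at h2
    have h3 : (Q + δ • (1 : V →L[ℝ] V)) (b i) = (l i + δ) • b i := by
      simp [hb, add_smul]
    rw [h3, inner_smul_left] at h2
    simp only [conj_trivial] at h2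
    refine (mul_eq_zero.1 h2).resolve_left ?_
    rcases hl i with h4 | h4
    · intro h5; linarith
    · intro h5; linarith
  rw [← b.sum_repr' x]
  exact Finset.sum_eq_zero fun i _ => by rw [h1 i, zero_smul]

/-- the spectral projection, described in the eigenbasis -/
theorem pm_apply (h : Gap δ Q F K) {b : OrthonormalBasis (Fin (finrank ℝ V)) ℝ V}
    {l : Fin (finrank ℝ V) → ℝ} (hb : ∀ i, Q (b i) = l i • b i)
    (hl : ∀ i, l i ≤ -2 * δ ∨ 0 ≤ l i) (x : V) :
    pm δ Q x = ∑ i, (if l i < 0 then (inner ℝ (b i) x : ℝ) else 0) • b i := by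
  conv_lhs => rw [← b.sum_repr' x]
  rw [map_sum]
  refine Finset.sum_congr rfl fun i _ => ?_
  rw [map_smul, h.pm_basis (hb i) (hl i) h.mem_Dm]
  split_ifs
  · rfl
  · rw [smul_zero, zero_smul]

theorem inner_pm (h : Gap δ Q F K) {b : OrthonormalBasis (Fin (finrank ℝ V)) ℝ V}
    {l : Fin (finrank ℝ V) → ℝ} (hb : ∀ i, Q (b i) = l i • b i)
    (hl : ∀ i, l i ≤ -2 * δ ∨ 0 ≤ l i) (x : V) (i : Fin (finrank ℝ V)) :
    (inner ℝ (b i) (pm δ Q x) : ℝ) = if l i < 0 then (inner ℝ (b i) x : ℝ) else 0 := by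
  rw [h.pm_apply hb hl, inner_sum]
  simp only [inner_smul_right, orthonormal_iff_ite.1 b.orthonormal]
  simp

/-- the projection is a projection -/
theorem pm_pm (h : Gap δ Q F K) (x : V) : pm δ Q (pm δ Q x) = pm δ Q x := by
  obtain ⟨b, l, hb, hl, -⟩ := h.exists_basis
  rw [h.pm_apply hb hl (pm δ Q x)]
  conv_rhs => rw [h.pm_apply hb hl x]
  refine Finset.sum_congr rfl fun i _ => ?_
  rw [h.inner_pm hb hl]
  split_ifs <;> rfl

/-- the projection is symmetric -/
theorem pm_symm (h : Gap δ Q F K) (x y : V) :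
    inner ℝ (pm δ Q x) y = (inner ℝ x (pm δ Q y) : ℝ) := by
  obtain ⟨b, l, hb, hl, -⟩ := h.exists_basis
  rw [← b.sum_inner_mul_inner (pm δ Q x) y, ← b.sum_inner_mul_inner x (pm δ Q y)]
  refine Finset.sum_congr rfl fun i _ => ?_
  rw [real_inner_comm (b i) (pm δ Q x), h.inner_pm hb hl, h.inner_pm hb hl, real_inner_comm (b i) x]
  split_ifs <;> ring

/-- the form is negative on the range of the projection -/
theorem inner_neg_of_pm (h : Gap δ Q F K) {x : V} (hx : pm δ Q x = x) :
    inner ℝ (Q x) x ≤ -2 * δ * ‖x‖ ^ 2 := by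
  obtain ⟨b, l, hb, hl, -⟩ := h.exists_basis
  have h1 : ∀ i, 0 ≤ l i → (inner ℝ (b i) x : ℝ) = 0 := by
    intro i hi
    have h2 := h.inner_pm hb hl x i
    rw [hx, if_neg (not_lt.2 hi)] at h2
    exact h2
  have hQx : inner ℝ (Q x) x = ∑ i, l i * (inner ℝ (b i) x : ℝ) ^ 2 := by
    have h1 : Q x = ∑ i, (inner ℝ (b i) x * l i : ℝ) • b i := by
      conv_lhs => rw [← b.sum_repr' x]
      rw [map_sum]
      refine Finset.sum_congr rfl fun i _ => ?_
      rw [map_smul, hb, smul_smul]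
    rw [h1, sum_inner]
    refine Finset.sum_congr rfl fun i _ => ?_
    rw [inner_smul_left]
    simp only [conj_trivial]
    ring
  have hnx : ‖x‖ ^ 2 = ∑ i, (inner ℝ (b i) x : ℝ) ^ 2 := by
    have := b.sum_sq_norm_inner_right x
    simp only [Real.norm_eq_abs, sq_abs] at this
    exact this.symm
  rw [hQx, hnx, Finset.mul_sum]
  refine Finset.sum_le_sum fun i _ => ?_
  rcases hl i with h3 | h3
  · nlinarith [sq_nonneg (inner ℝ (b i) x : ℝ)]
  · rw [h1 i h3]
    simp

/-- the dimension of the negative space -/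
theorem finrank_range (h : Gap δ Q F K) :
    finrank ℝ (LinearMap.range (pm δ Q : V →ₗ[ℝ] V)) = finrank ℝ F := by
  classical
  obtain ⟨b, l, hb, hl, hF⟩ := h.exists_basis
  set Sn : Finset (Fin (finrank ℝ V)) := Finset.univ.filter fun i => l i < 0 with hSn
  have h1 : LinearMap.range (pm δ Q : V →ₗ[ℝ] V) =
      Submodule.span ℝ (b '' (Sn : Set (Fin (finrank ℝ V)))) := by
    apply le_antisymm
    · rintro _ ⟨x, rfl⟩
      change pm δ Q x ∈ _
      rw [h.pm_apply hb hl]
      refine Submodule.sum_mem _ fun i _ => ?_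
      by_cases hi : l i < 0
      · exact Submodule.smul_mem _ _ (Submodule.subset_span ⟨i, by simp [hSn, hi], rfl⟩)
      · rw [if_neg hi, zero_smul]
        exact Submodule.zero_mem _
    · rw [Submodule.span_le]
      rintro _ ⟨i, hi, rfl⟩
      have hi' : l i < 0 := by simpa [hSn] using hi
      refine ⟨b i, ?_⟩
      change pm δ Q (b i) = b i
      rw [h.pm_basis (hb i) (hl i) h.mem_Dm, if_pos hi']
  rw [h1]
  have h2 : LinearIndependent ℝ (fun i : (Sn : Set (Fin (finrank ℝ V))) => b i) :=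
    b.orthonormal.linearIndependent.comp _ Subtype.val_injective
  have h3 := finrank_span_eq_card h2
  rw [← Set.image_eq_range] at h3
  rw [h3, hF]
  simp [hSn]

/-- the projection depends smoothly on the operator -/
theorem contDiffAt_pm (h : Gap δ Q F K) : ContDiffAt ℝ ∞ (pm δ : (V →L[ℝ] V) → _) Q := by
  have h1 : ContDiffAt ℝ ∞ (SG : (V →L[ℝ] V) → _) (Q + δ • 1) :=
    contDiffOn_SG.contDiffAt (isOpen_Dm.mem_nhds h.mem_Dm)
  have h2 : ContDiffAt ℝ ∞ (fun Q : V →L[ℝ] V => SG (Q + δ • 1)) Q :=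
    ContDiffAt.comp (f := fun Q : V →L[ℝ] V => Q + δ • 1) Q h1
      (contDiffAt_id.add contDiffAt_const)
  exact (contDiffAt_const.sub h2).const_smul (1 / 2 : ℝ)

end Gap

end

end Vale.Agent.P231.S2N
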