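import Vale.Agent.P231.S2N.IndexGe
import Vale.Agent.P231.S2N.Spec

/-!
# P231, stage 2, S2-NEG: the finite family of fields and its index form
-/

set_option maxSynthPendingDepth 3
set_option linter.unusedSectionVars false
set_option linter.unusedVariables false

open Bundle Manifold Set Filter Module MeasureTheory
open scoped ContDiff Manifold Topology ENNReal

namespace Vale.Agent.P231.S2N

noncomputable section

open Vale.Agent.P234 Vale.Agent.P231 Vale.Agent.P231.Fm Vale.Agent.P231.W Vale.Agent.P231.WR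
open Vale.Agent.P231.H775 Vale.Agent.P231.WC Vale.Agent.P231.WF

variable {E : Type*} [NormedAddCommGroup E] [NormedSpace ℝ E]
  {M : Type*} [MetricSpace M] [ChartedSpace E M]
  [RiemannianBundle (fun x : M => TangentSpace 𝓘(ℝ, E) x)]
  {e : ∀ x : M, TangentSpace 𝓘(ℝ, E) x → M}
  [FiniteDimensional ℝ E] [IsManifold 𝓘(ℝ, E) ∞ M]
  [IsContMDiffRiemannianBundle 𝓘(ℝ, E) ∞ E (fun x : M => TangentSpace 𝓘(ℝ, E) x)]
  [CompactSpace M] [ConnectedSpace M] [IsRiemannianManifold 𝓘(ℝ, E) M]

variable {D : ℝ}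

/-! ### integrals over the closed geodesics -/

/-- the integral of the product of two fields over a closed geodesic -/
def nI (F : Facts e) (D : ℝ) (A B : UT E M → E) (v : UT E M) : ℝ :=
  ∫ t in (0 : ℝ)..(2 * D), ip (gm e (v, t)) (A (phi F (v, t))) (B (phi F (v, t)))

theorem nI_lin (F : Facts e) {ι ι' : Type*} [Fintype ι] [Fintype ι'] (c : ι → ℝ) (c' : ι' → ℝ)
    {A : ι → UT E M → E} {B : ι' → UT E M → E} (hA : ∀ i, Fld (A i)) (hB : ∀ i, Fld (B i))
    (v : UT E M) : nI F D (fun v => ∑ i, c i • A i v) (fun v => ∑ j, c' j • B j v) v =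
      ∑ i, ∑ j, c i * c' j * nI F D (A i) (B j) v := by
  have h1 : ∀ t, ip (gm e (v, t)) (∑ i, c i • A i (phi F (v, t))) (∑ j, c' j • B j (phi F (v, t))) =
      ∑ i, ∑ j, c i * c' j * ip (gm e (v, t)) (A i (phi F (v, t))) (B j (phi F (v, t))) := by
    intro t
    rw [ip_sum_left]
    refine Finset.sum_congr rfl fun i _ => ?_
    rw [ip_sum_right]
    refine Finset.sum_congr rfl fun j _ => ?_
    rw [ip_smul_left', ip_smul_right']
    ring
  have h2 : ∀ i j, Continuous fun t => c i * c' j *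
      ip (gm e (v, t)) (A i (phi F (v, t))) (B j (phi F (v, t))) := fun i j =>
    continuous_const.mul (cont_ip F (hA i) (hB j) v)
  unfold nI
  simp only [h1]
  rw [intervalIntegral.integral_finsetSum fun i _ =>
    (continuous_finsetSum _ fun j _ => h2 i j).intervalIntegrable _ _]
  refine Finset.sum_congr rfl fun i _ => ?_
  rw [intervalIntegral.integral_finsetSum fun j _ => (h2 i j).intervalIntegrable _ _]
  refine Finset.sum_congr rfl fun j _ => ?_
  rw [intervalIntegral.integral_const_mul]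

theorem map_nI (F : Facts e) {A B : UT E M → E} (hA : Fld A) (hB : Fld B) :
    (dUT E M).Map (Dif.lin ℝ) (nI F D A B) := by
  have h1 : ((dUT E M).prod (Dif.lin ℝ)).Map (Dif.lin ℝ)
      (fun p : UT E M × ℝ => ip (gm e p) (A (phi F p)) (B (phi F p))) :=
    fun {E'} _ _ _ {u x} hu => (hA.ip hB) (map_phi F hu)
  have h2 : (dUT E M).Map (Dif.lin ℝ) (fun v : UT E M => ∫ t in (0 : ℝ)..(2 * D),
      (fun p : UT E M × ℝ => ip (gm e p) (A (phi F p)) (B (phi F p))) (v, t)) :=
    H766.map_integral h1 (2 * D)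
  exact fun {E'} _ _ _ {u x} hu => h2 hu

theorem nI_phi (F : Facts e) (hD : 0 < D) (hB : InjGE e D) (hdiam : ∀ p q : M, dist p q ≤ D)
    (A B : UT E M → E) (v : UT E M) (s : ℝ) : nI F D A B (phi F (v, s)) = nI F D A B v := by
  set f : ℝ → ℝ := fun t => ip (gm e (v, t)) (A (phi F (v, t))) (B (phi F (v, t))) with hf
  have hper : Function.Periodic f (2 * D) := by
    intro t
    have k := W.phi_per F hD hB hdiam (phi F (v, t))
    rw [phi_add] at k
    have k2 : gm e (v, t + 2 * D) = gm e (v, t) := congrArg foot k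
    simp only [hf]
    rw [k, k2]
  have h1 : nI F D A B (phi F (v, s)) = ∫ t in (0 : ℝ)..(2 * D), f (s + t) := by
    unfold nI
    refine intervalIntegral.integral_congr fun t _ => ?_
    simp only [hf]
    rw [phi_add, gm_phi]
  rw [h1, intervalIntegral.integral_comp_add_left, add_zero]
  have h2 := hper.intervalIntegral_add_eq s 0
  rw [zero_add] at h2
  exact h2

theorem nI_ng (F : Facts e) (hD : 0 < D) (hB : InjGE e D) (hdiam : ∀ p q : M, dist p q ≤ D)
    (A B : UT E M → E) (v : UT E M) :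
    nI F D (fun v => A (ng v)) (fun v => B (ng v)) v = nI F D A B (ng v) := by
  set f : ℝ → ℝ := fun t => ip (gm e (ng v, t)) (A (phi F (ng v, t))) (B (phi F (ng v, t))) with hf
  have hper : Function.Periodic f (2 * D) := by
    intro t
    have k := W.phi_per F hD hB hdiam (phi F (ng v, t))
    rw [phi_add] at k
    have k2 : gm e (ng v, t + 2 * D) = gm e (ng v, t) := congrArg foot k
    simp only [hf]
    rw [k, k2]
  have h1 : nI F D (fun v => A (ng v)) (fun v => B (ng v)) v =
      ∫ t in (0 : ℝ)..(2 * D), f (-t) := by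
    unfold nI
    refine intervalIntegral.integral_congr fun t _ => ?_
    simp only [hf]
    rw [ng_phi, gm_ng, neg_neg]
  rw [h1, intervalIntegral.integral_comp_neg, neg_zero]
  have h2 := hper.intervalIntegral_add_eq (-(2 * D)) 0
  rw [neg_add_cancel, zero_add] at h2
  exact h2

/-! ### finite families and their index form -/

section Family

variable {ι : Type} [Fintype ι] [DecidableEq ι]

/-- the combinations of a family -/
def XX (X : ι → UT E M → E) (x : EuclideanSpace ℝ ι) (v : UT E M) : E := ∑ i, x i • X i v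

theorem XX_add (X : ι → UT E M → E) (x y : EuclideanSpace ℝ ι) (v : UT E M) :
    XX X (x + y) v = XX X x v + XX X y v := by
  unfold XX
  rw [← Finset.sum_add_distrib]
  exact Finset.sum_congr rfl fun i _ => by rw [PiLp.add_apply, add_smul]

theorem XX_smul (X : ι → UT E M → E) (c : ℝ) (x : EuclideanSpace ℝ ι) (v : UT E M) :
    XX X (c • x) v = c • XX X x v := by
  unfold XX
  rw [Finset.smul_sum]
  exact Finset.sum_congr rfl fun i _ => by rw [PiLp.smul_apply, smul_eq_mul, mul_smul]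

theorem DF.xx {F : Facts e} {hD : 0 < D} {hB : InjGE e D} {hdiam : ∀ p q : M, dist p q ≤ D}
    {X δ : ι → UT E M → E} (h : ∀ i, DF F hD hB hdiam (X i) (δ i)) (x : EuclideanSpace ℝ ι) :
    DF F hD hB hdiam (XX X x) (XX δ x) :=
  DF.sum Finset.univ (X := fun i v => x i • X i v) (δ := fun i v => x i • δ i v)
    fun i => (h i).smul (x i)

/-- the elementary operators -/
def Em (i j : ι) : EuclideanSpace ℝ ι →L[ℝ] EuclideanSpace ℝ ι :=
  (innerSL ℝ (EuclideanSpace.single j (1 : ℝ))).smulRight (EuclideanSpace.single i (1 : ℝ))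

theorem inner_Em (i j : ι) (x y : EuclideanSpace ℝ ι) : inner ℝ (Em i j x) y = x j * y i := by
  simp only [Em, ContinuousLinearMap.smulRight_apply, innerSL_apply_apply,
    EuclideanSpace.inner_single_left, map_one, one_mul, inner_smul_left, conj_trivial]

/-- the coefficients of the index form -/
def qc (F : Facts e) (D : ℝ) (X δ : ι → UT E M → E) (i j : ι) (v : UT E M) : ℝ :=
  -(1 / 2 : ℝ) * (nI F D (δ i) (X j) v + nI F D (δ j) (X i) v)

/-- the operator of the index form -/
def Qm (F : Facts e) (D : ℝ) (X δ : ι → UT E M → E) (v : UT E M) :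
    EuclideanSpace ℝ ι →L[ℝ] EuclideanSpace ℝ ι :=
  ∑ i, ∑ j, qc F D X δ i j v • Em i j

theorem inner_Qm (F : Facts e) (X δ : ι → UT E M → E) (v : UT E M) (x y : EuclideanSpace ℝ ι) :
    inner ℝ (Qm F D X δ v x) y = ∑ i, ∑ j, qc F D X δ i j v * (x j * y i) := by
  unfold Qm
  simp only [sum_apply, smul_apply, sum_inner, inner_smul_left, inner_Em, conj_trivial]

theorem qc_symm (F : Facts e) (X δ : ι → UT E M → E) (i j : ι) (v : UT E M) :
    qc F D X δ i j v = qc F D X δ j i v := by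
  unfold qc
  rw [add_comm]

theorem Qm_symm (F : Facts e) (X δ : ι → UT E M → E) (v : UT E M) (x y : EuclideanSpace ℝ ι) :
    inner ℝ (Qm F D X δ v x) y = (inner ℝ x (Qm F D X δ v y) : ℝ) := by
  rw [real_inner_comm (Qm F D X δ v y) x, inner_Qm, inner_Qm, Finset.sum_comm]
  refine Finset.sum_congr rfl fun i _ => Finset.sum_congr rfl fun j _ => ?_
  rw [qc_symm]
  ring

/-- the index form is minus the integral of the product of the field with its source -/
theorem inner_Qm_self (F : Facts e) {X δ : ι → UT E M → E} (hX : ∀ i, Fld (X i))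
    (hδ : ∀ i, Fld (δ i)) (v : UT E M) (x : EuclideanSpace ℝ ι) :
    inner ℝ (Qm F D X δ v x) x = -nI F D (XX δ x) (XX X x) v := by
  rw [inner_Qm]
  have h1 : nI F D (XX δ x) (XX X x) v = ∑ i, ∑ j, x i * x j * nI F D (δ i) (X j) v :=
    nI_lin F (fun i => x i) (fun j => x j) hδ hX v
  have h2 : ∑ i, ∑ j, x i * x j * nI F D (δ j) (X i) v =
      ∑ i, ∑ j, x i * x j * nI F D (δ i) (X j) v := by
    rw [Finset.sum_comm]
    refine Finset.sum_congr rfl fun i _ => Finset.sum_congr rfl fun j _ => ?_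
    ring
  have h3 : ∑ i, ∑ j, qc F D X δ i j v * (x j * x i) =
      -(1 / 2 : ℝ) * (∑ i, ∑ j, x i * x j * nI F D (δ i) (X j) v +
        ∑ i, ∑ j, x i * x j * nI F D (δ j) (X i) v) := by
    rw [← Finset.sum_add_distrib, Finset.mul_sum]
    refine Finset.sum_congr rfl fun i _ => ?_
    rw [← Finset.sum_add_distrib, Finset.mul_sum]
    refine Finset.sum_congr rfl fun j _ => ?_
    unfold qc
    ring
  rw [h3, h2, h1]
  ring

theorem Qm_phi (F : Facts e) (hD : 0 < D) (hB : InjGE e D) (hdiam : ∀ p q : M, dist p q ≤ D)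
    (X δ : ι → UT E M → E) (v : UT E M) (s : ℝ) :
    Qm F D X δ (phi F (v, s)) = Qm F D X δ v := by
  unfold Qm qc
  simp only [nI_phi F hD hB hdiam]

theorem map_Qm (F : Facts e) {X δ : ι → UT E M → E} (hX : ∀ i, Fld (X i))
    (hδ : ∀ i, Fld (δ i)) :
    (dUT E M).Map (Dif.lin (EuclideanSpace ℝ ι →L[ℝ] EuclideanSpace ℝ ι)) (Qm F D X δ) := by
  intro E' _ _ _ u x hu
  have h1 : ∀ i j, ∀ᶠ s in 𝓝 x, ContDiffAt ℝ ∞ (fun s => qc F D X δ i j (u s)) s := by
    intro i j
    have k1 : Sm (fun s => nI F D (δ i) (X j) (u s)) x := map_nI F (hδ i) (hX j) hu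
    have k2 : Sm (fun s => nI F D (δ j) (X i) (u s)) x := map_nI F (hδ j) (hX i) hu
    filter_upwards [k1, k2] with s g1 g2
    exact contDiffAt_const.mul (g1.add g2)
  have h2 : ∀ᶠ s in 𝓝 x, ∀ i j, ContDiffAt ℝ ∞ (fun s => qc F D X δ i j (u s)) s :=
    eventually_all.2 fun i => eventually_all.2 fun j => h1 i j
  change ∀ᶠ s in 𝓝 x, ContDiffAt ℝ ∞ (fun s => ∑ i, ∑ j, qc F D X δ i j (u s) • Em i j) s
  filter_upwards [h2] with s hs
  exact ContDiffAt.sum fun i _ => ContDiffAt.sum fun j _ => (hs i j).smul contDiffAt_const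

/-! ### the boundary operator `Θ` -/

/-- the adjoint of the transport is the transport back -/
theorem adj_Tr (F : Facts e) (hD : 0 < D) (hB : InjGE e D) (hdiam : ∀ p q : M, dist p q ≤ D)
    (v : UT E M) {w : E} (hw : (w : TangentSpace 𝓘(ℝ, E) (foot v)) ∈ Lf e D v) (b : E) :
    ip (foot v) w (Tr F hD hB hdiam (phi F (v, D)) b) =
      ip (gm e (v, D)) (Tr F hD hB hdiam v w) b := by
  have h1 := ip_Tr F hD hB hdiam (phi F (v, D)) (Tr F hD hB hdiam v w) b
  rw [Tr_Tr_of_mem F hD hB hdiam hw, bar_phi F hD hB hdiam v] at h1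
  have h2 := Tr_mem F hD hB hdiam v w
  rw [h1, ← ip_prL, prL_of_mem h2, prL_of_mem h2]
  rfl

/-- the boundary operator -/
def Th0 (F : Facts e) (hD : 0 < D) (hB : InjGE e D) (hdiam : ∀ p q : M, dist p q ≤ D)
    (X : UT E M → E) (v : UT E M) : E :=
  prL e D v (X v) - Tr F hD hB hdiam (phi F (v, D)) (X (phi F (v, D)))

theorem Th0_mem (F : Facts e) (hD : 0 < D) (hB : InjGE e D) (hdiam : ∀ p q : M, dist p q ≤ D)
    (X : UT E M → E) (v : UT E M) :
    (Th0 (E := E) F hD hB hdiam X v : TangentSpace 𝓘(ℝ, E) (foot v)) ∈ Lf e D v := by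
  refine Submodule.sub_mem _ (prL_mem D v _) ?_
  have h1 := Tr_mem F hD hB hdiam (phi F (v, D)) (X (phi F (v, D)))
  rw [phi_D_D F hD hB hdiam] at h1
  exact h1

theorem ip_Th0 (F : Facts e) (hD : 0 < D) (hB : InjGE e D) (hdiam : ∀ p q : M, dist p q ≤ D)
    (X : UT E M → E) (v : UT E M) {w : E}
    (hw : (w : TangentSpace 𝓘(ℝ, E) (foot v)) ∈ Lf e D v) :
    ip (foot v) w (Th0 F hD hB hdiam X v) =
      ip (foot v) w (X v) - ip (gm e (v, D)) (Tr F hD hB hdiam v w) (X (phi F (v, D))) := by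
  unfold Th0
  rw [ip_sub_right', adj_Tr F hD hB hdiam v hw, ← ip_prL, prL_of_mem hw]

theorem Th0_half (F : Facts e) (hD : 0 < D) (hB : InjGE e D) (hdiam : ∀ p q : M, dist p q ≤ D)
    (X : UT E M → E) (v : UT E M) :
    Th0 F hD hB hdiam X (phi F (v, D)) = -Tr F hD hB hdiam v (Th0 F hD hB hdiam X v) := by
  unfold Th0
  rw [phi_D_D F hD hB hdiam, ← TrL_apply, ← TrL_apply, map_sub, TrL_apply, TrL_apply, TrL_apply,
    Tr_prL]
  have h3 := Tr_Tr F hD hB hdiam (phi F (v, D)) (X (phi F (v, D)))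
  rw [phi_D_D F hD hB hdiam] at h3
  rw [h3, neg_sub]

/-- the boundary operator is smooth -/
theorem fld_Th0 (F : Facts e) (hD : 0 < D) (hB : InjGE e D) (hdiam : ∀ p q : M, dist p q ≤ D)
    {l : ℕ} (hP : ∀ x y : M, dist x y = D → finrank ℝ (H775.Pl e D x y) = l + 1)
    {X : UT E M → E} (hX : Fld X) : Fld (Th0 F hD hB hdiam X) := by
  refine ⟨fun {E'} _ _ _ {u x} hu => ?_⟩
  have h1 := at_prL F hD hB hdiam hP hu (hX.map hu)
  have hu' : (dUT E M).At (fun s => phi F (u s, D)) x := map_phiD F D hu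
  have h3 := at_Tr F hD hB hdiam hP hu' (hX.map hu')
  have h4 : (dTM E M).At (fun s => tb (foot (u s))
      (Tr F hD hB hdiam (phi F (u s, D)) (X (phi F (u s, D))))) x := by
    have k : (fun s => tb (foot (u s)) (Tr F hD hB hdiam (phi F (u s, D)) (X (phi F (u s, D))))) =
        fun s => tb (gm e (phi F (u s, D), D))
          (Tr F hD hB hdiam (phi F (u s, D)) (X (phi F (u s, D)))) := by
      funext s
      refine tb_congr ?_ rfl
      exact (congrArg foot (phi_D_D F hD hB hdiam (u s))).symm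
    rw [k]
    exact h3
  have h5 := at_smul (f := fun s => foot (u s)) (Sm.of_contDiff (contDiff_const (c := (-1 : ℝ))) x) h4
  have h6 := at_add (f := fun s => foot (u s)) h1 h5
  have h7 : ((fun v : UT E M => tb (foot v) (Th0 F hD hB hdiam X v)) ∘ u) = fun s =>
      tb (foot (u s)) (prL e D (u s) (X (u s)) + (-1 : ℝ) •
        Tr F hD hB hdiam (phi F (u s, D)) (X (phi F (u s, D)))) := by
    funext s
    refine tb_congr rfl ?_
    rw [neg_smul, one_smul, ← sub_eq_add_neg]
    rfl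
  rw [h7]
  exact h6

/-- the boundary operator of a family -/
def ThL (F : Facts e) (hD : 0 < D) (hB : InjGE e D) (hdiam : ∀ p q : M, dist p q ≤ D)
    (X : ι → UT E M → E) (v : UT E M) : EuclideanSpace ℝ ι →ₗ[ℝ] Lf e D v where
  toFun x := ⟨Th0 (E := E) F hD hB hdiam (XX X x) v, Th0_mem F hD hB hdiam _ v⟩
  map_add' x y := by
    refine Subtype.ext ?_
    change (Th0 F hD hB hdiam (XX X (x + y)) v : E) =
      Th0 F hD hB hdiam (XX X x) v + Th0 F hD hB hdiam (XX X y) v
    unfold Th0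
    rw [XX_add, XX_add, prL_add, Tr_add]
    abel
  map_smul' c x := by
    refine Subtype.ext ?_
    change (Th0 F hD hB hdiam (XX X (c • x)) v : E) = c • Th0 F hD hB hdiam (XX X x) v
    unfold Th0
    rw [XX_smul, XX_smul, prL_smul, Tr_smul, smul_sub]

theorem ThL_apply (F : Facts e) (hD : 0 < D) (hB : InjGE e D) (hdiam : ∀ p q : M, dist p q ≤ D)
    (X : ι → UT E M → E) (v : UT E M) (x : EuclideanSpace ℝ ι) :
    ((ThL F hD hB hdiam X v x : TangentSpace 𝓘(ℝ, E) (foot v)) : E) =
      Th0 F hD hB hdiam (XX X x) v := rfl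

/-- the index form is nonnegative on the kernel of the boundary operator -/
theorem Qm_nonneg {F : Facts e} {hD : 0 < D} {hB : InjGE e D} {hdiam : ∀ p q : M, dist p q ≤ D}
    {l : ℕ} (hP : ∀ x y : M, dist x y = D → finrank ℝ (H775.Pl e D x y) = l + 1)
    {X δ : ι → UT E M → E} (h : ∀ i, DF F hD hB hdiam (X i) (δ i)) (v : UT E M)
    {x : EuclideanSpace ℝ ι} (hx : Th0 F hD hB hdiam (XX X x) v = 0) :
    0 ≤ (inner ℝ (Qm F D X δ v x) x : ℝ) := by
  rw [inner_Qm_self F (fun i => (h i).fld) (fun i => (h i).sfld)]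
  have h1 := (DF.xx h x).int_nonpos hP v (fun w hw => by
    have h2 := ip_Th0 F hD hB hdiam (XX X x) v hw
    rw [hx] at h2
    have h3 : ip (foot v) w (0 : E) = 0 :=
      inner_zero_right (E := TangentSpace 𝓘(ℝ, E) (foot v)) (𝕜 := ℝ) _
    rw [h3] at h2
    linarith)
  have h4 : nI F D (XX δ x) (XX X x) v ≤ 0 := h1
  linarith

theorem finrank_ker_ThL {F : Facts e} {hD : 0 < D} {hB : InjGE e D}
    {hdiam : ∀ p q : M, dist p q ≤ D} {l : ℕ}
    (hP : ∀ x y : M, dist x y = D → finrank ℝ (H775.Pl e D x y) = l + 1)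
    (X : ι → UT E M → E) (v : UT E M) :
    finrank ℝ (EuclideanSpace ℝ ι) ≤ l +
      finrank ℝ (LinearMap.ker (ThL F hD hB hdiam X v)) := by
  have h1 := LinearMap.finrank_range_add_finrank_ker (ThL F hD hB hdiam X v)
  have h2 := finrank_Lf F hD hB hP v
  have h3 : FiniteDimensional ℝ (Lf e D v) := by
    have h4 : FiniteDimensional ℝ (TangentSpace 𝓘(ℝ, E) (foot v)) :=
      inferInstanceAs (FiniteDimensional ℝ E)
    infer_instance
  have h5 := Submodule.finrank_le (LinearMap.range (ThL F hD hB hdiam X v))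
  omega

end Family

end

end Vale.Agent.P231.S2N
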