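import Vale.Agent.P231.H583.YPos

/-!
# P231, stage 2, S2-NEG: vector fields along the unit tangent bundle, sections of the kernel
bundle `L`, and the fields `Y_W(v) = ∫₀ᴰ J_{φ₋ᵣ v, W}(r) dr`
-/

set_option maxSynthPendingDepth 3
set_option linter.unusedSectionVars false
set_option linter.unusedVariables false

open Bundle Manifold Set Filter Module
open scoped ContDiff Manifold Topology

namespace Vale.Agent.P231.S2N

noncomputable section

open Vale.Agent.P234 Vale.Agent.P231 Vale.Agent.P231.Fm Vale.Agent.P231.W Vale.Agent.P231.WR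
open Vale.Agent.P231.H775

variable {E : Type*} [NormedAddCommGroup E] [NormedSpace ℝ E]
  {M : Type*} [MetricSpace M] [ChartedSpace E M]
  [RiemannianBundle (fun x : M => TangentSpace 𝓘(ℝ, E) x)]
  {e : ∀ x : M, TangentSpace 𝓘(ℝ, E) x → M}
  [FiniteDimensional ℝ E] [IsManifold 𝓘(ℝ, E) ∞ M]
  [IsContMDiffRiemannianBundle 𝓘(ℝ, E) ∞ E (fun x : M => TangentSpace 𝓘(ℝ, E) x)]

/-! ### smooth fields over the unit tangent bundle -/

/-- smooth fields of tangent vectors at the foot -/
structure Fld (X : UT E M → E) : Prop where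
  map : (dUT E M).Map (dTM E M) (fun v => tb (foot v) (X v))

section PlotsFld

variable {E' : Type} [NormedAddCommGroup E'] [NormedSpace ℝ E'] [FiniteDimensional ℝ E']

theorem at_tb {f : E' → M} {a : E' → E} {x : E'} :
    (dTM E M).At (fun s => tb (f s) (a s)) x ↔
      ∀ᶠ s in 𝓝 x, SmV f (fun s => (a s : TangentSpace 𝓘(ℝ, E) (f s))) s := Iff.rfl

theorem at_add {f : E' → M} {a b : E' → E} {x : E'} (ha : (dTM E M).At (fun s => tb (f s) (a s)) x)
    (hb : (dTM E M).At (fun s => tb (f s) (b s)) x) :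
    (dTM E M).At (fun s => tb (f s) (a s + b s)) x := by
  rw [at_tb] at ha hb ⊢
  filter_upwards [ha, hb] with s h1 h2
  exact h1.add h2

theorem at_smul {f : E' → M} {a : E' → E} {c : E' → ℝ} {x : E'} (hc : Sm c x)
    (ha : (dTM E M).At (fun s => tb (f s) (a s)) x) :
    (dTM E M).At (fun s => tb (f s) (c s • a s)) x := by
  rw [at_tb] at ha ⊢
  filter_upwards [ha, hc] with s h1 h2
  exact h1.smul h2

theorem sm_ip_tb {f : E' → M} {a b : E' → E} {x : E'}
    (ha : (dTM E M).At (fun s => tb (f s) (a s)) x)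
    (hb : (dTM E M).At (fun s => tb (f s) (b s)) x) :
    Sm (fun s => ip (f s) (a s) (b s)) x := by
  rw [at_tb] at ha hb
  filter_upwards [ha, hb] with s h1 h2
  exact h1.inner h2

end PlotsFld

theorem Fld.add {X Y : UT E M → E} (hX : Fld X) (hY : Fld Y) : Fld (fun v => X v + Y v) :=
  ⟨fun {E'} _ _ _ {u x} h => at_add (hX.map h) (hY.map h)⟩

theorem Fld.smul {X : UT E M → E} {c : UT E M → ℝ} (hc : (dUT E M).Map (Dif.lin ℝ) c)
    (hX : Fld X) : Fld (fun v => c v • X v) :=
  ⟨fun {E'} _ _ _ {u x} h => at_smul (f := fun s => foot (u s)) (hc h) (hX.map h)⟩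

theorem Fld.const_smul {X : UT E M → E} (c : ℝ) (hX : Fld X) : Fld (fun v => c • X v) :=
  Fld.smul (c := fun _ => c) (fun {E'} _ _ _ {u x} h => Sm.of_contDiff contDiff_const x) hX

theorem Fld.zero : Fld (fun _ : UT E M => (0 : E)) := by
  refine ⟨fun {E'} _ _ _ {u x} h => ?_⟩
  have h1 : ∀ᶠ s in 𝓝 x, SmV (fun s => foot (u s)) (fun s => tv (u s)) s := h
  have h2 : (dTM E M).At (fun s => tb (foot (u s)) ((0 : ℝ) • vec' (u s))) x :=
    at_smul (Sm.of_contDiff contDiff_const x) h1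
  have h3 : ((fun v : UT E M => tb (foot v) (0 : E)) ∘ u) =
      fun s => tb (foot (u s)) ((0 : ℝ) • vec' (u s)) := by
    funext s
    exact tb_congr rfl (zero_smul ℝ _).symm
  rw [h3]
  exact h2

theorem Fld.sum {ι : Type*} (t : Finset ι) {X : ι → UT E M → E} (hX : ∀ i, Fld (X i)) :
    Fld (fun v => ∑ i ∈ t, X i v) := by
  classical
  induction t using Finset.induction_on with
  | empty => simpa using Fld.zero
  | insert i t hi ih =>
    simp only [Finset.sum_insert hi]
    exact (hX i).add ih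

theorem Fld.ip {X Y : UT E M → E} (hX : Fld X) (hY : Fld Y) :
    (dUT E M).Map (Dif.lin ℝ) (fun v => ip (foot v) (X v) (Y v)) :=
  fun {E'} _ _ _ {u x} h => sm_ip_tb (hX.map h) (hY.map h)

theorem Fld.congr {X Y : UT E M → E} (hX : Fld X) (h : ∀ v, X v = Y v) : Fld Y := by
  have : X = Y := funext h
  rwa [← this]

variable [CompactSpace M] [ConnectedSpace M] [IsRiemannianManifold 𝓘(ℝ, E) M]

/-- pulling back along the geodesic flow: smoothness of `(v, t) ↦ X (φ_t v)` -/
theorem Fld.flow (F : Facts e) {X : UT E M → E} (hX : Fld X) :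
    ((dUT E M).prod (Dif.lin ℝ)).Map (dTM E M) (fun p => tb (gm e p) (X (phi F p))) :=
  fun {E'} _ _ _ {u x} h => hX.map (map_phi F h)

/-! ### sections of the kernel bundle -/

/-- smooth sections of `L` (of variable length) -/
structure LS (e : ∀ x : M, TangentSpace 𝓘(ℝ, E) x → M) (D : ℝ) (W : UT E M → E) : Prop where
  fld : Fld W
  mem : ∀ v : UT E M, (W v : TangentSpace 𝓘(ℝ, E) (foot v)) ∈ H775.Pl e D (bar e D v) (foot v)
  orth : ∀ v : UT E M, ip (foot v) (vec' v) (W v) = 0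

theorem LS.add {D : ℝ} {W W' : UT E M → E} (h : LS e D W) (h' : LS e D W') :
    LS e D (fun v => W v + W' v) where
  fld := h.fld.add h'.fld
  mem v := Submodule.add_mem _ (h.mem v) (h'.mem v)
  orth v := by rw [ip_add_right', h.orth, h'.orth, add_zero]

theorem LS.smul {D : ℝ} {W : UT E M → E} {c : UT E M → ℝ}
    (hc : (dUT E M).Map (Dif.lin ℝ) c) (h : LS e D W) : LS e D (fun v => c v • W v) where
  fld := h.fld.smul hc
  mem v := Submodule.smul_mem _ _ (h.mem v)
  orth v := by rw [ip_smul_right', h.orth, mul_zero]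

theorem LS.zero {D : ℝ} : LS e D (fun _ => 0) where
  fld := Fld.zero
  mem v := Submodule.zero_mem _
  orth v := inner_zero_right (E := TangentSpace 𝓘(ℝ, E) (foot v)) (𝕜 := ℝ) _

theorem LS.sum {ι : Type*} {D : ℝ} (t : Finset ι) {W : ι → UT E M → E} (h : ∀ i, LS e D (W i)) :
    LS e D (fun v => ∑ i ∈ t, W i v) := by
  classical
  induction t using Finset.induction_on with
  | empty => simpa using LS.zero
  | insert i t hi ih =>
    simp only [Finset.sum_insert hi]
    exact (h i).add ih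

/-- the Jacobi field along the geodesic of `u` vanishing at time `0` with derivative `W u`,
at time `r` -/
def JW (e : ∀ x : M, TangentSpace 𝓘(ℝ, E) x → M) (W : UT E M → E) (u : UT E M) (r : ℝ) : E :=
  jf e (foot u) (vec' u) 0 r (W u)

/-- the Jacobi field divided by `r` -/
def JWd (e : ∀ x : M, TangentSpace 𝓘(ℝ, E) x → M) (W : UT E M → E) (u : UT E M) (r : ℝ) : E :=
  dE e (foot u) (r • vec' u) (W u)

/-- the field `Y_W(v) = ∫₀ᴰ J_{φ₋ᵣ v, W}(r) dr` -/
def YW (F : Facts e) (D : ℝ) (W : UT E M → E) (v : UT E M) : E :=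
  ∫ r in (0 : ℝ)..D, JW e W (phi F (v, -r)) r

theorem JW_eq (F : Facts e) (W : UT E M → E) (u : UT E M) (r : ℝ) :
    JW e W u r = r • JWd e W u r := H703.jf_zero F _ _ _ _

theorem JW_add (F : Facts e) (W W' : UT E M → E) (u : UT E M) (r : ℝ) :
    JW e (fun v => W v + W' v) u r = JW e W u r + JW e W' u r := by
  unfold JW jf
  rw [dE_add, smul_add]

theorem JW_smul (F : Facts e) (c : ℝ) (W : UT E M → E) (u : UT E M) (r : ℝ) :
    JW e (fun v => c • W v) u r = c • JW e W u r := by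
  unfold JW jf
  rw [dE_smul, smul_comm]

section Plots2

variable {E' : Type} [NormedAddCommGroup E'] [NormedSpace ℝ E'] [FiniteDimensional ℝ E']

theorem at_JWd (he : IsExp e) {W : UT E M → E} (h : Fld W)
    {U : E' → UT E M} {ρ : E' → ℝ} {x : E'} (hU : (dUT E M).At U x) (hρ : Sm ρ x) :
    (dTM E M).At (fun s => tb (gm e (U s, ρ s)) (JWd e W (U s) (ρ s))) x := by
  have h1 : ∀ᶠ s in 𝓝 x, SmV (fun s => foot (U s)) (fun s => tv (U s)) s := hU
  let w' : ∀ s, TangentSpace 𝓘(ℝ, E) (foot (U s)) := fun s => W (U s)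
  have h2 : ∀ᶠ s in 𝓝 x, SmV (fun s => foot (U s)) w' s := h.map hU
  let u' : ∀ s, TangentSpace 𝓘(ℝ, E) (foot (U s)) := fun s => ρ s • tv (U s)
  have h4 : ∀ᶠ s in 𝓝 x, SmV (fun s => foot (U s)) u' s := by
    filter_upwards [h1, hρ] with s h3 h5
    exact h3.smul h5
  have key : ∀ᶠ s in 𝓝 x, ContMDiffAt 𝓘(ℝ, E') 𝓘(ℝ, E).tangent ∞
      (fun s => tb (gm e (U s, ρ s)) (JWd e W (U s) (ρ s))) s := by
    filter_upwards [eventually_eventually_nhds.2 h4, eventually_eventually_nhds.2 h2] with s h5 h6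
    exact H583.smV_dE he h5 h6
  exact key

theorem at_JW (F : Facts e) {W : UT E M → E} (h : Fld W)
    {U : E' → UT E M} {ρ : E' → ℝ} {x : E'} (hU : (dUT E M).At U x) (hρ : Sm ρ x) :
    (dTM E M).At (fun s => tb (gm e (U s, ρ s)) (JW e W (U s) (ρ s))) x := by
  have h1 := at_smul (f := fun s => gm e (U s, ρ s)) hρ (at_JWd F.isExp h hU hρ)
  have h2 : (fun s => tb (gm e (U s, ρ s)) (JW e W (U s) (ρ s))) =
      fun s => tb (gm e (U s, ρ s)) (ρ s • JWd e W (U s) (ρ s)) := by
    funext s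
    exact tb_congr rfl (JW_eq F W _ _)
  rw [h2]
  exact h1

end Plots2

theorem at_integrand (F : Facts e) {W : UT E M → E} (h : Fld W)
    {E' : Type} [NormedAddCommGroup E'] [NormedSpace ℝ E'] [FiniteDimensional ℝ E']
    {U : E' → UT E M} {s : E'} (hU : (dUT E M).At U s) (r : ℝ) :
    ContMDiffAt 𝓘(ℝ, E' × ℝ) 𝓘(ℝ, E).tangent ∞
      (fun p : E' × ℝ => tb (foot (U p.1)) (JW e W (phi F (U p.1, -p.2)) p.2)) (s, r) := by
  have h1 : (dUT E M).At (fun p : E' × ℝ => U p.1) (s, r) :=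
    (dUT E M).comp (u := U) (g := Prod.fst) (x := (s, r)) hU (Sm.of_contDiff contDiff_fst _)
  have h2 : ((dUT E M).prod (Dif.lin ℝ)).At (fun p : E' × ℝ => (U p.1, -p.2)) (s, r) :=
    ⟨h1, Sm.of_contDiff contDiff_snd.neg _⟩
  have h3 : (dUT E M).At (fun p : E' × ℝ => phi F (U p.1, -p.2)) (s, r) := map_phi F h2
  have h4 := Filter.Eventually.self_of_nhds (at_JW F h h3 (Sm.of_contDiff contDiff_snd _))
  refine ContMDiffAt.congr_of_eventuallyEq h4 ?_
  refine Eventually.of_forall fun p => tb_congr ?_ rfl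
  show foot (U p.1) = gm e (phi F (U p.1, -p.2), p.2)
  rw [gm_phi F, neg_add_cancel, gm_zero F]

/-- **`Y_W` is smooth** -/
theorem fld_YW (F : Facts e) (D : ℝ) {W : UT E M → E} (h : Fld W) : Fld (YW F D W) := by
  refine ⟨fun {E'} _ _ _ {U x} hU => ?_⟩
  have hf : ∀ᶠ s in 𝓝 x, ContMDiffAt 𝓘(ℝ, E') 𝓘(ℝ, E) ∞ (fun s => foot (U s)) s := map_foot hU
  have h1 := (dUT E M).open' hU
  have key : ∀ᶠ s in 𝓝 x, ContMDiffAt 𝓘(ℝ, E') 𝓘(ℝ, E).tangent ∞
      (fun s => tb (foot (U s)) (YW F D W (U s))) s := by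
    filter_upwards [eventually_eventually_nhds.2 hf, eventually_eventually_nhds.2 h1] with s h2 h3
    refine H583.smV_integral D h2 ?_
    filter_upwards [h3] with s' h4 r
    exact at_integrand F h h4 r
  exact key

/-- a raw vector field along a constant map is continuous -/
theorem continuous_raw {x₀ : M} {a : ℝ → E}
    (h : ∀ r, ContMDiffAt 𝓘(ℝ, ℝ) 𝓘(ℝ, E).tangent ∞ (fun r : ℝ => tb x₀ (a r)) r) :
    Continuous a := by
  rw [continuous_iff_continuousAt]
  intro r
  let u' : ∀ r : ℝ, TangentSpace 𝓘(ℝ, E) x₀ := fun r => a r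
  have h3 : SmV (fun _ : ℝ => x₀) u' r := h r
  have hsrc : x₀ ∈ (extChartAt 𝓘(ℝ, E) x₀).source := mem_extChartAt_source _
  have h4 := ((smV_iff (V := ℝ) (f := fun _ => x₀) (u := u') (s := r) x₀ hsrc).1
    h3).2.continuousAt
  let L : E →L[ℝ] E := vec x₀ x₀
  have h5 : a = fun r => L (crd x₀ x₀ (u' r)) := by
    funext r
    exact (vec_crd x₀ hsrc (u' r)).symm
  rw [h5]
  exact L.continuous.continuousAt.comp h4

theorem continuous_integrand (F : Facts e) {W : UT E M → E} (h : Fld W)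
    (v : UT E M) : Continuous (fun r : ℝ => JW e W (phi F (v, -r)) r) := by
  refine continuous_raw (x₀ := foot v) fun r => ?_
  have h1 := at_integrand (E' := ℝ) F h (H583.at_const v (0 : ℝ)) r
  have h3 : ContMDiffAt 𝓘(ℝ, ℝ) 𝓘(ℝ, ℝ × ℝ) ∞ (fun r : ℝ => ((0, r) : ℝ × ℝ)) r :=
    (contDiffAt_const.prodMk contDiffAt_id).contMDiffAt
  exact ContMDiffAt.comp (f := fun r : ℝ => ((0, r) : ℝ × ℝ)) (g := fun p : ℝ × ℝ =>
    tb (foot v) (JW e W (phi F (v, -p.2)) p.2)) r h1 h3

theorem YW_add (F : Facts e) (D : ℝ) {W W' : UT E M → E} (h : Fld W) (h' : Fld W') (v : UT E M) :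
    YW F D (fun v => W v + W' v) v = YW F D W v + YW F D W' v := by
  unfold YW
  simp only [JW_add F]
  exact intervalIntegral.integral_add ((continuous_integrand F h v).intervalIntegrable _ _)
    ((continuous_integrand F h' v).intervalIntegrable _ _)

theorem YW_smul (F : Facts e) (D : ℝ) (c : ℝ) (W : UT E M → E) (v : UT E M) :
    YW F D (fun v => c • W v) v = c • YW F D W v := by
  unfold YW
  simp only [JW_smul F]
  exact intervalIntegral.integral_smul _ _

theorem YW_zero (F : Facts e) (D : ℝ) (v : UT E M) : YW F D (fun _ => 0) v = 0 := by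
  have h := YW_smul F D 0 (fun _ => (0 : E)) v
  simpa using h

theorem YW_sum (F : Facts e) (D : ℝ) {ι : Type*} (t : Finset ι) {W : ι → UT E M → E}
    (h : ∀ i, Fld (W i)) (v : UT E M) :
    YW F D (fun v => ∑ i ∈ t, W i v) v = ∑ i ∈ t, YW F D (W i) v := by
  classical
  induction t using Finset.induction_on with
  | empty => simpa using YW_zero F D v
  | insert i t hi ih =>
    simp only [Finset.sum_insert hi]
    rw [YW_add F D (h i) (Fld.sum t h), ih]

/-- the inner product with `Y_W` as an integral -/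
theorem ip_YW (F : Facts e) (D : ℝ) {W : UT E M → E} (h : Fld W) (v : UT E M) (c : E) :
    ip (foot v) c (YW F D W v) =
      ∫ r in (0 : ℝ)..D, ip (foot v) c (JW e W (phi F (v, -r)) r) :=
  (ContinuousLinearMap.intervalIntegral_comp_comm (H583.ipL (foot v) c)
    ((continuous_integrand F h v).intervalIntegrable 0 D)).symm

/-- `Y_W` is orthogonal to the direction -/
theorem YW_perp (F : Facts e) (D : ℝ) {W : UT E M → E} (h : LS e D W) (v : UT E M) :
    ip (foot v) (vec' v) (YW F D W v) = 0 := by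
  rw [ip_YW F D h.fld]
  have h1 : ∀ r : ℝ, ip (foot v) (vec' v) (JW e W (phi F (v, -r)) r) = 0 := by
    intro r
    set u := phi F (v, -r) with hu
    have h2 : phi F (u, r) = v := by rw [hu, phi_add, neg_add_cancel, phi_zero]
    have h3 := gauss F (foot u) (vec' u) (nm_vec' u) 0 r (W u)
    rw [gam_zero F.isExp, vel_zero F.isExp] at h3
    have h4 : ip (foot u) (W u) (vec' u) = 0 := by rw [ip_comm']; exact h.orth u
    rw [h4, mul_zero] at h3
    have h5 : ip (foot (phi F (u, r))) (vec' (phi F (u, r))) (JW e W u r) = 0 := by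
      rw [ip_comm']
      exact h3
    rw [h2] at h5
    exact h5
  simp only [h1]
  simp

end

end Vale.Agent.P231.S2N
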