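import Vale.Agent.P231.S2N.IndexLe
import Vale.Agent.P231.WF.UecUT

/-!
# P231, stage 2, S2-NEG: the index form is negative definite on an `l`-dimensional space of
fields (index at least `l`)
-/

set_option maxSynthPendingDepth 3
set_option linter.unusedSectionVars false
set_option linter.unusedVariables false

open Bundle Manifold Set Filter Module MeasureTheory
open scoped ContDiff Manifold Topology ENNReal

namespace Vale.Agent.P231.S2N

noncomputable section

open Vale.Agent.P234 Vale.Agent.P231 Vale.Agent.P231.Fm Vale.Agent.P231.W Vale.Agent.P231.WR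
open Vale.Agent.P231.H775 Vale.Agent.P231.WC

section Abs

/-- positive definiteness is an open condition -/
theorem pd_open {T : Type*} [TopologicalSpace T] {l : ℕ} {n : Fin l → Fin l → T → ℝ} {t₀ : T}
    (hn : ∀ i j, ContinuousAt (n i j) t₀)
    (hpos : ∀ c : Fin l → ℝ, c ≠ 0 → 0 < ∑ i, ∑ j, c i * c j * n i j t₀) :
    ∃ ε : ℝ, 0 < ε ∧ ∀ᶠ t in 𝓝 t₀, ∀ c : Fin l → ℝ,
      ε * ∑ i, c i ^ 2 ≤ ∑ i, ∑ j, c i * c j * n i j t := by
  set S : Set (Fin l → ℝ) := {c | ∑ i, c i ^ 2 = 1} with hS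
  have hSc : IsCompact S := by
    refine Metric.isCompact_of_isClosed_isBounded ?_ ?_
    · exact isClosed_eq (by fun_prop) continuous_const
    · refine (Metric.isBounded_closedBall (x := (0 : Fin l → ℝ)) (r := 1)).subset fun c hc => ?_
      rw [mem_closedBall_zero_iff, pi_norm_le_iff_of_nonneg zero_le_one]
      intro i
      have h1 : c i ^ 2 ≤ ∑ i, c i ^ 2 :=
        Finset.single_le_sum (f := fun i => c i ^ 2) (fun j _ => sq_nonneg _) (Finset.mem_univ i)
      rw [hc] at h1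
      rw [Real.norm_eq_abs]
      exact (sq_le_one_iff_abs_le_one _).1 h1
  have hcont0 : Continuous fun c : Fin l → ℝ => ∑ i, ∑ j, c i * c j * n i j t₀ := by fun_prop
  obtain ⟨ε, hε, hmin⟩ : ∃ ε : ℝ, 0 < ε ∧ ∀ c ∈ S, 2 * ε ≤ ∑ i, ∑ j, c i * c j * n i j t₀ := by
    rcases S.eq_empty_or_nonempty with h | h
    · exact ⟨1, one_pos, fun c hc => by rw [h] at hc; exact absurd hc (by simp)⟩
    · obtain ⟨c₀, h1, h2⟩ := hSc.exists_isMinOn h hcont0.continuousOn
      have h3 : c₀ ≠ 0 := by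
        rintro rfl
        have h4 : ∑ i : Fin l, (0 : Fin l → ℝ) i ^ 2 = 1 := h1
        simp at h4
      refine ⟨(∑ i, ∑ j, c₀ i * c₀ j * n i j t₀) / 2, half_pos (hpos c₀ h3), fun c hc => ?_⟩
      rw [mul_div_cancel₀ _ (two_ne_zero' ℝ)]
      exact h2 hc
  refine ⟨ε, hε, ?_⟩
  have key : ∀ᶠ t in 𝓝 t₀, ∀ c ∈ S, ε < ∑ i, ∑ j, c i * c j * n i j t := by
    refine hSc.eventually_forall_of_forall_eventually fun c hc => ?_
    have h1 : ContinuousAt (fun z : T × (Fin l → ℝ) => ∑ i, ∑ j, z.2 i * z.2 j * n i j z.1)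
        (t₀, c) := by
      refine tendsto_finsetSum _ fun i _ => tendsto_finsetSum _ fun j _ => ?_
      have h2 : ContinuousAt (fun z : T × (Fin l → ℝ) => n i j z.1) (t₀, c) :=
        ContinuousAt.comp (f := fun z : T × (Fin l → ℝ) => z.1) (g := n i j) (hn i j)
          continuousAt_fst
      have h3 : ContinuousAt (fun z : T × (Fin l → ℝ) => z.2 i * z.2 j) (t₀, c) := by fun_prop
      exact h3.mul h2
    exact h1.eventually (lt_mem_nhds (by
      change ε < ∑ i, ∑ j, c i * c j * n i j t₀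
      linarith [hmin c hc]))
  filter_upwards [key] with t ht c
  rcases eq_or_ne c 0 with rfl | hc
  · simp
  · set r : ℝ := ∑ i, c i ^ 2 with hr
    have hr0 : 0 < r := by
      obtain ⟨i, hi⟩ := Function.ne_iff.1 hc
      have h1 : c i ^ 2 ≤ ∑ i, c i ^ 2 :=
        Finset.single_le_sum (f := fun i => c i ^ 2) (fun j _ => sq_nonneg _) (Finset.mem_univ i)
      exact lt_of_lt_of_le (by have : c i ≠ 0 := hi; positivity) h1
    set s : ℝ := Real.sqrt r with hs
    have hs0 : 0 < s := Real.sqrt_pos.2 hr0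
    have hs2 : s ^ 2 = r := Real.sq_sqrt hr0.le
    have h1 : (fun i => s⁻¹ * c i) ∈ S := by
      change ∑ i, (s⁻¹ * c i) ^ 2 = 1
      simp only [mul_pow, ← Finset.mul_sum]
      rw [← hr, inv_pow, hs2, inv_mul_cancel₀ hr0.ne']
    have h2 := (ht _ h1).le
    have h3 : ∑ i, ∑ j, (s⁻¹ * c i) * (s⁻¹ * c j) * n i j t =
        r⁻¹ * ∑ i, ∑ j, c i * c j * n i j t := by
      rw [Finset.mul_sum]
      refine Finset.sum_congr rfl fun i _ => ?_
      rw [Finset.mul_sum]
      refine Finset.sum_congr rfl fun j _ => ?_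
      rw [← hs2]
      field_simp
    rw [h3] at h2
    have h4 : ε * r ≤ r⁻¹ * (∑ i, ∑ j, c i * c j * n i j t) * r :=
      mul_le_mul_of_nonneg_right h2 hr0.le
    have h5 : r⁻¹ * (∑ i, ∑ j, c i * c j * n i j t) * r = ∑ i, ∑ j, c i * c j * n i j t := by
      field_simp
    rw [h5] at h4
    exact h4

end Abs

variable {E : Type*} [NormedAddCommGroup E] [NormedSpace ℝ E]
  {M : Type*} [MetricSpace M] [ChartedSpace E M]
  [RiemannianBundle (fun x : M => TangentSpace 𝓘(ℝ, E) x)]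
  {e : ∀ x : M, TangentSpace 𝓘(ℝ, E) x → M}
  [FiniteDimensional ℝ E] [IsManifold 𝓘(ℝ, E) ∞ M]
  [IsContMDiffRiemannianBundle 𝓘(ℝ, E) ∞ E (fun x : M => TangentSpace 𝓘(ℝ, E) x)]

variable [CompactSpace M] [ConnectedSpace M] [IsRiemannianManifold 𝓘(ℝ, E) M]

/-! ### global fields with prescribed value -/

theorem fld_bump {ρ : M → ℝ} (hρ : ContMDiff 𝓘(ℝ, E) 𝓘(ℝ, ℝ) ∞ ρ) {x₀ : M}
    (hsupp : tsupport ρ ⊆ (extChartAt 𝓘(ℝ, E) x₀).source) (ξ : E) :
    Fld (fun v : UT E M => ρ (foot v) • (vec x₀ (foot v) ξ : E)) := by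
  refine ⟨fun {E'} _ _ _ {u x} hu => ?_⟩
  have h1 : ∀ᶠ s in 𝓝 x, ContMDiffAt 𝓘(ℝ, E') 𝓘(ℝ, E) ∞ (fun s => foot (u s)) s := map_foot hu
  have h2 : ∀ᶠ s in 𝓝 x, SmV (fun s => foot (u s)) (fun s => ((0 : E) :
    TangentSpace 𝓘(ℝ, E) (foot (u s)))) s := Fld.zero.map hu
  change ∀ᶠ s in 𝓝 x, SmV (fun s => foot (u s)) (fun s => (ρ (foot (u s)) •
    (vec x₀ (foot (u s)) ξ : E) : E)) s
  filter_upwards [h1, h2] with s g1 g2
  by_cases hs : foot (u s) ∈ (extChartAt 𝓘(ℝ, E) x₀).source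
  · have h3 : ContMDiffAt 𝓘(ℝ, E') 𝓘(ℝ, ℝ) ∞ (fun s => ρ (foot (u s))) s :=
      hρ.contMDiffAt.comp s g1
    have h4 : SmV (fun s => foot (u s)) (fun s => vec x₀ (foot (u s)) ξ) s :=
      smV_vec (f := fun s => foot (u s)) x₀ hs g1 (ξ := fun _ => ξ) contDiffAt_const
    exact h4.smul h3.contDiffAt
  · have h3 : foot (u s) ∉ tsupport ρ := fun h => hs (hsupp h)
    have h4 : ∀ᶠ s' in 𝓝 s, foot (u s') ∉ tsupport ρ :=
      g1.continuousAt.eventually ((isClosed_tsupport ρ).isOpen_compl.mem_nhds h3)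
    refine ContMDiffAt.congr_of_eventuallyEq g2 ?_
    filter_upwards [h4] with s' hs'
    have h5 : ρ (foot (u s')) = 0 := by
      by_contra h6
      exact hs' (subset_tsupport _ (Function.mem_support.2 h6))
    refine tb_congr rfl ?_
    rw [h5, zero_smul]
    rfl

variable {D : ℝ}

/-- the projection of a field to `L` -/
theorem LS.of_fld (F : Facts e) (hD : 0 < D) (hB : InjGE e D) (hdiam : ∀ p q : M, dist p q ≤ D)
    {l : ℕ} (hP : ∀ x y : M, dist x y = D → finrank ℝ (H775.Pl e D x y) = l + 1)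
    {X : UT E M → E} (h : Fld X) : LS e D (fun v => prL e D v (X v)) where
  fld := ⟨fun {E'} _ _ _ {u x} hu => at_prL F hD hB hdiam hP hu (h.map hu)⟩
  mem v := (mem_Lf.1 (prL_mem D v (X v))).1
  orth v := (mem_Lf.1 (prL_mem D v (X v))).2

/-- every vector of `L` extends to a global section -/
theorem exists_LS (F : Facts e) (hD : 0 < D) (hB : InjGE e D) (hdiam : ∀ p q : M, dist p q ≤ D)
    {l : ℕ} (hP : ∀ x y : M, dist x y = D → finrank ℝ (H775.Pl e D x y) = l + 1)
    (v : UT E M) {a : E} (ha : (a : TangentSpace 𝓘(ℝ, E) (foot v)) ∈ Lf e D v) :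
    ∃ W : UT E M → E, LS e D W ∧ W v = a := by
  obtain ⟨ρ, -, hρ⟩ := (SmoothBumpFunction.nhds_basis_tsupport (I := 𝓘(ℝ, E)) (foot v)).mem_iff.1
    ((isOpen_extChartAt_source (I := 𝓘(ℝ, E)) (foot v)).mem_nhds (mem_extChartAt_source _))
  have hX := fld_bump (E := E) ρ.contMDiff hρ (crd (foot v) (foot v) a : E)
  refine ⟨_, LS.of_fld F hD hB hdiam hP hX, ?_⟩
  have h1 : (ρ (foot v) • (vec (foot v) (foot v) (crd (foot v) (foot v) a : E) : E) : E) = a := by
    rw [ρ.eq_one, one_smul]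
    exact vec_crd (foot v) (mem_extChartAt_source _) a
  have h2 : prL (E := E) e D v (ρ (foot v) • (vec (foot v) (foot v)
      (crd (foot v) (foot v) a : E) : E)) = prL e D v a := by rw [h1]
  exact h2.trans (prL_of_mem ha)

/-! ### the pairing of `Y_W` with its source -/

/-- the kernel of the pairing -/
def qB (F : Facts e) (W W' : UT E M → E) (u : UT E M) (r : ℝ) : ℝ :=
  ip (gm e (u, r)) (W (phi F (u, r))) (JWd e W' u r)

/-- the kernel is smooth along the orbits -/
theorem sm_qB (F : Facts e) {W W' : UT E M → E} (h : Fld W) (h' : Fld W') (v : UT E M) {V : Type}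
    [NormedAddCommGroup V] [NormedSpace ℝ V] [FiniteDimensional ℝ V] {a b : V → ℝ} {z : V}
    (ha : Sm a z) (hb : Sm b z) : Sm (fun z => qB F W W' (phi F (v, a z)) (b z)) z := by
  have h1 : (dUT E M).At (fun z => phi F (v, a z)) z :=
    map_phi F (u := fun z => (v, a z)) ⟨H583.at_const v _, ha⟩
  have h2 : (dUT E M).At (fun z => phi F (phi F (v, a z), b z)) z :=
    map_phi F (u := fun z => (phi F (v, a z), b z)) ⟨h1, hb⟩
  have h3 : (dTM E M).At (fun z => tb (gm e (phi F (v, a z), b z))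
    (W (phi F (phi F (v, a z), b z)))) z := h.map h2
  have h4 := at_JWd F.isExp h' h1 hb
  exact sm_ip_tb h3 h4

/-- **the pairing of `Y_W` with its source** -/
theorem ip_dl_YW (F : Facts e) (hD : 0 < D) (hB : InjGE e D) (hdiam : ∀ p q : M, dist p q ≤ D)
    {l : ℕ} (hP : ∀ x y : M, dist x y = D → finrank ℝ (H775.Pl e D x y) = l + 1)
    {W : UT E M → E} (h : LS e D W) (v : UT E M) :
    ip (foot v) (dl F hD hB hdiam W v) (YW F D W v) =
      ∫ r in (0 : ℝ)..D, (r * qB F W W (phi F (v, -r)) r +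
        (D - r) * qB F W W (phi F (v, -r)) (r - D)) := by
  rw [ip_YW F D h.fld]
  refine intervalIntegral.integral_congr fun r _ => ?_
  have h1 : ip (foot v) (dl F hD hB hdiam W v) (JW e W (phi F (v, -r)) r) =
      ip (foot v) (W v) (JW e W (phi F (v, -r)) r) -
      ip (foot v) (Tr F hD hB hdiam (phi F (v, -D)) (W (phi F (v, -D))))
        (JW e W (phi F (v, -r)) r) := ip_sub_left' _ _ _ _
  have h2 := wronskian_Jc F hD hB hdiam hP v (-D) (a := W (phi F (v, -D)))
    (mem_Lf.2 ⟨h.mem _, h.orth _⟩) (-r) (W (phi F (v, -r)))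
  have e1 : -D + D - -r = r := by ring
  have e2 : -D - -r = r - D := by ring
  rw [neg_add_cancel, gm_zero F, zero_sub, neg_neg, e2] at h2
  have h3 : ip (foot v) (Tr F hD hB hdiam (phi F (v, -D)) (W (phi F (v, -D))))
        (JW e W (phi F (v, -r)) r) = ip (gm e (v, -D)) (W (phi F (v, -D)))
          (JW e W (phi F (v, -r)) (r - D)) := h2
  change ip (foot v) (dl F hD hB hdiam W v) (JW e W (phi F (v, -r)) r) = _
  rw [h1, h3, JW_eq F, JW_eq F, ip_smul_right', ip_smul_right']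
  have h4 : phi F (phi F (v, -r), r) = v := by rw [phi_add, neg_add_cancel, phi_zero]
  have h5 : phi F (phi F (v, -r), r - D) = phi F (v, -D) := by
    rw [phi_add]
    congr 2
    ring
  have h6 : qB F W W (phi F (v, -r)) r = ip (foot v) (W v) (JWd e W (phi F (v, -r)) r) := by
    unfold qB
    have k : gm e (phi F (v, -r), r) = foot v := congrArg foot h4
    rw [h4, k]
  have h7 : qB F W W (phi F (v, -r)) (r - D) =
      ip (gm e (v, -D)) (W (phi F (v, -D))) (JWd e W (phi F (v, -r)) (r - D)) := by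
    unfold qB
    have k : gm e (phi F (v, -r), r - D) = gm e (v, -D) := congrArg foot h5
    rw [h5, k]
  rw [h6, h7]
  ring

theorem qB_zero (F : Facts e) (W W' : UT E M → E) (v : UT E M) :
    qB F W W' v 0 = ip (foot v) (W v) (W' v) := by
  unfold qB JWd
  have h : dE e (foot v) ((0 : ℝ) • vec' v) (W' v) = W' v := by
    rw [zero_smul]
    exact dE_zero_base F.isExp _ _
  rw [h, phi_zero, gm_zero F]

theorem dE_sum' {ι : Type*} (s : Finset ι) (x : M) (v : E) (a : ι → E) :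
    dE e x v (∑ i ∈ s, a i) = ∑ i ∈ s, dE e x v (a i) := by
  classical
  induction s using Finset.induction_on with
  | empty =>
    have h := dE_smul e x v 0 (0 : ℝ)
    rw [zero_smul, zero_smul] at h
    simpa using h
  | insert i s hi ih => rw [Finset.sum_insert hi, Finset.sum_insert hi, dE_add, ih]

theorem qB_lin (F : Facts e) {ι : Type*} [Fintype ι] (c : ι → ℝ) (W : ι → UT E M → E) (u : UT E M)
    (r : ℝ) : qB F (fun v => ∑ i, c i • W i v) (fun v => ∑ i, c i • W i v) u r =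
      ∑ i, ∑ j, c i * c j * qB F (W i) (W j) u r := by
  unfold qB JWd
  rw [ip_sum_left]
  refine Finset.sum_congr rfl fun i _ => ?_
  rw [dE_sum', ip_sum_right]
  refine Finset.sum_congr rfl fun j _ => ?_
  rw [dE_smul, ip_smul_left', ip_smul_right']
  ring

theorem qB_smul (F : Facts e) (g : UT E M → ℝ) (W : UT E M → E) (u : UT E M) (r : ℝ) :
    qB F (fun v => g v • W v) (fun v => g v • W v) u r =
      g (phi F (u, r)) * g u * qB F W W u r := by
  unfold qB JWd
  rw [dE_smul, ip_smul_left', ip_smul_right']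
  ring

theorem dl_lin (F : Facts e) (hD : 0 < D) (hB : InjGE e D) (hdiam : ∀ p q : M, dist p q ≤ D)
    {ι : Type*} [Fintype ι] (c : ι → ℝ) (W : ι → UT E M → E) (v : UT E M) :
    dl F hD hB hdiam (fun v => ∑ i, c i • W i v) v = ∑ i, c i • dl F hD hB hdiam (W i) v := by
  unfold dl
  rw [← TrL_apply, map_sum]
  simp only [map_smul, TrL_apply, smul_sub, Finset.sum_sub_distrib]

theorem YW_lin (F : Facts e) {ι : Type*} [Fintype ι] (c : ι → ℝ) {W : ι → UT E M → E}
    (hW : ∀ i, Fld (W i)) (v : UT E M) :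
    YW F D (fun v => ∑ i, c i • W i v) v = ∑ i, c i • YW F D (W i) v := by
  rw [YW_sum F D Finset.univ (W := fun i v => c i • W i v) fun i => (hW i).const_smul (c i)]
  refine Finset.sum_congr rfl fun i _ => ?_
  exact YW_smul F D (c i) (W i) v

/-- reduction of the time -/
theorem exists_time (F : Facts e) (hD : 0 < D) (hB : InjGE e D) (hdiam : ∀ p q : M, dist p q ≤ D)
    (v : UT E M) (t : ℝ) : ∃ t', |t'| ≤ D ∧ phi F (v, t') = phi F (v, t) := by
  have h1 : Function.Periodic (fun t => phi F (v, t)) (2 * D) := by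
    intro t
    have k := W.phi_per F hD hB hdiam (phi F (v, t))
    rw [phi_add] at k
    exact k
  obtain ⟨y, hy, h2⟩ := h1.exists_mem_Ico (by linarith : 0 < 2 * D) t (-D)
  exact ⟨y, abs_le.2 ⟨hy.1, by linarith [hy.2]⟩, h2.symm⟩

theorem dist_gm' (F : Facts e) (hD : 0 < D) (hB : InjGE e D) (v : UT E M) {t : ℝ}
    (ht : |t| ≤ D) : dist (foot v) (gm e (v, t)) = |t| := by
  have h2 := nm_smul (E := E) (foot v) (vec' v) t
  rw [nm_vec' v, mul_one] at h2
  have h3 := hB (foot v) (t • vec' v : E) (h2.le.trans ht)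
  exact h3.trans h2

/-- **index at least `l`** -/
theorem exists_neg (F : Facts e) (hD : 0 < D) (hB : InjGE e D) (hdiam : ∀ p q : M, dist p q ≤ D)
    {l : ℕ} (hP : ∀ x y : M, dist x y = D → finrank ℝ (H775.Pl e D x y) = l + 1)
    (v₀ : UT E M) :
    ∃ X δ : Fin l → UT E M → E, (∀ i, DF F hD hB hdiam (X i) (δ i)) ∧
      ∀ c : Fin l → ℝ, c ≠ 0 → 0 < ∫ t in (0 : ℝ)..(2 * D),
        ip (gm e (v₀, t)) (∑ i, c i • δ i (phi F (v₀, t))) (∑ i, c i • X i (phi F (v₀, t))) := by
  obtain ⟨W₀, hW₀⟩ := exists_isLF F hD hB hdiam hP v₀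
  have hex : ∀ i, ∃ W : UT E M → E, LS e D W ∧ W v₀ = vec' (W₀ i) := fun i =>
    exists_LS F hD hB hdiam hP v₀ (hW₀.isL i).mem_Lf
  choose W hW hWv using hex
  set B : Fin l → Fin l → ℝ × ℝ → ℝ := fun i j z => qB F (W i) (W j) (phi F (v₀, z.1)) z.2 with hB'
  have hBc : ∀ i j, ContinuousAt (B i j) (0, 0) := fun i j =>
    (sm_qB F (hW i).fld (hW j).fld v₀ (z := ((0, 0) : ℝ × ℝ)) (Sm.of_contDiff contDiff_fst _)
      (Sm.of_contDiff contDiff_snd _)).continuousAt
  have hB0 : ∀ i j, B i j (0, 0) = if i = j then 1 else 0 := by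
    intro i j
    simp only [hB']
    rw [phi_zero, qB_zero F, hWv, hWv]
    split_ifs with h
    · rw [h]
      exact (hW₀.isL j).ip_self
    · exact hW₀.orth i j h
  have hsq : ∀ c : Fin l → ℝ, ∑ i, ∑ j, c i * c j * B i j (0, 0) = ∑ i, c i ^ 2 := by
    intro c
    refine Finset.sum_congr rfl fun i _ => ?_
    simp only [hB0]
    simp [sq]
  have hsq0 : ∀ c : Fin l → ℝ, c ≠ 0 → 0 < ∑ i, c i ^ 2 := by
    intro c hc
    obtain ⟨i, hi⟩ := Function.ne_iff.1 hc
    have h1 : c i ^ 2 ≤ ∑ i, c i ^ 2 :=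
      Finset.single_le_sum (f := fun i => c i ^ 2) (fun j _ => sq_nonneg _) (Finset.mem_univ i)
    exact lt_of_lt_of_le (by have : c i ≠ 0 := hi; positivity) h1
  obtain ⟨ε, hε, hev⟩ := pd_open hBc (fun c hc => by rw [hsq]; exact hsq0 c hc)
  obtain ⟨ρ₁, hρ₁, hball⟩ := Metric.eventually_nhds_iff.1 hev
  -- the bump function
  obtain ⟨g, -, hg⟩ := (SmoothBumpFunction.nhds_basis_tsupport (I := 𝓘(ℝ, E)) (foot v₀)).mem_iff.1
    (Metric.ball_mem_nhds (foot v₀) (half_pos hρ₁))
  have hg1 : g (foot v₀) = 1 := g.eq_one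
  have hg0 : ∀ y : M, 0 ≤ g y := fun y => g.nonneg
  have hg2 : ∀ y : M, g y ≠ 0 → dist (foot v₀) y < ρ₁ / 2 := by
    intro y hy
    have h1 := hg (subset_tsupport _ (Function.mem_support.2 hy))
    rwa [Metric.mem_ball, dist_comm] at h1
  have hgm : (dUT E M).Map (Dif.lin ℝ) (fun w => g (foot w)) := fun {E'} _ _ _ {u x} h =>
    Dif.map_mfd_lin g.contMDiff (map_foot h)
  have hW' : ∀ i, LS e D (fun v => g (foot v) • W i v) := fun i => LS.smul hgm (hW i)
  refine ⟨fun i => YW F D (fun v => g (foot v) • W i v),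
    fun i => dl F hD hB hdiam (fun v => g (foot v) • W i v), fun i => DF.yW hP (hW' i),
    fun c hc => ?_⟩
  -- the combination
  have hVc : LS e D (fun v => ∑ i, c i • W i v) :=
    LS.sum Finset.univ (W := fun i v => c i • W i v) fun i =>
      LS.smul (c := fun _ => c i) (fun {E'} _ _ _ {u x} h => Sm.of_contDiff contDiff_const x) (hW i)
  set Wc : UT E M → E := fun v => g (foot v) • ∑ i, c i • W i v with hWc
  have hWcL : LS e D Wc := LS.smul hgm hVc
  have hWce : Wc = fun v => ∑ i, c i • (g (foot v) • W i v) := by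
    funext v
    rw [hWc]
    simp only [Finset.smul_sum]
    refine Finset.sum_congr rfl fun i _ => ?_
    rw [smul_comm]
  have e1 : ∀ v, ∑ i, c i • dl F hD hB hdiam (fun v => g (foot v) • W i v) v =
      dl F hD hB hdiam Wc v := by
    intro v
    rw [hWce, dl_lin]
  have e2 : ∀ v, ∑ i, c i • YW F D (fun v => g (foot v) • W i v) v = YW F D Wc v := by
    intro v
    rw [hWce, YW_lin F c fun i => (hW' i).fld]
  simp only [e1, e2]
  -- the kernel
  have hq : ∀ (t r : ℝ), qB F Wc Wc (phi F (v₀, t)) r =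
      g (gm e (v₀, t + r)) * g (gm e (v₀, t)) * ∑ i, ∑ j, c i * c j * B i j (t, r) := by
    intro t r
    have k := qB_smul F (fun v => g (foot v)) (fun v => ∑ i, c i • W i v) (phi F (v₀, t)) r
    rw [qB_lin F c W] at k
    rw [← gm_phi F]
    exact k
  have hq0 : ∀ (t r : ℝ), |r| ≤ D → 0 ≤ qB F Wc Wc (phi F (v₀, t)) r := by
    intro t r hr
    obtain ⟨t', ht', hpt⟩ := exists_time F hD hB hdiam v₀ t
    rw [← hpt, hq]
    by_cases h1 : g (gm e (v₀, t' + r)) = 0
    · rw [h1, zero_mul, zero_mul]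
    by_cases h2 : g (gm e (v₀, t')) = 0
    · rw [h2, mul_zero, zero_mul]
    have d1 := hg2 _ h1
    have d2 := hg2 _ h2
    rw [dist_gm' F hD hB v₀ ht'] at d2
    have d3 : |r| < ρ₁ := by
      have k := dist_gm' F hD hB (phi F (v₀, t')) hr
      rw [gm_phi F] at k
      have k2 := dist_triangle (gm e (v₀, t')) (foot v₀) (gm e (v₀, t' + r))
      have k3 : dist (gm e (v₀, t')) (foot v₀) = |t'| := by
        rw [dist_comm, dist_gm' F hD hB v₀ ht']
      have k4 : dist (foot (phi F (v₀, t'))) (gm e (v₀, t' + r)) =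
        dist (gm e (v₀, t')) (gm e (v₀, t' + r)) := rfl
      rw [← k, k4]
      linarith
    have h3 : dist ((t', r) : ℝ × ℝ) (0, 0) < ρ₁ := by
      rw [Prod.dist_eq, max_lt_iff, Real.dist_eq, Real.dist_eq, sub_zero, sub_zero]
      exact ⟨by linarith, d3⟩
    refine mul_nonneg (mul_nonneg (hg0 _) (hg0 _)) ?_
    refine le_trans ?_ (hball h3 c)
    exact mul_nonneg hε.le (Finset.sum_nonneg fun i _ => sq_nonneg _)
  -- the pointwise pairing
  have hpair : ∀ t, ip (gm e (v₀, t)) (dl F hD hB hdiam Wc (phi F (v₀, t)))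
      (YW F D Wc (phi F (v₀, t))) = ∫ r in (0 : ℝ)..D,
        (r * qB F Wc Wc (phi F (v₀, t - r)) r + (D - r) * qB F Wc Wc (phi F (v₀, t - r)) (r - D)) := by
    intro t
    have k := ip_dl_YW F hD hB hdiam hP hWcL (phi F (v₀, t))
    refine k.trans (intervalIntegral.integral_congr fun r _ => ?_)
    rw [phi_add, ← sub_eq_add_neg]
  have hint0 : ∀ t r, r ∈ Ioc 0 D → 0 ≤ r * qB F Wc Wc (phi F (v₀, t - r)) r +
      (D - r) * qB F Wc Wc (phi F (v₀, t - r)) (r - D) := by
    intro t r hr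
    refine add_nonneg (mul_nonneg hr.1.le (hq0 _ _ ?_)) (mul_nonneg (by linarith [hr.2])
      (hq0 _ _ ?_))
    · rw [abs_of_pos hr.1]; exact hr.2
    · rw [abs_of_nonpos (by linarith [hr.2])]; linarith [hr.1]
  have hDF : DF F hD hB hdiam (YW F D Wc) (dl F hD hB hdiam Wc) := DF.yW hP hWcL
  have hcont := cont_ip F hDF.sfld hDF.fld v₀
  refine intervalIntegral.integral_pos (by linarith) hcont.continuousOn (fun t _ => ?_)
    ⟨0, ⟨le_rfl, by linarith⟩, ?_⟩
  · rw [hpair]
    exact intervalIntegral.integral_nonneg_of_ae_restrict hD.le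
      ((ae_restrict_iff' measurableSet_Icc).2 (Eventually.of_forall fun r hr => by
        refine add_nonneg (mul_nonneg hr.1 (hq0 _ _ ?_)) (mul_nonneg (by linarith [hr.2])
          (hq0 _ _ ?_))
        · rw [abs_of_nonneg hr.1]; exact hr.2
        · rw [abs_of_nonpos (by linarith [hr.2])]; linarith [hr.1]))
  · rw [hpair]
    have c1 : Continuous fun r : ℝ => qB F Wc Wc (phi F (v₀, 0 - r)) r := by
      rw [continuous_iff_continuousAt]
      intro r
      exact (sm_qB F hWcL.fld hWcL.fld v₀ (z := r)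
        (Sm.of_contDiff (contDiff_const.sub contDiff_id) _)
        (Sm.of_contDiff contDiff_id _)).continuousAt
    have c2 : Continuous fun r : ℝ => qB F Wc Wc (phi F (v₀, 0 - r)) (r - D) := by
      rw [continuous_iff_continuousAt]
      intro r
      exact (sm_qB F hWcL.fld hWcL.fld v₀ (z := r)
        (Sm.of_contDiff (contDiff_const.sub contDiff_id) _)
        (Sm.of_contDiff (contDiff_id.sub contDiff_const) _)).continuousAt
    have h0 : 0 < qB F Wc Wc (phi F (v₀, 0 - 0)) 0 := by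
      rw [sub_zero, hq, hsq, zero_add, gm_zero F, hg1, one_mul, one_mul]
      exact hsq0 c hc
    have h1 : ∀ᶠ r in 𝓝[>] (0 : ℝ), 0 < qB F Wc Wc (phi F (v₀, 0 - r)) r :=
      (c1.continuousAt.eventually (lt_mem_nhds h0)).filter_mono nhdsWithin_le_nhds
    obtain ⟨r, hr1, hr2⟩ := (h1.and (Ioo_mem_nhdsGT hD)).exists
    refine intervalIntegral.integral_pos hD ?_ (hint0 0) ⟨r, ⟨hr2.1.le, hr2.2.le⟩, ?_⟩
    · exact ((continuous_id.mul c1).add ((continuous_const.sub continuous_id).mul c2)).continuousOn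
    · refine add_pos_of_pos_of_nonneg (mul_pos hr2.1 hr1) (mul_nonneg (by linarith [hr2.2])
        (hq0 _ _ ?_))
      rw [abs_of_nonpos (by linarith [hr2.2])]; linarith [hr2.1]

end

end Vale.Agent.P231.S2N
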