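import Vale.Agent.P231.S2N.DF

/-!
# P231, stage 2, S2-NEG: the index form is nonnegative on the fields whose boundary values are
those of a Jacobi field (index at most `l`)
-/

set_option maxSynthPendingDepth 3
set_option linter.unusedSectionVars false
set_option linter.unusedVariables false

open Bundle Manifold Set Filter Module MeasureTheory
open scoped ContDiff Manifold Topology ENNReal

namespace Vale.Agent.P231.S2N

noncomputable section

open Vale.Agent.P234 Vale.Agent.P231 Vale.Agent.P231.Fm Vale.Agent.P231.W Vale.Agent.P231.WR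
open Vale.Agent.P231.H775 Vale.Agent.P231.WC

variable {E : Type*} [NormedAddCommGroup E] [NormedSpace ℝ E]
  {M : Type*} [MetricSpace M] [ChartedSpace E M]
  [RiemannianBundle (fun x : M => TangentSpace 𝓘(ℝ, E) x)]
  {e : ∀ x : M, TangentSpace 𝓘(ℝ, E) x → M}
  [FiniteDimensional ℝ E] [IsManifold 𝓘(ℝ, E) ∞ M]
  [IsContMDiffRiemannianBundle 𝓘(ℝ, E) ∞ E (fun x : M => TangentSpace 𝓘(ℝ, E) x)]
  [CompactSpace M] [ConnectedSpace M] [IsRiemannianManifold 𝓘(ℝ, E) M]

variable {D : ℝ}

/-! ### Jacobi fields based at an arbitrary time -/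

theorem Jc_phi (F : Facts e) (v : UT E M) (c : E) (s t : ℝ) :
    Jc e (phi F (v, s)) c (t - s) = jf e (foot v) (vec' v) s t c :=
  (Jc_eq F (phi F (v, s)) c (t - s)).trans rfl

/-- Gauss lemma -/
theorem gauss_Jc (F : Facts e) (u : UT E M) (c : E) (r : ℝ) :
    ip (gm e (u, r)) (vec' (phi F (u, r))) (Jc e u c r) = r * ip (foot u) (vec' u) c := by
  have h1 := gauss F (foot u) (vec' u) (nm_vec' u) 0 r c
  rw [gam_zero F.isExp, vel_zero F.isExp, sub_zero] at h1
  rw [ip_comm', ip_comm' (foot u)]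
  exact h1

/-- perpendicular Jacobi fields are periodic -/
theorem Jc_per (F : Facts e) (hD : 0 < D) (hB : InjGE e D) (hdiam : ∀ p q : M, dist p q ≤ D)
    {u : UT E M} {c : E} (h0 : ip (foot u) (vec' u) c = 0) (r : ℝ) :
    Jc e u c (r + 2 * D) = Jc e u c r := by
  have hcl : ∀ (x : M) (v : E), nm x v = 2 * D → e x v = x :=
    fun x v hv => closed_of_inj_diam F hD hB hdiam x v hv
  refine jf_per F hD hcl (foot u) (vec' u) (nm_vec' u) 0 r c ?_
  rw [gam_zero F.isExp, vel_zero F.isExp, ip_comm']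
  exact h0

/-- the Wronskian at a cut pair -/
theorem wronskian_Jc (F : Facts e) (hD : 0 < D) (hB : InjGE e D)
    (hdiam : ∀ p q : M, dist p q ≤ D) {l : ℕ}
    (hP : ∀ x y : M, dist x y = D → finrank ℝ (H775.Pl e D x y) = l + 1)
    (v : UT E M) (t : ℝ) {a : E}
    (ha : (a : TangentSpace 𝓘(ℝ, E) (foot (phi F (v, t)))) ∈ Lf e D (phi F (v, t)))
    (s : ℝ) (c : E) :
    ip (gm e (v, t + D)) (Tr F hD hB hdiam (phi F (v, t)) a)
        (Jc e (phi F (v, s)) c (t + D - s)) =
      ip (gm e (v, t)) a (Jc e (phi F (v, s)) c (t - s)) := by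
  have h1 := wronskian_D F hD hB hdiam hP ha (s - t) c
  rw [← Jc_phi F, ← Jc_phi F] at h1
  have h2 : phi F (phi F (v, t), s - t) = phi F (v, s) := by
    rw [phi_add]
    congr 2
    ring
  have h3 : D - (s - t) = t + D - s := by ring
  have h4 : 0 - (s - t) = t - s := by ring
  rw [h2, h3, h4, gm_phi F] at h1
  exact h1

/-- shifted Jacobi fields satisfy the Jacobi equation at all times -/
theorem je_Jc_shift (F : Facts e) (hD : 0 < D) (hB : InjGE e D) (v : UT E M) (s t : ℝ) {c : E}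
    (h0 : ip (foot (phi F (v, s))) (vec' (phi F (v, s))) c = 0) :
    JE e (foot (phi F (v, t))) (phi F (v, t)) (fun r => Jc e (phi F (v, s)) c (t + r - s)) 0 := by
  have h2 : phi F (phi F (v, t), s - t) = phi F (v, s) := by
    rw [phi_add]
    congr 2
    ring
  have h1 := je_Jc F hD hB (foot (phi F (v, t))) (phi F (v, t)) (mem_extChartAt_source _) (s - t)
    (c := c) (by rw [h2]; exact h0)
  refine JE.congr (fun r => ?_) rfl h1
  rw [h2]
  congr 1
  ring

/-! ### the boundary value problem -/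

/-- the decomposition of the plane at the far end -/
theorem orth_of_Tr (F : Facts e) (hD : 0 < D) (hB : InjGE e D)
    (hdiam : ∀ p q : M, dist p q ≤ D) (v : UT E M) {b : E}
    (hb : ip (gm e (v, D)) (vec' (phi F (v, D))) b = 0)
    (h : ∀ w : E, (w : TangentSpace 𝓘(ℝ, E) (foot v)) ∈ Lf e D v →
      ip (gm e (v, D)) (Tr F hD hB hdiam v w) b = 0) :
    (b : TangentSpace 𝓘(ℝ, E) (gm e (v, D))) ∈ (H703.Pl e D (foot v) (gm e (v, D)))ᗮ := by
  refine (Submodule.mem_orthogonal (H703.Pl e D (foot v) (gm e (v, D)))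
    (b : TangentSpace 𝓘(ℝ, E) (gm e (v, D)))).2 fun z' hz => ?_
  obtain ⟨z, hzz⟩ : ∃ z : E, z = z' := ⟨z', rfl⟩
  subst hzz
  set u := phi F (v, D) with hu
  have hub : bar e D u = foot v := bar_phi F hD hB hdiam v
  set α : ℝ := ip (foot u) (vec' u) z with hα
  have hz' : ((z - α • vec' u : E) : TangentSpace 𝓘(ℝ, E) (foot u)) ∈ Lf e D u := by
    refine mem_Lf.2 ⟨?_, ?_⟩
    · rw [hub]
      refine Submodule.sub_mem _ hz (Submodule.smul_mem _ _ ?_)
      have h1 := H775.Lk_subset_Pl D _ _ (mem_Lk_self (e := e) D u)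
      rw [hub] at h1
      exact h1
    · have h2 : ip (foot u) (vec' u) (z - α • vec' u) =
          ip (foot u) (vec' u) z - ip (foot u) (vec' u) (α • vec' u) := ip_sub_right' _ _ _ _
      rw [h2, ip_smul_right', ip_vec', mul_one, ← hα, sub_self]
  have h1 := Tr_Tr_of_mem F hD hB hdiam hz'
  have h2 : phi F (u, D) = v := phi_D_D F hD hB hdiam v
  have h3 := Tr_mem F hD hB hdiam u (z - α • vec' u)
  rw [h2] at h1 h3
  have h4 := h _ h3
  rw [h1] at h4
  have h5 : ip (gm e (v, D)) (z - α • vec' u) b =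
      ip (gm e (v, D)) z b - ip (gm e (v, D)) (α • vec' u) b := ip_sub_left' _ _ _ _
  rw [h5, ip_smul_left', hb, mul_zero, sub_zero] at h4
  exact h4

/-- **the boundary value problem**: boundary values compatible with the transport are the
boundary values of a Jacobi field -/
theorem exists_bj (F : Facts e) (hD : 0 < D) (hB : InjGE e D) (hdiam : ∀ p q : M, dist p q ≤ D)
    {l : ℕ} (hP : ∀ x y : M, dist x y = D → finrank ℝ (H775.Pl e D x y) = l + 1)
    (v : UT E M) {a b : E} (ha : ip (foot v) (vec' v) a = 0)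
    (hb : ip (gm e (v, D)) (vec' (phi F (v, D))) b = 0)
    (hab : ∀ w : E, (w : TangentSpace 𝓘(ℝ, E) (foot v)) ∈ Lf e D v →
      ip (foot v) w a = ip (gm e (v, D)) (Tr F hD hB hdiam v w) b) :
    ∃ c₁ c₂ : E, ip (foot v) (vec' v) c₁ = 0 ∧
      ip (foot (phi F (v, -(D / 2)))) (vec' (phi F (v, -(D / 2)))) c₂ = 0 ∧
      Jc e v c₁ 0 + Jc e (phi F (v, -(D / 2))) c₂ (0 - -(D / 2)) = a ∧
      Jc e v c₁ D + Jc e (phi F (v, -(D / 2))) c₂ (D - -(D / 2)) = b := by
  set s : ℝ := -(D / 2) with hs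
  set u := phi F (v, s) with hu
  -- the second field
  have hsur : Function.Surjective fun c : E => Jc e u c (0 - s) := by
    let L : E →ₗ[ℝ] E :=
      { toFun := fun c => Jc e u c (0 - s)
        map_add' := fun c c' => Jc_add u c c' _
        map_smul' := fun k c => Jc_smul u k c _ }
    have hinj : Function.Injective L := by
      rw [← LinearMap.ker_eq_bot, LinearMap.ker_eq_bot']
      intro c hc
      have k1 : Jc e u c (0 - s) = 0 := hc
      rw [Jc_eq F] at k1
      have k2 : (0 - s) ≠ 0 := by rw [hs]; simp; exact hD.ne'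
      have k3 := (smul_eq_zero.1 k1).resolve_left k2
      refine dE_injective F hB ?_ k3
      rw [nm_smul, nm_vec', mul_one, hs, zero_sub, neg_neg, abs_of_pos (half_pos hD)]
      exact half_lt_self hD
    exact (LinearMap.injective_iff_surjective (f := L)).1 hinj
  obtain ⟨c₂, hc₂⟩ := hsur a
  have hc₂' : Jc e u c₂ (0 - s) = a := hc₂
  have hper : ip (foot u) (vec' u) c₂ = 0 := by
    have h1 := gauss_Jc F u c₂ (0 - s)
    rw [hc₂'] at h1
    have h2 : phi F (u, 0 - s) = v := by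
      rw [hu, phi_add, add_sub_cancel, phi_zero]
    have h3 : gm e (u, 0 - s) = foot v := congrArg foot h2
    rw [h2, h3, ha] at h1
    have h4 : (0 - s) ≠ 0 := by rw [hs]; simp; exact hD.ne'
    exact (mul_eq_zero.1 h1.symm).resolve_left h4
  -- the remainder
  set b' : E := b - Jc e u c₂ (D - s) with hb'
  have hpu : ∀ t, phi F (u, t - s) = phi F (v, t) := by
    intro t
    rw [hu, phi_add, add_sub_cancel]
  have hb1 : ip (gm e (v, D)) (vec' (phi F (v, D))) b' = 0 := by
    have h1 := gauss_Jc F u c₂ (D - s)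
    rw [hper, mul_zero, hpu D] at h1
    have h3 : gm e (u, D - s) = gm e (v, D) := congrArg foot (hpu D)
    rw [h3] at h1
    rw [hb', ip_sub_right', hb, h1, sub_zero]
  have hb2 : ∀ w : E, (w : TangentSpace 𝓘(ℝ, E) (foot v)) ∈ Lf e D v →
      ip (gm e (v, D)) (Tr F hD hB hdiam v w) b' = 0 := by
    intro w hw
    have h1 := wronskian_D F hD hB hdiam hP hw s c₂
    rw [← Jc_phi F, ← Jc_phi F, ← hu, hc₂'] at h1
    rw [hb', ip_sub_right', h1, ← hab w hw, sub_self]
  have hmem := orth_of_Tr F hD hB hdiam v hb1 hb2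
  obtain ⟨w₁, hw1', hw2'⟩ : ∃ w₁ : E, ip (foot v) (vec' v) w₁ = 0 ∧
      dE e (foot v) (D • vec' v) w₁ = b' := by
    obtain ⟨w₁, hw1, hw2⟩ := H703.exists_dE_eq F hD hB hdiam (x := foot v) (y := gm e (v, D))
      (v := tv v) (nm_vec' v) rfl hmem
    exact ⟨w₁, hw1, hw2⟩
  refine ⟨D⁻¹ • w₁, c₂, ?_, hper, ?_, ?_⟩
  · rw [ip_smul_right', hw1', mul_zero]
  · rw [Jc_zero F, zero_add, hc₂']
  · rw [Jc_smul, Jc_eq F, hw2', smul_smul, inv_mul_cancel₀ hD.ne', one_smul, hb', sub_add_cancel]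

/-! ### nonnegativity -/

theorem cont_fa (F : Facts e) {v : UT E M} {X Y : ℝ → E} (hX : ∀ t, FA e v X t)
    (hY : ∀ t, FA e v Y t) : Continuous fun t => ip (gm e (v, t)) (X t) (Y t) := by
  rw [continuous_iff_continuousAt]
  intro t
  have h1 : SmV (fun t => gm e (v, t)) (fun t => (X t : E)) t := (hX t).self_of_nhds
  have h2 : SmV (fun t => gm e (v, t)) (fun t => (Y t : E)) t := (hY t).self_of_nhds
  exact (h1.inner h2).continuousAt

/-- the integral over a period of an antiperiodic function vanishes -/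
theorem int_anti {f : ℝ → ℝ} (hf : Continuous f) (h : ∀ t, f (t + D) = -f t) :
    ∫ t in (0 : ℝ)..(2 * D), f t = 0 := by
  have h1 := intervalIntegral.integral_add_adjacent_intervals
    (hf.intervalIntegrable (μ := volume) 0 D) (hf.intervalIntegrable D (2 * D))
  have h2 := intervalIntegral.integral_comp_add_right (a := 0) (b := D) f D
  rw [zero_add, ← two_mul] at h2
  rw [← h1, ← h2]
  simp only [h, intervalIntegral.integral_neg]
  ring

/-- **index at most `l`** -/
theorem DF.int_nonpos {F : Facts e} {hD : 0 < D} {hB : InjGE e D}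
    {hdiam : ∀ p q : M, dist p q ≤ D} {l : ℕ}
    (hP : ∀ x y : M, dist x y = D → finrank ℝ (H775.Pl e D x y) = l + 1)
    {X δ : UT E M → E} (h : DF F hD hB hdiam X δ) (v : UT E M)
    (hΘ : ∀ w : E, (w : TangentSpace 𝓘(ℝ, E) (foot v)) ∈ Lf e D v →
      ip (foot v) w (X v) = ip (gm e (v, D)) (Tr F hD hB hdiam v w) (X (phi F (v, D)))) :
    ∫ t in (0 : ℝ)..(2 * D), ip (gm e (v, t)) (δ (phi F (v, t))) (X (phi F (v, t))) ≤ 0 := by
  have hneg : ∀ (x : M) (p q : E), ip x p (-q) = -ip x p q := fun x p q => ip_neg_right' x p q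
  obtain ⟨c₁, c₂, h1, h2, h3, h4⟩ := exists_bj F hD hB hdiam hP v (a := -X v)
    (b := -X (phi F (v, D))) (by rw [hneg, h.perp, neg_zero])
    (by rw [hneg]; rw [show ip (gm e (v, D)) (vec' (phi F (v, D))) (X (phi F (v, D))) = 0 from
      h.perp (phi F (v, D)), neg_zero]) (fun w hw => by rw [hneg, hneg, hΘ w hw])
  set s : ℝ := -(D / 2) with hs
  -- the Jacobi field
  set J : ℝ → E := fun t => Jc e (phi F (v, 0)) c₁ (t - 0) + Jc e (phi F (v, s)) c₂ (t - s) with hJ
  have hJ0 : J 0 = -X v := by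
    rw [← h3]
    simp only [hJ]
    rw [phi_zero, sub_zero]
  have hJD : J D = -X (phi F (v, D)) := by
    rw [← h4]
    simp only [hJ]
    rw [phi_zero, sub_zero]
  have h1' : ip (foot (phi F (v, 0))) (vec' (phi F (v, 0))) c₁ = 0 := by
    rw [phi_zero]; exact h1
  have hJfa : ∀ t, FA e v J t := fun t => (fa_Jc F v c₁ 0 t).add (fa_Jc F v c₂ s t)
  have hJper : ∀ t, J (t + 2 * D) = J t := by
    intro t
    simp only [hJ]
    have k1 := Jc_per F hD hB hdiam h1' (t - 0)
    have k2 := Jc_per F hD hB hdiam h2 (t - s)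
    rw [← k1, ← k2]
    congr 2 <;> ring
  set Z : ℝ → E := fun t => X (phi F (v, t)) + J t with hZ
  have hZfa : ∀ t, FA e v Z t := fun t => (h.fld.fa F v t).add (hJfa t)
  have hZper : ∀ t, Z (t + 2 * D) = Z t := by
    intro t
    have k := W.phi_per F hD hB hdiam (phi F (v, t))
    rw [phi_add] at k
    simp only [hZ]
    rw [hJper, k]
  have hZ0 : Z 0 = 0 := by
    simp only [hZ]
    rw [hJ0, phi_zero, add_neg_cancel]
  have hZD : Z D = 0 := by
    simp only [hZ]
    rw [hJD, add_neg_cancel]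
  have hje : ∀ t, JE e (foot (phi F (v, t))) (phi F (v, t)) (fun r => Z (t + r))
      (δ (phi F (v, t))) := by
    intro t
    have hsrc := mem_extChartAt_source (I := 𝓘(ℝ, E)) (foot (phi F (v, t)))
    have k1 := h.je_shift v t
    have k2 := je_Jc_shift F hD hB v 0 t h1'
    have k3 := je_Jc_shift F hD hB v s t h2
    have f1 : FA e (phi F (v, t)) (fun r => X (phi F (v, t + r))) 0 :=
      fa_shift F (Z := fun t => X (phi F (v, t))) (h.fld.fa F v) t 0
    have f2 : FA e (phi F (v, t)) (fun r => Jc e (phi F (v, 0)) c₁ (t + r - 0)) 0 :=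
      fa_shift F (Z := fun t => Jc e (phi F (v, 0)) c₁ (t - 0)) (fa_Jc F v c₁ 0) t 0
    have f3 : FA e (phi F (v, t)) (fun r => Jc e (phi F (v, s)) c₂ (t + r - s)) 0 :=
      fa_shift F (Z := fun t => Jc e (phi F (v, s)) c₂ (t - s)) (fa_Jc F v c₂ s) t 0
    have k4 := JE.add F hsrc f1 (f2.add f3) k1 (JE.add F hsrc f2 f3 k2 k3)
    exact JE.congr (fun r => rfl) (by rw [add_zero, add_zero]) k4
  have hδfa : ∀ t, FA e v (fun t => δ (phi F (v, t))) t := h.sfld.fa F v
  have key := deriv2_enZ F hD hB hdiam hZfa hZper (δ := fun t => δ (phi F (v, t))) hje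
    (cont_fa F hδfa hZfa)
  have hpos := deriv2_enZ_nonneg F hD hB hdiam hZfa hZper hZ0 hZD
  have hsplit : ∀ t, ip (gm e (v, t)) (δ (phi F (v, t))) (Z t) =
      ip (gm e (v, t)) (δ (phi F (v, t))) (X (phi F (v, t))) +
        ip (gm e (v, t)) (δ (phi F (v, t))) (J t) := fun t => ip_add_right' _ _ _ _
  have c1 := cont_fa F hδfa (h.fld.fa F v)
  have c2 := cont_fa F hδfa hJfa
  have hanti : ∫ t in (0 : ℝ)..(2 * D), ip (gm e (v, t)) (δ (phi F (v, t))) (J t) = 0 := by
    refine int_anti c2 fun t => ?_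
    have w1 := wronskian_Jc F hD hB hdiam hP v t (h.mem (phi F (v, t))) 0 c₁
    have w2 := wronskian_Jc F hD hB hdiam hP v t (h.mem (phi F (v, t))) s c₂
    have w3 := h.half (phi F (v, t))
    rw [phi_add] at w3
    have w4 : ip (gm e (v, t + D)) (-Tr F hD hB hdiam (phi F (v, t)) (δ (phi F (v, t))))
        (J (t + D)) = -ip (gm e (v, t + D)) (Tr F hD hB hdiam (phi F (v, t)) (δ (phi F (v, t))))
        (J (t + D)) := inner_neg_left (𝕜 := ℝ) (E := TangentSpace 𝓘(ℝ, E) (gm e (v, t + D))) _ _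
    have w5 : ip (gm e (v, t + D)) (Tr F hD hB hdiam (phi F (v, t)) (δ (phi F (v, t))))
        (J (t + D)) = ip (gm e (v, t)) (δ (phi F (v, t))) (J t) := by
      simp only [hJ]
      rw [ip_add_right', ip_add_right', w1, w2]
    rw [w3, w4, w5]
  simp only [hsplit] at key
  rw [intervalIntegral.integral_add (c1.intervalIntegrable _ _) (c2.intervalIntegrable _ _),
    hanti, add_zero] at key
  linarith

end

end Vale.Agent.P231.S2N
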