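import Vale.Agent.P231.S2N.Fld
import Vale.Agent.P231.WC.YLoc
import Vale.Agent.P231.WR.Proj

/-!
# P231, stage 2, S2-NEG: the linearised geodesic operator of a field along a geodesic,
Jacobi fields and the fields `Y_W`
-/

set_option maxSynthPendingDepth 3
set_option linter.unusedSectionVars false
set_option linter.unusedVariables false

open Bundle Manifold Set Filter Module
open scoped ContDiff Manifold Topology

namespace Vale.Agent.P231.S2N

noncomputable section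

open Vale.Agent.P234 Vale.Agent.P231 Vale.Agent.P231.Fm Vale.Agent.P231.W Vale.Agent.P231.WR
open Vale.Agent.P231.H775 Vale.Agent.P231.WC

section Flip

variable {E : Type*} [NormedAddCommGroup E] [NormedSpace ℝ E]

/-- the geodesic operator is even in the velocity -/
theorem fderiv_Qf_flip {A : E → E →L[ℝ] E →L[ℝ] ℝ} {x p q b y p' q' : E} (hA : Sm A x) :
    fderiv ℝ (Qf A) (x, -p, q, b) (y, -p', q', 0) = fderiv ℝ (Qf A) (x, p, q, b) (y, p', q', 0) := by
  let R : E × E × E × E →L[ℝ] E × E × E × E :=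
    (ContinuousLinearMap.fst ℝ E (E × E × E)).prod
      ((-(ContinuousLinearMap.fst ℝ E (E × E))).prod (ContinuousLinearMap.snd ℝ E (E × E)) ∘L
        (ContinuousLinearMap.snd ℝ E (E × E × E)))
  have hR : ∀ a b c d : E, R (a, b, c, d) = (a, -b, c, d) := fun a b c d => rfl
  have h1 : (fun z => Qf A (R z)) = Qf A := by
    funext z
    obtain ⟨a, b, c, d⟩ := z
    rw [hR]
    simp only [Qf, Qg, map_neg, neg_apply, neg_neg]
  have h2 : DifferentiableAt ℝ (Qf A) (R (x, p, q, b)) := by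
    rw [hR]
    exact (sm_Qf (y := (x, -p, q, b)) hA).differentiableAt
  have h3 := (h2.hasFDerivAt.comp (x, p, q, b) R.hasFDerivAt).fderiv
  have h4 : fderiv ℝ (Qf A ∘ R) (x, p, q, b) = fderiv ℝ (Qf A) (x, p, q, b) :=
    congrArg (fun f => fderiv ℝ f (x, p, q, b)) h1
  rw [h4] at h3
  rw [h3, ContinuousLinearMap.comp_apply, hR, hR]

end Flip

variable {E : Type*} [NormedAddCommGroup E] [NormedSpace ℝ E]
  {M : Type*} [MetricSpace M] [ChartedSpace E M]
  [RiemannianBundle (fun x : M => TangentSpace 𝓘(ℝ, E) x)]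
  {e : ∀ x : M, TangentSpace 𝓘(ℝ, E) x → M}
  [FiniteDimensional ℝ E] [IsManifold 𝓘(ℝ, E) ∞ M]
  [IsContMDiffRiemannianBundle 𝓘(ℝ, E) ∞ E (fun x : M => TangentSpace 𝓘(ℝ, E) x)]
  [CompactSpace M] [ConnectedSpace M] [IsRiemannianManifold 𝓘(ℝ, E) M]

variable {D : ℝ}

/-! ### fields along the geodesic of `v` -/

/-- smoothness of a field along the geodesic of `v` near the time `t` -/
def FA (e : ∀ x : M, TangentSpace 𝓘(ℝ, E) x → M) (v : UT E M) (X : ℝ → E) (t : ℝ) : Prop :=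
  ∀ᶠ t in 𝓝 t, SmV (fun t => gm e (v, t)) (fun t => (X t : E)) t

/-- the linearised geodesic operator of the field `X` along the geodesic of `v`, at time `0`,
is `δ` -/
def JE (e : ∀ x : M, TangentSpace 𝓘(ℝ, E) x → M) (x₀ : M) (v : UT E M) (X : ℝ → E) (δ : E) :
    Prop :=
  ∀ b, fderiv ℝ (Qf (cm x₀))
      (WC.kap e x₀ v 0, deriv (WC.kap e x₀ v) 0, deriv (deriv (WC.kap e x₀ v)) 0, b)
      (yf e x₀ v X 0, deriv (yf e x₀ v X) 0, deriv (deriv (yf e x₀ v X)) 0, 0) =
        cm x₀ (WC.kap e x₀ v 0) (crd x₀ (foot v) δ : E) b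

theorem FA.add {v : UT E M} {X Y : ℝ → E} {t : ℝ} (hX : FA e v X t) (hY : FA e v Y t) :
    FA e v (fun t => X t + Y t) t := by
  filter_upwards [hX, hY] with t h1 h2
  exact h1.add h2

theorem FA.smul {v : UT E M} {X : ℝ → E} {t : ℝ} (c : ℝ) (hX : FA e v X t) :
    FA e v (fun t => c • X t) t := by
  filter_upwards [hX] with t h1
  exact SmV.smul (contDiffAt_const (c := c)) h1

theorem sm_yf (F : Facts e) {x₀ : M} {v : UT E M} {X : ℝ → E} {t : ℝ} (hX : FA e v X t)
    (ht : gm e (v, t) ∈ (extChartAt 𝓘(ℝ, E) x₀).source) : Sm (yf e x₀ v X) t := by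
  filter_upwards [hX, src_gm F x₀ ht] with s h1 h2
  exact ((smV_iff (f := fun t : ℝ => gm e (v, t)) (s := s) x₀ h2).1 h1).2

theorem yf_add (x₀ : M) (v : UT E M) (X Y : ℝ → E) :
    yf e x₀ v (fun t => X t + Y t) = fun t => yf e x₀ v X t + yf e x₀ v Y t := by
  funext t
  exact map_add (crd x₀ (gm e (v, t))) _ _

theorem yf_smul (x₀ : M) (v : UT E M) (c : ℝ) (X : ℝ → E) :
    yf e x₀ v (fun t => c • X t) = fun t => c • yf e x₀ v X t := by
  funext t
  exact map_smul (crd x₀ (gm e (v, t))) _ _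

theorem sm_deriv {f : ℝ → E} {t : ℝ} (h : Sm f t) : Sm (deriv f) t := by
  have h1 : Sm (fun s => fderiv ℝ f s (1 : ℝ)) t := sm_clm_apply h.fderiv (sm_const _ _)
  exact h1

theorem src_zero (F : Facts e) {x₀ : M} {v : UT E M}
    (hx : foot v ∈ (extChartAt 𝓘(ℝ, E) x₀).source) :
    gm e (v, 0) ∈ (extChartAt 𝓘(ℝ, E) x₀).source := by rw [gm_zero F]; exact hx

theorem JE.add (F : Facts e) {x₀ : M} {v : UT E M} (hx : foot v ∈ (extChartAt 𝓘(ℝ, E) x₀).source)
    {X Y : ℝ → E} {δ η : E} (hX : FA e v X 0) (hY : FA e v Y 0) (h1 : JE e x₀ v X δ)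
    (h2 : JE e x₀ v Y η) : JE e x₀ v (fun t => X t + Y t) (δ + η) := by
  intro b
  have s1 := sm_yf F hX (src_zero F hx)
  have s2 := sm_yf F hY (src_zero F hx)
  have d0 : deriv (fun t => yf e x₀ v X t + yf e x₀ v Y t) =ᶠ[𝓝 0]
      fun t => deriv (yf e x₀ v X) t + deriv (yf e x₀ v Y) t := by
    filter_upwards [s1.eventually, s2.eventually] with t k1 k2
    exact deriv_fun_add k1.differentiableAt k2.differentiableAt
  have d1 := d0.self_of_nhds
  have d2 : deriv (deriv (fun t => yf e x₀ v X t + yf e x₀ v Y t)) 0 =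
      deriv (deriv (yf e x₀ v X)) 0 + deriv (deriv (yf e x₀ v Y)) 0 := by
    rw [d0.deriv_eq]
    exact deriv_fun_add (sm_deriv s1).differentiableAt (sm_deriv s2).differentiableAt
  rw [yf_add, d2, d1]
  have e1 : ((yf e x₀ v X 0 + yf e x₀ v Y 0, deriv (yf e x₀ v X) 0 + deriv (yf e x₀ v Y) 0,
      deriv (deriv (yf e x₀ v X)) 0 + deriv (deriv (yf e x₀ v Y)) 0, 0) : E × E × E × E) =
      (yf e x₀ v X 0, deriv (yf e x₀ v X) 0, deriv (deriv (yf e x₀ v X)) 0, 0) +
      (yf e x₀ v Y 0, deriv (yf e x₀ v Y) 0, deriv (deriv (yf e x₀ v Y)) 0, 0) := by simp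
  have e2 : (crd x₀ (foot v) (δ + η : E) : E) = (crd x₀ (foot v) (δ : E) : E) +
      (crd x₀ (foot v) (η : E) : E) := map_add (crd x₀ (foot v)) _ _
  rw [e1, map_add, h1 b, h2 b, e2, map_add]
  rfl

theorem JE.smul (F : Facts e) {x₀ : M} {v : UT E M} (hx : foot v ∈ (extChartAt 𝓘(ℝ, E) x₀).source)
    (c : ℝ) {X : ℝ → E} {δ : E} (hX : FA e v X 0) (h1 : JE e x₀ v X δ) :
    JE e x₀ v (fun t => c • X t) (c • δ) := by
  intro b
  have s1 := sm_yf F hX (src_zero F hx)
  have d0 : deriv (fun t => c • yf e x₀ v X t) =ᶠ[𝓝 0] fun t => c • deriv (yf e x₀ v X) t := by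
    filter_upwards [s1.eventually] with t k1
    exact deriv_fun_const_smul c k1.differentiableAt
  have d1 := d0.self_of_nhds
  have d2 : deriv (deriv (fun t => c • yf e x₀ v X t)) 0 = c • deriv (deriv (yf e x₀ v X)) 0 := by
    rw [d0.deriv_eq]
    exact deriv_fun_const_smul c (sm_deriv s1).differentiableAt
  rw [yf_smul, d2, d1]
  have e1 : ((c • yf e x₀ v X 0, c • deriv (yf e x₀ v X) 0,
      c • deriv (deriv (yf e x₀ v X)) 0, 0) : E × E × E × E) =
      c • (yf e x₀ v X 0, deriv (yf e x₀ v X) 0, deriv (deriv (yf e x₀ v X)) 0, 0) := by simp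
  have e2 : (crd x₀ (foot v) (c • δ : E) : E) = c • (crd x₀ (foot v) (δ : E) : E) :=
    map_smul (crd x₀ (foot v)) _ _
  rw [e1, map_smul, h1 b, e2, map_smul]
  rfl

theorem JE.congr {x₀ : M} {v : UT E M} {X Y : ℝ → E} {δ η : E} (h : ∀ t, X t = Y t)
    (h' : δ = η) (h1 : JE e x₀ v X δ) : JE e x₀ v Y η := by
  have : X = Y := funext h
  subst this
  subst h'
  exact h1

theorem kap_ng (x₀ : M) (v : UT E M) : WC.kap e x₀ (ng v) = fun t => WC.kap e x₀ v (-t) := by
  funext t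
  unfold WC.kap
  rw [gm_ng]

theorem yf_ng (x₀ : M) (v : UT E M) (X : ℝ → E) :
    yf e x₀ (ng v) (fun t => X (-t)) = fun t => yf e x₀ v X (-t) := by
  funext t
  exact crd_congr x₀ (gm_ng v t) rfl

theorem deriv2_neg (f : ℝ → E) : deriv (deriv (fun t => f (-t))) 0 = deriv (deriv f) 0 := by
  have h1 : deriv (fun t => f (-t)) = fun t => -deriv f (-t) := by
    funext t
    exact deriv_comp_neg f t
  rw [h1, deriv.fun_neg, deriv_comp_neg (deriv f) 0, neg_neg, neg_zero]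

/-- reversal -/
theorem JE.ng (F : Facts e) {x₀ : M} {v : UT E M} (hx : foot v ∈ (extChartAt 𝓘(ℝ, E) x₀).source)
    {X : ℝ → E} {δ : E} (h1 : JE e x₀ v X δ) : JE e x₀ (ng v) (fun t => X (-t)) δ := by
  intro b
  have htar : WC.kap e x₀ v 0 ∈ (extChartAt 𝓘(ℝ, E) x₀).target :=
    (extChartAt 𝓘(ℝ, E) x₀).map_source (src_zero F hx)
  have e0 : WC.kap e x₀ (WR.ng v) 0 = WC.kap e x₀ v 0 := by
    rw [kap_ng]
    change WC.kap e x₀ v (-0) = _
    rw [neg_zero]
  have e1 : deriv (WC.kap e x₀ (WR.ng v)) 0 = -deriv (WC.kap e x₀ v) 0 := by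
    rw [kap_ng, deriv_comp_neg (WC.kap e x₀ v) 0, neg_zero]
  have e2 : deriv (deriv (WC.kap e x₀ (WR.ng v))) 0 = deriv (deriv (WC.kap e x₀ v)) 0 := by
    rw [kap_ng, deriv2_neg]
  have f0 : yf e x₀ (WR.ng v) (fun t => X (-t)) 0 = yf e x₀ v X 0 := by
    rw [yf_ng]
    change yf e x₀ v X (-0) = _
    rw [neg_zero]
  have f1 : deriv (yf e x₀ (WR.ng v) (fun t => X (-t))) 0 = -deriv (yf e x₀ v X) 0 := by
    rw [yf_ng, deriv_comp_neg (yf e x₀ v X) 0, neg_zero]
  have f2 : deriv (deriv (yf e x₀ (WR.ng v) (fun t => X (-t)))) 0 =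
      deriv (deriv (yf e x₀ v X)) 0 := by
    rw [yf_ng, deriv2_neg]
  rw [e0, e1, e2, f0, f1, f2]
  exact (fderiv_Qf_flip (sm_cm x₀ htar)).trans (h1 b)

theorem FA.ng {v : UT E M} {X : ℝ → E} {t : ℝ} (hX : FA e v X (-t)) :
    FA e (ng v) (fun t => X (-t)) t := by
  have h1 : Tendsto (fun s : ℝ => -s) (𝓝 t) (𝓝 (-t)) := continuous_neg.tendsto t
  filter_upwards [h1.eventually hX] with s hs
  have h2 : SmV (fun s : ℝ => gm e (v, -s)) (fun s => (X (-s) : E)) s :=
    SmV.comp (f := fun t => gm e (v, t)) (u := fun t => (X t : E)) (h := fun s : ℝ => -s) hs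
      contDiffAt_id.neg
  refine ContMDiffAt.congr_of_eventuallyEq h2 ?_
  exact Eventually.of_forall fun s' => tb_congr (gm_ng v s') rfl

/-! ### Jacobi fields -/

/-- the Jacobi field along the geodesic of `u` vanishing at time `0` with derivative `c` -/
def Jc (e : ∀ x : M, TangentSpace 𝓘(ℝ, E) x → M) (u : UT E M) (c : E) (r : ℝ) : E :=
  jf e (foot u) (vec' u) 0 r c

theorem Jc_eq (F : Facts e) (u : UT E M) (c : E) (r : ℝ) :
    Jc e u c r = r • dE e (foot u) (r • vec' u) c := H703.jf_zero F _ _ _ _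

theorem Jc_zero (F : Facts e) (u : UT E M) (c : E) : Jc e u c 0 = 0 := by
  rw [Jc_eq F, zero_smul]

theorem Jc_smul (u : UT E M) (k : ℝ) (c : E) (r : ℝ) : Jc e u (k • c) r = k • Jc e u c r := by
  unfold Jc jf
  rw [dE_smul, smul_comm]

theorem Jc_add (u : UT E M) (c c' : E) (r : ℝ) : Jc e u (c + c') r = Jc e u c r + Jc e u c' r := by
  unfold Jc jf
  rw [dE_add, smul_add]

section Circle

variable {u : UT E M} {c : E} (hc : ip (foot u) c c = 1) (h0 : ip (foot u) (vec' u) c = 0)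

/-- the rotated directions -/
def rr (u : UT E M) (c : E) (hc : ip (foot u) c c = 1) (h0 : ip (foot u) (vec' u) c = 0)
    (θ : ℝ) : UT E M :=
  W.mk (foot u) (Real.cos θ • vec' u + Real.sin θ • c)
    (nm_comb (ip_vec' u) hc h0 (Real.cos_sq_add_sin_sq θ))

theorem rr_zero : rr u c hc h0 0 = u := by
  refine Eq.trans ?_ (mk_eta u)
  refine mk_congr rfl ?_
  rw [Real.cos_zero, Real.sin_zero, one_smul, zero_smul, add_zero]

theorem at_rr (t : ℝ) : (dUT E M).At (rr u c hc h0) t := at_circle (foot u) (ip_vec' u) hc h0 t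

/-- the rotated geodesics -/
def kr (e : ∀ x : M, TangentSpace 𝓘(ℝ, E) x → M) (u : UT E M) (c : E)
    (hc : ip (foot u) c c = 1) (h0 : ip (foot u) (vec' u) c = 0) (s : ℝ) (z : ℝ × ℝ) : M :=
  gm e (rr u c hc h0 z.1, z.2 - s)

theorem s2_kr (F : Facts e) (s : ℝ) (z : ℝ × ℝ) : S2 (E := E) (kr e u c hc h0 s) z := by
  have h2 : Sm (fun z : ℝ × ℝ => z.2 - s) z := Sm.of_contDiff (contDiff_snd.sub contDiff_const) z
  have h3 : (dUT E M).At (fun z : ℝ × ℝ => rr u c hc h0 z.1) z :=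
    (dUT E M).comp (u := rr u c hc h0) (g := Prod.fst) (x := z) (at_rr hc h0 z.1)
      (Sm.of_contDiff contDiff_fst z)
  exact map_gm F (u := fun z : ℝ × ℝ => (rr u c hc h0 z.1, z.2 - s)) ⟨h3, h2⟩

/-- the derivative in the angle is the Jacobi field -/
theorem vl_kr (F : Facts e) (s t : ℝ) :
    (vl (fun θ => kr e u c hc h0 s (θ, t)) 0 : E) = Jc e u c (t - s) := by
  let v' : TangentSpace 𝓘(ℝ, E) (foot u) := vec' (E := E) u
  let w' : TangentSpace 𝓘(ℝ, E) (foot u) := c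
  have hc' : HasDerivAt (fun θ : ℝ => ((t - s) • (Real.cos θ • v' + Real.sin θ • w') :
      TangentSpace 𝓘(ℝ, E) (foot u))) ((t - s) • w') 0 := by
    have a1 : HasDerivAt (fun θ : ℝ => (Real.cos θ • v' : TangentSpace 𝓘(ℝ, E) (foot u)))
        ((-Real.sin 0) • v') 0 := (Real.hasDerivAt_cos 0).smul_const v'
    have a2 : HasDerivAt (fun θ : ℝ => (Real.sin θ • w' : TangentSpace 𝓘(ℝ, E) (foot u)))
        (Real.cos 0 • w') 0 := (Real.hasDerivAt_sin 0).smul_const w'
    have k1 : HasDerivAt (fun θ : ℝ => (Real.cos θ • v' + Real.sin θ • w' :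
        TangentSpace 𝓘(ℝ, E) (foot u))) ((-Real.sin 0) • v' + Real.cos 0 • w') 0 := a1.add a2
    rw [Real.sin_zero, Real.cos_zero, neg_zero, zero_smul, one_smul, zero_add] at k1
    exact k1.const_smul (t - s)
  have h1 := mfderiv_exp_curve F.isExp (foot u) hc'
  have h2 : (vl (fun θ => kr e u c hc h0 s (θ, t)) 0 : E) =
      dE e (foot u) ((t - s) • (Real.cos 0 • vec' u + Real.sin 0 • c)) ((t - s) • c) := h1
  rw [h2, dE_smul, Real.cos_zero, Real.sin_zero, one_smul, zero_smul, add_zero]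
  exact (Jc_eq F u c (t - s)).symm

/-- the velocity in time -/
theorem vl_kr2 (F : Facts e) (s : ℝ) (z : ℝ × ℝ) :
    (vl (fun t => kr e u c hc h0 s (z.1, t)) z.2 : E) =
      vec' (phi F (rr u c hc h0 z.1, z.2 - s)) := by
  set y := rr u c hc h0 z.1 with hy
  have h1 := mfderiv_gam_shift F.isExp (foot y) (vec' y) (-s) z.2
  have h2 : (fun t => kr e u c hc h0 s (z.1, t)) = fun t => gam e (foot y) (vec' y) (-s + t) := by
    funext t
    unfold kr gm
    rw [neg_add_eq_sub]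
  have h3 : vel e (foot y) (vec' y) (-s + z.2) = vec' (phi F (y, z.2 - s)) := by
    rw [vec'_phi, neg_add_eq_sub]
  rw [← h3, ← h1]
  exact congrArg (fun f : ℝ → M => (vl f z.2 : E)) h2

end Circle

theorem smV_const (x : M) (a : E) (t : ℝ) :
    SmV (fun _ : ℝ => x) (fun _ => (a : TangentSpace 𝓘(ℝ, E) x)) t := by
  have h : ContMDiffAt 𝓘(ℝ, ℝ) 𝓘(ℝ, E).tangent ∞ (fun _ : ℝ => tb x a) t := contMDiffAt_const
  exact h

/-- Jacobi fields are smooth along the geodesic -/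
theorem smV_Jc (F : Facts e) (u : UT E M) (c : E) (s t : ℝ) :
    SmV (fun t => gm e (u, t - s)) (fun t => (Jc e u c (t - s) : E)) t := by
  let v' : ∀ _ : ℝ, TangentSpace 𝓘(ℝ, E) (foot u) := fun _ => vec' (E := E) u
  let c' : ∀ _ : ℝ, TangentSpace 𝓘(ℝ, E) (foot u) := fun _ => c
  have h1 : ∀ t : ℝ, SmV (fun _ : ℝ => foot u) v' t := fun t => smV_const _ _ t
  have h2 : ∀ t : ℝ, SmV (fun _ : ℝ => foot u) c' t := fun t => smV_const _ _ t
  let u' : ∀ _ : ℝ, TangentSpace 𝓘(ℝ, E) (foot u) := fun t => (t - s) • v' t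
  have h3 : ∀ t : ℝ, SmV (fun _ : ℝ => foot u) u' t := fun t =>
    SmV.smul (contDiffAt_id.sub contDiffAt_const) (h1 t)
  have h4 := H583.smV_dE F.isExp (Eventually.of_forall (f := 𝓝 t) h3) (Eventually.of_forall h2)
  have h5 : SmV (fun t => gm e (u, t - s))
      (fun t => ((t - s) • dE e (foot u) ((t - s) • vec' u) c : E)) t :=
    SmV.smul (contDiffAt_id.sub contDiffAt_const) h4
  refine ContMDiffAt.congr_of_eventuallyEq h5 ?_
  exact Eventually.of_forall fun t' => tb_congr rfl (Jc_eq F u c (t' - s))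

theorem gm_phi_sub (F : Facts e) (v : UT E M) (s t : ℝ) :
    gm e (phi F (v, s), t - s) = gm e (v, t) := by
  rw [gm_phi F]
  congr 2
  ring

theorem fa_Jc (F : Facts e) (v : UT E M) (c : E) (s t : ℝ) :
    FA e v (fun t => Jc e (phi F (v, s)) c (t - s)) t := by
  refine Eventually.of_forall fun t => ?_
  refine ContMDiffAt.congr_of_eventuallyEq (smV_Jc F (phi F (v, s)) c s t) ?_
  exact Eventually.of_forall fun t' => tb_congr (gm_phi_sub F v s t').symm rfl

theorem JE.zero (F : Facts e) {x₀ : M} (v : UT E M) : JE e x₀ v (fun _ => 0) 0 := by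
  intro b
  have h1 : yf e x₀ v (fun _ => 0) = fun _ => 0 := by
    funext t
    exact map_zero (crd x₀ (gm e (v, t)))
  have h2 : (crd x₀ (foot v) (0 : E) : E) = 0 := map_zero (crd x₀ (foot v))
  rw [h1, h2]
  simp only [deriv_const', map_zero]
  have h3 : ((0, 0, 0, 0) : E × E × E × E) = 0 := rfl
  rw [h3, map_zero]
  rfl

/-- **Jacobi fields solve the linearised geodesic equation** -/
theorem je_Jc (F : Facts e) (hD : 0 < D) (hB : InjGE e D) (x₀ : M) (v : UT E M)
    (hx : foot v ∈ (extChartAt 𝓘(ℝ, E) x₀).source) (s : ℝ) {c : E}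
    (h0 : ip (foot (phi F (v, s))) (vec' (phi F (v, s))) c = 0) :
    JE e x₀ v (fun t => Jc e (phi F (v, s)) c (t - s)) 0 := by
  set u := phi F (v, s) with hu
  -- unit vectors
  have key : ∀ {c : E} (hc : ip (foot u) c c = 1) (h0 : ip (foot u) (vec' u) c = 0),
      JE e x₀ v (fun t => Jc e u c (t - s)) 0 := by
    intro c hc h0 b
    have hx0 : gm e (v, 0) ∈ (extChartAt 𝓘(ℝ, E) x₀).source := src_zero F hx
    set C : ℝ × ℝ → E := fun z => extChartAt 𝓘(ℝ, E) x₀ (kr e u c hc h0 s z) with hC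
    have hz : ∀ t, kr e u c hc h0 s (0, t) = gm e (v, t) := by
      intro t
      change gm e (rr u c hc h0 0, t - s) = _
      rw [rr_zero, hu, gm_phi_sub F]
    have hS : S2 (E := E) (kr e u c hc h0 s) (0, 0) := s2_kr hc h0 F s _
    have hsrc0 : kr e u c hc h0 s (0, 0) ∈ (extChartAt 𝓘(ℝ, E) x₀).source := by
      rw [hz]; exact hx0
    have hcs : Sm C (0, 0) := hS.sm x₀ hsrc0
    have htar : C (0, 0) ∈ (extChartAt 𝓘(ℝ, E) x₀).target :=
      (extChartAt 𝓘(ℝ, E) x₀).map_source hsrc0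
    have hin : Tendsto (fun θ : ℝ => ((θ, 0) : ℝ × ℝ)) (𝓝 0) (𝓝 (0, 0)) :=
      (continuous_id.prodMk continuous_const).tendsto 0
    have hgeo : ∀ᶠ θ in 𝓝 (0 : ℝ),
        Qg (cm x₀) (C (θ, 0)) (d2 C (θ, 0)) (d2 (d2 C) (θ, 0)) b = 0 := by
      filter_upwards [hin.eventually hcs.eventually, hin.eventually (hS.src x₀ hsrc0)] with θ h1 h2
      set uθ := phi F (rr u c hc h0 θ, -s) with huθ
      have h3 : ∀ t, kr e u c hc h0 s (θ, t) = gm e (uθ, t) := by
        intro t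
        rw [huθ, gm_phi F, neg_add_eq_sub]
        rfl
      have h4 : foot uθ ∈ (extChartAt 𝓘(ℝ, E) x₀).source := by
        have h5 := h3 0
        rw [gm_zero F] at h5
        rw [← h5]
        exact h2
      refine geo_eq F hD hB (nm_vec' uθ) x₀ h4 h1 (Eventually.of_forall fun t => ?_) b
      rw [hC]
      change extChartAt 𝓘(ℝ, E) x₀ (kr e u c hc h0 s (θ, t)) = _
      rw [h3 t]
      rfl
    have hQs : Sm (fun y => Qg (cm x₀) (C y) (d2 C y) (d2 (d2 C) y) b) (0, 0) := by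
      have hj : Sm (fun y => ((C y, d2 C y, d2 (d2 C) y, b) : E × E × E × E)) (0, 0) :=
        hcs.prodMk ((sm_d2 hcs).prodMk ((sm_d2 (sm_d2 hcs)).prodMk (sm_const b _)))
      exact Sm.comp (f := Qf (cm x₀))
        (g := fun y => ((C y, d2 C y, d2 (d2 C) y, b) : E × E × E × E))
        (sm_Qf (sm_cm x₀ htar)) hj
    have hd : d1 (fun y => Qg (cm x₀) (C y) (d2 C y) (d2 (d2 C) y) b) (0, 0) = 0 := by
      have h1 := hasDerivAt_d1 (a := 0) (b := 0) hQs.differentiableAt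
      have h2 : (fun θ : ℝ => (0 : ℝ)) =ᶠ[𝓝 0]
          fun θ => Qg (cm x₀) (C (θ, 0)) (d2 C (θ, 0)) (d2 (d2 C) (θ, 0)) b := by
        filter_upwards [hgeo] with θ hθ using hθ.symm
      exact (h1.congr_of_eventuallyEq h2).unique (hasDerivAt_const _ _)
    have hlin := d1_Qf (sm_cm x₀ htar) hcs b
    rw [hd] at hlin
    have hj1 := jet2 (c := C) (κ := WC.kap e x₀ v) hcs (Eventually.of_forall fun t => by
      simp only [hC, hz]
      rfl)
    have hj2 := jet_line (c := C) (y := yf e x₀ v (fun t => Jc e u c (t - s))) (t := 0) hcs (by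
      filter_upwards [src_gm F x₀ hx0] with t ht
      have k1 := (s2_kr hc h0 F s (0, t)).d1 x₀ (by rw [hz]; exact ht)
      rw [hC]
      refine k1.trans ?_
      exact crd_congr x₀ (hz t) (vl_kr hc h0 F s t))
    rw [hj1.1, hj1.2.1, hj1.2.2, hj2.1, hj2.2.1, hj2.2.2] at hlin
    have h2 : (crd x₀ (foot v) (0 : E) : E) = 0 := map_zero (crd x₀ (foot v))
    rw [h2, map_zero]
    exact hlin.symm
  -- the general case
  set ρ : ℝ := nm (foot u) c with hρ
  rcases eq_or_ne ρ 0 with h | h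
  · have h1 : (c : E) = 0 := norm_eq_zero (E := TangentSpace 𝓘(ℝ, E) (foot u)) |>.1 h
    refine JE.congr (fun t => ?_) rfl (JE.zero F v)
    have h2 : Jc e u c (t - s) = (0 : ℝ) • Jc e u c (t - s) := by
      conv_lhs => rw [h1, ← zero_smul ℝ c, Jc_smul]
    rw [h2, zero_smul]
  · have h2 : ip (foot u) (ρ⁻¹ • c) (ρ⁻¹ • c) = 1 := by
      have h3 : ip (foot u) c c = ρ ^ 2 :=
        real_inner_self_eq_norm_sq (F := TangentSpace 𝓘(ℝ, E) (foot u)) _
      rw [ip_smul_left', ip_smul_right', h3]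
      field_simp
    have h3 : ip (foot u) (vec' u) (ρ⁻¹ • c) = 0 := by rw [ip_smul_right', h0, mul_zero]
    have h4 := JE.smul F hx ρ (fa_Jc F v (ρ⁻¹ • c) s 0) (key h2 h3)
    refine JE.congr (fun t => ?_) (smul_zero _) h4
    rw [← hu, Jc_smul, smul_smul, mul_inv_cancel₀ h, one_smul]

/-- the initial derivative of a Jacobi field -/
theorem deriv_Jc_zero (F : Facts e) (x₀ : M) (v : UT E M)
    (hx : foot v ∈ (extChartAt 𝓘(ℝ, E) x₀).source) (c : E) :
    deriv (yf e x₀ v (fun t => Jc e v c t)) 0 = (crd x₀ (foot v) (c : E) : E) := by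
  let v' : ∀ _ : ℝ, TangentSpace 𝓘(ℝ, E) (foot v) := fun _ => vec' (E := E) v
  let c' : ∀ _ : ℝ, TangentSpace 𝓘(ℝ, E) (foot v) := fun _ => c
  have h1 : ∀ t : ℝ, SmV (fun _ : ℝ => foot v) v' t := fun t => smV_const _ _ t
  have h2 : ∀ t : ℝ, SmV (fun _ : ℝ => foot v) c' t := fun t => smV_const _ _ t
  let u' : ∀ _ : ℝ, TangentSpace 𝓘(ℝ, E) (foot v) := fun t => t • v' t
  have h3 : ∀ t : ℝ, SmV (fun _ : ℝ => foot v) u' t := fun t =>
    SmV.smul contDiffAt_id (h1 t)
  have h4 : ∀ t : ℝ, SmV (fun t => gm e (v, t)) (fun t => (dE e (foot v) (t • vec' v) c : E)) t :=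
    fun t => H583.smV_dE F.isExp (Eventually.of_forall (f := 𝓝 t) h3) (Eventually.of_forall h2)
  have h5 : Sm (yf e x₀ v (fun t => dE e (foot v) (t • vec' v) c)) 0 :=
    sm_yf F (Eventually.of_forall h4) (src_zero F hx)
  have h6 : yf e x₀ v (fun t => Jc e v c t) =
      fun t => t • yf e x₀ v (fun t => dE e (foot v) (t • vec' v) c) t := by
    funext t
    unfold yf
    refine (crd_congr x₀ rfl (Jc_eq F v c t)).trans ?_
    exact map_smul (crd x₀ (gm e (v, t))) _ _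
  have h7 := (hasDerivAt_id (0 : ℝ)).smul h5.differentiableAt.hasDerivAt
  have h8 : deriv (fun t : ℝ => t • yf e x₀ v (fun t => dE e (foot v) (t • vec' v) c) t) 0 = _ :=
    h7.deriv
  rw [h6, h8, id, zero_smul, one_smul, zero_add]
  refine crd_congr x₀ (gm_zero F v) ?_
  change dE e (foot v) ((0 : ℝ) • vec' v) c = c
  rw [zero_smul]
  exact dE_zero_base F.isExp _ _

theorem ip_self_nonneg (x : M) (c : E) : ip x c c = nm x c ^ 2 :=
  real_inner_self_eq_norm_sq (F := TangentSpace 𝓘(ℝ, E) x) _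

/-- the final derivative of a Jacobi field with initial derivative in `L` -/
theorem deriv_Jc_D (F : Facts e) (hD : 0 < D) (hB : InjGE e D) (hdiam : ∀ p q : M, dist p q ≤ D)
    (x₀ : M) (u v : UT E M) (huv : phi F (u, D) = v)
    (hx : foot v ∈ (extChartAt 𝓘(ℝ, E) x₀).source) {c : E}
    (hcL : (c : TangentSpace 𝓘(ℝ, E) (foot u)) ∈ Lf e D u) :
    deriv (yf e x₀ v (fun t => Jc e u c (t - -D))) 0 =
      (crd x₀ (foot v) (Tr F hD hB hdiam u c : E) : E) := by
  have hu : u = phi F (v, -D) := by rw [← huv, phi_add, add_neg_cancel, phi_zero]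
  have key : ∀ {c : E} (hcL : (c : TangentSpace 𝓘(ℝ, E) (foot u)) ∈ Lf e D u)
      (hc : ip (foot u) c c = 1), deriv (yf e x₀ v (fun t => Jc e u c (t - -D))) 0 =
        (crd x₀ (foot v) (Tr F hD hB hdiam u c : E) : E) := by
    intro c hcL hc
    have h0 : ip (foot u) (vec' u) c = 0 := (mem_Lf.1 hcL).2
    have hx0 : gm e (v, 0) ∈ (extChartAt 𝓘(ℝ, E) x₀).source := src_zero F hx
    set C : ℝ × ℝ → E := fun z => extChartAt 𝓘(ℝ, E) x₀ (kr e u c hc h0 (-D) z) with hC
    have hz : ∀ t, kr e u c hc h0 (-D) (0, t) = gm e (v, t) := by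
      intro t
      change gm e (rr u c hc h0 0, t - -D) = _
      rw [rr_zero, hu, gm_phi_sub F]
    have hS : S2 (E := E) (kr e u c hc h0 (-D)) (0, 0) := s2_kr hc h0 F (-D) _
    have hsrc0 : kr e u c hc h0 (-D) (0, 0) ∈ (extChartAt 𝓘(ℝ, E) x₀).source := by
      rw [hz]; exact hx0
    have hcs : Sm C (0, 0) := hS.sm x₀ hsrc0
    have hin : Tendsto (fun θ : ℝ => ((θ, 0) : ℝ × ℝ)) (𝓝 0) (𝓝 (0, 0)) :=
      (continuous_id.prodMk continuous_const).tendsto 0
    have hj2 := jet_line (c := C) (y := yf e x₀ v (fun t => Jc e u c (t - -D))) (t := 0) hcs (by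
      filter_upwards [src_gm F x₀ hx0] with t ht
      have k1 := (s2_kr hc h0 F (-D) (0, t)).d1 x₀ (by rw [hz]; exact ht)
      rw [hC]
      refine k1.trans ?_
      exact crd_congr x₀ (hz t) (vl_kr hc h0 F (-D) t))
    have h1 := hasDerivAt_d1 (a := 0) (b := 0) (sm_d2 hcs).differentiableAt
    rw [hj2.2.1] at h1
    let w : UT E M := W.mk (E := E) (foot u) c (nm_eq_one hc)
    have hw : IsL e D u w := (isL_iff F hD hB hdiam (nm_eq_one hc)).1 hcL
    let p : Pr e D := ⟨(u, w), hw⟩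
    have h3 : ∀ θ, phi F (rr u c hc h0 θ, D) = rv (Th F hD hB hdiam p) θ := fun θ =>
      phi_rv F hD hB hdiam p θ
    have h2 := hasDerivAt_crd_circle (E := E) x₀ (foot v) (vec' v) (vec' (phi F (w, D)))
    have h4 : Tr F hD hB hdiam u c = vec' (phi F (w, D)) := hw.Tr_eq F hD hB hdiam
    rw [h4]
    refine (h1.congr_of_eventuallyEq ?_).unique h2
    filter_upwards [hin.eventually hS.eventually, hin.eventually (hS.src x₀ hsrc0)] with θ g2 g3
    have g4 := g2.d2 x₀ g3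
    rw [hC, g4]
    have e1 : kr e u c hc h0 (-D) (θ, 0) = foot v := by
      change foot (phi F (rr u c hc h0 θ, 0 - -D)) = foot v
      rw [sub_neg_eq_add, zero_add, h3]
      change foot (phi F (u, D)) = foot v
      rw [huv]
    have e2 : (vl (fun t => kr e u c hc h0 (-D) (θ, t)) 0 : E) =
        Real.cos θ • vec' v + Real.sin θ • vec' (phi F (w, D)) := by
      have k := vl_kr2 hc h0 F (-D) (θ, 0)
      refine k.trans ?_
      change vec' (phi F (rr u c hc h0 θ, 0 - -D)) = _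
      rw [sub_neg_eq_add, zero_add, h3]
      change Real.cos θ • vec' (phi F (u, D)) + Real.sin θ • vec' (phi F (w, D)) = _
      rw [huv]
    exact (crd_congr x₀ e1 e2).symm
  set ρ : ℝ := nm (foot u) c with hρ
  have hsm : ∀ c : E, Sm (yf e x₀ v (fun t => Jc e u c (t - -D))) 0 := by
    intro c
    have h1 := fa_Jc F v c (-D) 0
    rw [← hu] at h1
    exact sm_yf F h1 (src_zero F hx)
  have hlin : ∀ (k : ℝ) (c : E), deriv (yf e x₀ v (fun t => Jc e u (k • c) (t - -D))) 0 =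
      k • deriv (yf e x₀ v (fun t => Jc e u c (t - -D))) 0 := by
    intro k c
    have h1 : yf e x₀ v (fun t => Jc e u (k • c) (t - -D)) =
        fun t => k • yf e x₀ v (fun t => Jc e u c (t - -D)) t := by
      rw [← yf_smul]
      funext t
      exact crd_congr x₀ rfl (Jc_smul u k c _)
    rw [h1]
    exact deriv_fun_const_smul k (hsm c).differentiableAt
  have hlin' : ∀ (k : ℝ) (c : E), (crd x₀ (foot v) (Tr F hD hB hdiam u (k • c) : E) : E) =
      k • (crd x₀ (foot v) (Tr F hD hB hdiam u c : E) : E) := by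
    intro k c
    rw [Tr_smul]
    exact map_smul (crd x₀ (foot v)) _ _
  rcases eq_or_ne ρ 0 with h | h
  · have h1 : (c : E) = 0 := norm_eq_zero (E := TangentSpace 𝓘(ℝ, E) (foot u)) |>.1 h
    have h2 : c = (0 : ℝ) • c := by rw [zero_smul, h1]
    rw [h2, hlin, hlin', zero_smul, zero_smul]
  · have h2 : ip (foot u) (ρ⁻¹ • c) (ρ⁻¹ • c) = 1 := by
      rw [ip_smul_left', ip_smul_right', ip_self_nonneg, ← hρ]
      field_simp
    have h3 : ((ρ⁻¹ • c : E) : TangentSpace 𝓘(ℝ, E) (foot u)) ∈ Lf e D u :=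
      Submodule.smul_mem _ ρ⁻¹ hcL
    have h4 := key h3 h2
    have h5 : c = ρ • (ρ⁻¹ • c) := by rw [smul_smul, mul_inv_cancel₀ h, one_smul]
    rw [h5, hlin, hlin', h4]

/-- Jacobi fields with initial derivative in `L` vanish at time `D` -/
theorem Jc_D (F : Facts e) (hD : 0 < D) (hB : InjGE e D) (hdiam : ∀ p q : M, dist p q ≤ D)
    (u : UT E M) {c : E} (hcL : (c : TangentSpace 𝓘(ℝ, E) (foot u)) ∈ Lf e D u) :
    Jc e u c D = 0 := by
  have h1 := mem_Lf.1 hcL
  have h2 := H703.Pl_inf_le_Ker F hD hB hdiam (x := foot u) (y := bar e D u) (v := tv u)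
    (nm_vec' u) rfl h1.1 h1.2
  have h3 : dE e (foot u) (D • vec' u) c = 0 := h2
  rw [Jc_eq F, h3, smul_zero]

/-! ### the fields `Y_W` -/

/-- the Jacobi fields of `W` in the chart, along the geodesic of `v` -/
def jW (F : Facts e) (W : UT E M → E) (x₀ : M) (v : UT E M) (z : ℝ × ℝ) : E :=
  crd x₀ (gm e (v, z.2)) (JW e W (phi F (v, z.1)) (z.2 - z.1) : E)

theorem sm_jW (F : Facts e) {W : UT E M → E} (h : Fld W) (x₀ : M) (v : UT E M) (s : ℝ) {t : ℝ}
    (ht : gm e (v, t) ∈ (extChartAt 𝓘(ℝ, E) x₀).source) : Sm (jW F W x₀ v) (s, t) := by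
  have h1 : Sm (fun z : ℝ × ℝ => z.1) (s, t) := Sm.of_contDiff contDiff_fst _
  have h2 : Sm (fun z : ℝ × ℝ => z.2 - z.1) (s, t) :=
    Sm.of_contDiff (contDiff_snd.sub contDiff_fst) _
  have h3 : (dUT E M).At (fun z : ℝ × ℝ => phi F (v, z.1)) (s, t) :=
    map_phi F (u := fun z : ℝ × ℝ => (v, z.1)) ⟨H583.at_const v _, h1⟩
  have h4 := at_JW F h h3 h2
  have h5 : ∀ᶠ z in 𝓝 ((s, t) : ℝ × ℝ), gm e (v, z.2) ∈ (extChartAt 𝓘(ℝ, E) x₀).source := by
    have k0 : Sm (fun z : ℝ × ℝ => z.2) (s, t) := Sm.of_contDiff contDiff_snd _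
    have k1 : (dM E M).At (fun z : ℝ × ℝ => gm e (v, z.2)) (s, t) :=
      map_gm F (u := fun z : ℝ × ℝ => (v, z.2)) ⟨H583.at_const v _, k0⟩
    have k2 : S2 (E := E) (fun z : ℝ × ℝ => gm e (v, z.2)) (s, t) := k1
    exact k2.src x₀ ht
  have h6 : ∀ z : ℝ × ℝ, gm e (phi F (v, z.1), z.2 - z.1) = gm e (v, z.2) := fun z =>
    gm_phi_sub F v z.1 z.2
  filter_upwards [h4, h5] with z h7 h8
  have h9 : SmV (fun z : ℝ × ℝ => gm e (v, z.2))
      (fun z => (JW e W (phi F (v, z.1)) (z.2 - z.1) : E)) z := by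
    refine ContMDiffAt.congr_of_eventuallyEq h7 ?_
    exact Eventually.of_forall fun z' => tb_congr (h6 z').symm rfl
  exact ((smV_iff (f := fun z : ℝ × ℝ => gm e (v, z.2)) (s := z) x₀ h8).1 h9).2

/-- the field `Y_W` in the chart -/
theorem yf_YW (F : Facts e) {W : UT E M → E} (h : Fld W) (x₀ : M) (v : UT E M) {t : ℝ}
    (ht : gm e (v, t) ∈ (extChartAt 𝓘(ℝ, E) x₀).source) :
    yf e x₀ v (fun t => YW F D W (phi F (v, t))) t =
      ∫ r in (0 : ℝ)..D, jW F W x₀ v (t - r, t) := by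
  set x := gm e (v, t) with hx
  have hjj : ∀ r, jW F W x₀ v (t - r, t) =
      (crd x₀ x (JW e W (phi F (phi F (v, t), -r)) r : E) : E) := by
    intro r
    unfold jW
    refine crd_congr x₀ rfl ?_
    rw [phi_add F, sub_sub_cancel]
    rfl
  let Lc : E →L[ℝ] E := crd x₀ x
  have hint : IntervalIntegrable (fun r => JW e W (phi F (phi F (v, t), -r)) r)
      MeasureTheory.volume 0 D :=
    (continuous_integrand F h (phi F (v, t))).intervalIntegrable 0 D
  have h1 := Lc.intervalIntegral_comp_comm hint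
  have h2 : yf e x₀ v (fun t => YW F D W (phi F (v, t))) t =
      Lc (∫ r in (0 : ℝ)..D, JW e W (phi F (phi F (v, t), -r)) r) := rfl
  rw [h2, ← h1]
  refine intervalIntegral.integral_congr fun r _ => ?_
  exact (hjj r).symm

/-- the antisymmetrisation of a section of `L` along half a period -/
def dl (F : Facts e) (hD : 0 < D) (hB : InjGE e D) (hdiam : ∀ p q : M, dist p q ≤ D)
    (W : UT E M → E) (v : UT E M) : E :=
  W v - Tr F hD hB hdiam (phi F (v, -D)) (W (phi F (v, -D)))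

/-- the linearised geodesic operator of `Y_W` -/
theorem je_YW (F : Facts e) (hD : 0 < D) (hB : InjGE e D) (hdiam : ∀ p q : M, dist p q ≤ D)
    {W : UT E M → E} (h : LS e D W) (x₀ : M) (v : UT E M)
    (hx : foot v ∈ (extChartAt 𝓘(ℝ, E) x₀).source) :
    JE e x₀ v (fun t => YW F D W (phi F (v, t))) (dl F hD hB hdiam W v) := by
  intro b
  have hx0 : gm e (v, 0) ∈ (extChartAt 𝓘(ℝ, E) x₀).source := src_zero F hx
  have htar : WC.kap e x₀ v 0 ∈ (extChartAt 𝓘(ℝ, E) x₀).target :=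
    (extChartAt 𝓘(ℝ, E) x₀).map_source hx0
  have hzero : ∀ p : M, (crd x₀ p (0 : E) : E) = 0 := fun p => map_zero (crd x₀ p)
  have hmem : ∀ u : UT E M, (W u : TangentSpace 𝓘(ℝ, E) (foot u)) ∈ Lf e D u := fun u =>
    mem_Lf.2 ⟨h.mem u, h.orth u⟩
  have hjet : ∀ s, jW F W x₀ v (s, 0) = yf e x₀ v (fun t => Jc e (phi F (v, s))
      (W (phi F (v, s))) (t - s)) 0 ∧ d2 (jW F W x₀ v) (s, 0) =
      deriv (yf e x₀ v (fun t => Jc e (phi F (v, s)) (W (phi F (v, s))) (t - s))) 0 ∧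
      d2 (d2 (jW F W x₀ v)) (s, 0) = deriv (deriv (yf e x₀ v (fun t => Jc e (phi F (v, s))
        (W (phi F (v, s))) (t - s)))) 0 := fun s =>
    jet2 (c := jW F W x₀ v) (κ := yf e x₀ v (fun t => Jc e (phi F (v, s))
      (W (phi F (v, s))) (t - s))) (θ := s) (t := 0) (sm_jW F h.fld x₀ v s hx0)
      (Eventually.of_forall fun t => rfl)
  have h1 := superpose (A := cm x₀) (b := b) (D := D) (sm_cm x₀ htar) (isOpen_src F x₀ v) hx0
    (p := deriv (WC.kap e x₀ v) 0) (q := deriv (deriv (WC.kap e x₀ v)) 0)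
    (j := jW F W x₀ v) (fun s t ht => sm_jW F h.fld x₀ v s ht)
    (fun t ht => by
      have k : JW e W (phi F (v, t)) (t - t) = 0 := by
        rw [sub_self, JW_eq F, zero_smul]
      unfold jW
      exact (crd_congr x₀ rfl k).trans (hzero _))
    (fun t ht => by
      have k : JW e W (phi F (v, t - D)) (t - (t - D)) = 0 := by
        rw [sub_sub_cancel]
        exact Jc_D F hD hB hdiam _ (hmem _)
      unfold jW
      exact (crd_congr x₀ rfl k).trans (hzero _))
    (fun s => by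
      obtain ⟨e1, e2, e3⟩ := hjet s
      rw [e1, e2, e3]
      have k := je_Jc F hD hB x₀ v hx s (c := W (phi F (v, s))) (h.orth _) b
      refine k.trans ?_
      have k2 : (crd x₀ (foot v) (0 : E) : E) = 0 := map_zero (crd x₀ (foot v))
      rw [k2, map_zero]
      rfl)
    (y := yf e x₀ v (fun t => YW F D W (phi F (v, t)))) (fun t ht => yf_YW F h.fld x₀ v ht)
  rw [h1]
  have e0 : d2 (jW F W x₀ v) (0, 0) = (crd x₀ (foot v) (W v : E) : E) := by
    rw [(hjet 0).2.1, phi_zero]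
    have k := deriv_Jc_zero F x₀ v hx (W v)
    rw [← k]
    congr 2
    funext t
    rw [sub_zero]
  have e1 : d2 (jW F W x₀ v) (-D, 0) = (crd x₀ (foot v)
      (Tr F hD hB hdiam (phi F (v, -D)) (W (phi F (v, -D))) : E) : E) := by
    rw [(hjet (-D)).2.1]
    have huv : phi F (phi F (v, -D), D) = v := by rw [phi_add, neg_add_cancel, phi_zero]
    exact deriv_Jc_D F hD hB hdiam x₀ (phi F (v, -D)) v huv hx (hmem _)
  rw [e0, e1]
  have e2 : (crd x₀ (foot v) (dl F hD hB hdiam W v : E) : E) = (crd x₀ (foot v) (W v : E) : E) -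
      (crd x₀ (foot v) (Tr F hD hB hdiam (phi F (v, -D)) (W (phi F (v, -D))) : E) : E) :=
    map_sub (crd x₀ (foot v)) _ _
  rw [e2]

end

end Vale.Agent.P231.S2N
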