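import Vale.Agent.P231.S2N.Main

/-!
# P231, stages 2 and 3, S2-NEG: reversal of the time
-/

set_option maxSynthPendingDepth 3
set_option linter.unusedSectionVars false
set_option linter.unusedVariables false

open Bundle Manifold Set Filter Module MeasureTheory
open scoped ContDiff Manifold Topology ENNReal

namespace Vale.Agent.P231.S2N

noncomputable section

open Vale.Agent.P234 Vale.Agent.P231 Vale.Agent.P231.Fm Vale.Agent.P231.W Vale.Agent.P231.WR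
open Vale.Agent.P231.H775 Vale.Agent.P231.WC Vale.Agent.P231.WF

variable {E : Type*} [NormedAddCommGroup E] [NormedSpace ℝ E]
  {M : Type*} [MetricSpace M] [ChartedSpace E M]
  [RiemannianBundle (fun x : M => TangentSpace 𝓘(ℝ, E) x)]
  {e : ∀ x : M, TangentSpace 𝓘(ℝ, E) x → M}
  [FiniteDimensional ℝ E] [IsManifold 𝓘(ℝ, E) ∞ M]
  [IsContMDiffRiemannianBundle 𝓘(ℝ, E) ∞ E (fun x : M => TangentSpace 𝓘(ℝ, E) x)]
  [CompactSpace M] [ConnectedSpace M] [IsRiemannianManifold 𝓘(ℝ, E) M]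

variable {D : ℝ} {ι : Type} [Fintype ι] [DecidableEq ι]

/-- the permutation of the coordinates -/
def Sp (σ : ι ≃ ι) : EuclideanSpace ℝ ι ≃ₗᵢ[ℝ] EuclideanSpace ℝ ι :=
  LinearIsometryEquiv.piLpCongrLeft 2 ℝ ℝ σ

theorem Sp_apply (σ : ι ≃ ι) (x : EuclideanSpace ℝ ι) (i : ι) : Sp σ x i = x (σ.symm i) := rfl

variable {F : Facts e} {hD : 0 < D} {hB : InjGE e D} {hdiam : ∀ p q : M, dist p q ≤ D}
  {l : ℕ} {X δ : ι → UT E M → E} {ε : ℝ} {σ : ι ≃ ι}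

theorem XX_Sp (hX : ∀ i v, X (σ i) v = X i (ng v)) (x : EuclideanSpace ℝ ι) (v : UT E M) :
    XX X (Sp σ x) v = XX X x (ng v) := by
  unfold XX
  rw [← Equiv.sum_comp σ]
  refine Finset.sum_congr rfl fun i _ => ?_
  rw [Sp_apply, Equiv.symm_apply_apply, hX]

theorem XX_Sp' (hX : ∀ i v, X (σ i) v = X i (ng v)) (x : EuclideanSpace ℝ ι) (v : UT E M) :
    XX X (Sp σ x) (ng v) = XX X x v := by rw [XX_Sp hX, ng_ng]

/-- the index form as a bilinear form -/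
theorem inner_Qm' (F : Facts e) (hX : ∀ i, Fld (X i)) (hδ : ∀ i, Fld (δ i)) (v : UT E M)
    (x y : EuclideanSpace ℝ ι) : inner ℝ (Qm F D X δ v x) y =
      -(1 / 2 : ℝ) * (nI F D (XX δ y) (XX X x) v + nI F D (XX δ x) (XX X y) v) := by
  rw [inner_Qm]
  have h1 : nI F D (XX δ y) (XX X x) v = ∑ i, ∑ j, y i * x j * nI F D (δ i) (X j) v :=
    nI_lin F (fun i => y i) (fun j => x j) hδ hX v
  have h2 : nI F D (XX δ x) (XX X y) v = ∑ i, ∑ j, x i * y j * nI F D (δ i) (X j) v :=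
    nI_lin F (fun i => x i) (fun j => y j) hδ hX v
  have h3 : ∑ i, ∑ j, x i * y j * nI F D (δ i) (X j) v =
      ∑ i, ∑ j, y i * x j * nI F D (δ j) (X i) v := by
    rw [Finset.sum_comm]
    refine Finset.sum_congr rfl fun i _ => Finset.sum_congr rfl fun j _ => ?_
    ring
  rw [h1, h2, h3, ← Finset.sum_add_distrib, Finset.mul_sum]
  refine Finset.sum_congr rfl fun i _ => ?_
  rw [← Finset.sum_add_distrib, Finset.mul_sum]
  refine Finset.sum_congr rfl fun j _ => ?_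
  unfold qc
  ring

theorem nI_Sp (hD : 0 < D) (hB : InjGE e D) (hdiam : ∀ p q : M, dist p q ≤ D)
    (hX : ∀ i v, X (σ i) v = X i (ng v)) (hδ : ∀ i v, δ (σ i) v = δ i (ng v))
    (x y : EuclideanSpace ℝ ι) (v : UT E M) :
    nI F D (XX δ (Sp σ x)) (XX X (Sp σ y)) (ng v) = nI F D (XX δ x) (XX X y) v := by
  have h1 : XX δ (Sp σ x) = fun v => XX δ x (ng v) := funext (XX_Sp hδ x)
  have h2 : XX X (Sp σ y) = fun v => XX X y (ng v) := funext (XX_Sp hX y)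
  rw [h1, h2, nI_ng F hD hB hdiam, ng_ng]

/-- the index form at the reversed vector -/
theorem Qm_Sp (h : Fam F hD hB hdiam l X δ ε) (hX : ∀ i v, X (σ i) v = X i (ng v))
    (hδ : ∀ i v, δ (σ i) v = δ i (ng v)) (v : UT E M) (x : EuclideanSpace ℝ ι) :
    Qm F D X δ (ng v) (Sp σ x) = Sp σ (Qm F D X δ v x) := by
  refine ext_inner_right ℝ fun y => ?_
  obtain ⟨z, rfl⟩ := (Sp σ).surjective y
  rw [(Sp σ).inner_map_map, inner_Qm' F (fun i => (h.df i).fld) (fun i => (h.df i).sfld),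
    inner_Qm' F (fun i => (h.df i).fld) (fun i => (h.df i).sfld), nI_Sp hD hB hdiam hX hδ,
    nI_Sp hD hB hdiam hX hδ]

/-- the negative space at the reversed vector -/
theorem Pm_Sp (h : Fam F hD hB hdiam l X δ ε) (hX : ∀ i v, X (σ i) v = X i (ng v))
    (hδ : ∀ i v, δ (σ i) v = δ i (ng v)) (v : UT E M) (x : EuclideanSpace ℝ ι) :
    Pm F D X δ ε (ng v) (Sp σ x) = Sp σ (Pm F D X δ ε v x) := by
  obtain ⟨N, -, hg⟩ := h.gap v
  obtain ⟨N', -, hg'⟩ := h.gap (ng v)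
  obtain ⟨b, k, hb, hk, -⟩ := hg.exists_basis
  let L1 : EuclideanSpace ℝ ι →ₗ[ℝ] EuclideanSpace ℝ ι :=
    ((Pm F D X δ ε (ng v) : EuclideanSpace ℝ ι →L[ℝ] EuclideanSpace ℝ ι) :
      EuclideanSpace ℝ ι →ₗ[ℝ] EuclideanSpace ℝ ι).comp (Sp σ).toLinearEquiv.toLinearMap
  let L2 : EuclideanSpace ℝ ι →ₗ[ℝ] EuclideanSpace ℝ ι :=
    (Sp σ).toLinearEquiv.toLinearMap.comp
      ((Pm F D X δ ε v : EuclideanSpace ℝ ι →L[ℝ] EuclideanSpace ℝ ι) :
        EuclideanSpace ℝ ι →ₗ[ℝ] EuclideanSpace ℝ ι)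
  have h12 : L1 = L2 := by
    refine b.toBasis.ext fun i => ?_
    rw [b.coe_toBasis]
    change Pm F D X δ ε (ng v) (Sp σ (b i)) = Sp σ (Pm F D X δ ε v (b i))
    have e1 : Pm F D X δ ε v (b i) = if k i < 0 then b i else 0 :=
      hg.pm_basis (hb i) (hk i) hg.mem_Dm
    have e2 : Pm F D X δ ε (ng v) (Sp σ (b i)) = if k i < 0 then Sp σ (b i) else 0 :=
      hg'.pm_basis (by rw [Qm_Sp h hX hδ, hb i, map_smul]) (hk i) hg'.mem_Dm
    rw [e1, e2]
    split_ifs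
    · rfl
    · rw [map_zero]
  exact congrArg (fun L : EuclideanSpace ℝ ι →ₗ[ℝ] EuclideanSpace ℝ ι => L x) h12

theorem prL_ng (F : Facts e) (hD : 0 < D) (hB : InjGE e D) (hdiam : ∀ p q : M, dist p q ≤ D)
    (hP : ∀ x y : M, dist x y = D → finrank ℝ (H775.Pl e D x y) = l + 1) (v : UT E M)
    (a : E) : prL e D (ng v) a = prL e D v a := by
  obtain ⟨W, hW⟩ := exists_isLF F hD hB hdiam hP v
  have hW' : IsLF e D (ng v) W :=
    ⟨fun i => isL_ng F hD hB hdiam (hW.isL i), fun i j hij => hW.orth i j hij⟩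
  rw [hW'.prL_eq F hD hB hdiam hP a, hW.prL_eq F hD hB hdiam hP a]
  rfl

/-- the boundary operator at the reversed vector -/
theorem Th0_Sp (hP : ∀ x y : M, dist x y = D → finrank ℝ (H775.Pl e D x y) = l + 1)
    (hX : ∀ i v, X (σ i) v = X i (ng v)) (x : EuclideanSpace ℝ ι) (v : UT E M) :
    Th0 F hD hB hdiam (XX X (Sp σ x)) (ng v) = Th0 F hD hB hdiam (XX X x) v := by
  unfold Th0
  have h1 : phi F (ng v, D) = ng (phi F (v, D)) := by
    rw [phi_ng, phi_neg_D F hD hB hdiam]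
  rw [h1, XX_Sp' hX, XX_Sp' hX, prL_ng F hD hB hdiam hP, Tr_ng F hD hB hdiam hP]

namespace Fam

theorem am_ng (hP : ∀ x y : M, dist x y = D → finrank ℝ (H775.Pl e D x y) = l + 1)
    (h : Fam F hD hB hdiam l X δ ε) (hX : ∀ i v, X (σ i) v = X i (ng v))
    (hδ : ∀ i v, δ (σ i) v = δ i (ng v)) (v : UT E M) {w : E}
    (hw : (w : TangentSpace 𝓘(ℝ, E) (foot v)) ∈ Lf e D v) :
    am F hD hB hdiam X δ ε (ng v) w = Sp σ (am F hD hB hdiam X δ ε v w) :=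
  h.am_unique hP (ng v) (by rw [Pm_Sp h hX hδ, h.Pm_am hP v hw])
    (by rw [Th0_Sp hP hX, h.Th0_am hP v hw])

/-- **the transport along the reversed geodesic** -/
theorem At_ng (hP : ∀ x y : M, dist x y = D → finrank ℝ (H775.Pl e D x y) = l + 1)
    (h : Fam F hD hB hdiam l X δ ε) (hX : ∀ i v, X (σ i) v = X i (ng v))
    (hδ : ∀ i v, δ (σ i) v = δ i (ng v)) (v : UT E M) (t : ℝ) {w : E}
    (hw : (w : TangentSpace 𝓘(ℝ, E) (foot v)) ∈ Lf e D v) :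
    At F hD hB hdiam X δ ε (ng v) t w = At F hD hB hdiam X δ ε v (-t) w := by
  unfold At
  rw [h.am_ng hP hX hδ v hw, phi_ng, Th0_Sp hP hX]

end Fam

/-- the reversed pair -/
def rev (F : Facts e) (hD : 0 < D) (hB : InjGE e D) (hdiam : ∀ p q : M, dist p q ≤ D)
    (b : Pr e D) : Pr e D := ⟨(ng b.v, b.w), isL_ng F hD hB hdiam b.isL⟩

@[simp] theorem rev_v (F : Facts e) (hD : 0 < D) (hB : InjGE e D)
    (hdiam : ∀ p q : M, dist p q ≤ D) (b : Pr e D) : (rev F hD hB hdiam b).v = ng b.v := rfl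

@[simp] theorem rev_w (F : Facts e) (hD : 0 < D) (hB : InjGE e D)
    (hdiam : ∀ p q : M, dist p q ≤ D) (b : Pr e D) : (rev F hD hB hdiam b).w = b.w := rfl

theorem rev_rev (F : Facts e) (hD : 0 < D) (hB : InjGE e D)
    (hdiam : ∀ p q : M, dist p q ≤ D) (b : Pr e D) :
    rev F hD hB hdiam (rev F hD hB hdiam b) = b := Pr.ext' (ng_ng b.v) rfl

theorem map_rev (F : Facts e) (hD : 0 < D) (hB : InjGE e D)
    (hdiam : ∀ p q : M, dist p q ≤ D) : (dPr e D).Map (dPr e D) (rev F hD hB hdiam) :=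
  fun {E'} _ _ _ {u x} hu => ⟨map_ng hu.1, hu.2⟩

variable (hP : ∀ x y : M, dist x y = D → finrank ℝ (H775.Pl e D x y) = l + 1)
  (h : Fam F hD hB hdiam l X δ ε)

/-- **the lifted flow is reversible** -/
theorem Lam_rev (hX : ∀ i v, X (σ i) v = X i (ng v)) (hδ : ∀ i v, δ (σ i) v = δ i (ng v))
    (b : Pr e D) (t : ℝ) :
    Lam hP h (rev F hD hB hdiam b, t) = rev F hD hB hdiam (Lam hP h (b, -t)) := by
  refine Pr.ext' (phi_ng F b.v t) ?_
  refine mk_congr (gm_ng b.v t) ?_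
  change nrm (gm e (ng b.v, t)) (At F hD hB hdiam X δ ε (ng b.v) t (vec' b.w)) =
    nrm (gm e (b.v, -t)) (At F hD hB hdiam X δ ε b.v (-t) (vec' b.w))
  rw [h.At_ng hP hX hδ b.v t b.isL.mem_Lf, gm_ng]

include hP h in
/-- the push-off field is invariant under the reversal -/
theorem Yb_rev (hX : ∀ i v, X (σ i) v = X i (ng v)) (hδ : ∀ i v, δ (σ i) v = δ i (ng v))
    (b : Pr e D) :
    Yb F hD hB hdiam X δ ε (rev F hD hB hdiam b) = Yb F hD hB hdiam X δ ε b := by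
  have h1 : ab F hD hB hdiam X δ ε (rev F hD hB hdiam b) =
      Sp σ (ab F hD hB hdiam X δ ε b) := h.am_ng hP hX hδ b.v b.isL.mem_Lf
  unfold Yb ah
  rw [h1, (Sp σ).norm_map, rev_v, ← map_smul, XX_Sp' hX]

/-- **S2-NEG with reversal** -/
theorem exists_lift_rev (F : Facts e) (hD : 0 < D) (hB : InjGE e D)
    (hdiam : ∀ p q : M, dist p q ≤ D) {l : ℕ}
    (hP : ∀ x y : M, dist x y = D → finrank ℝ (H775.Pl e D x y) = l + 1) :
    ∃ (Lm : Pr e D × ℝ → Pr e D) (Y : Pr e D → E) (ε₀ : ℝ),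
      H766.PushL F hD hB hdiam Lm Y ε₀ ∧ (∀ b, ip (foot b.v) (vec' b.v) (Y b) = 0) ∧
      (∀ b t, Lm (rev F hD hB hdiam b, t) = rev F hD hB hdiam (Lm (b, -t))) ∧
      ∀ b, Y (rev F hD hB hdiam b) = Y b := by
  obtain ⟨ι, _, _, X, δ, ε, σ, hfam, -, hX, hδ⟩ := exists_fam F hD hB hdiam hP
  obtain ⟨ε₀, h1⟩ := exists_pushL_of_fam hP hfam
  exact ⟨_, _, ε₀, h1, Yb_perp hP hfam, Lam_rev hP hfam hX hδ, Yb_rev hP hfam hX hδ⟩

end

end Vale.Agent.P231.S2N
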