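import Vale.Agent.P231.S2N.Cover

/-!
# P231, stage 2, S2-NEG: the negative spaces of the index form and the transport of `L` along the
geodesic flow
-/

set_option maxSynthPendingDepth 3
set_option linter.unusedSectionVars false
set_option linter.unusedVariables false

open Bundle Manifold Set Filter Module MeasureTheory
open scoped ContDiff Manifold Topology ENNReal

namespace Vale.Agent.P231.S2N

noncomputable section

open Vale.Agent.P234 Vale.Agent.P231 Vale.Agent.P231.Fm Vale.Agent.P231.W Vale.Agent.P231.WR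
open Vale.Agent.P231.H775 Vale.Agent.P231.WC Vale.Agent.P231.WF

variable {E : Type*} [NormedAddCommGroup E] [NormedSpace ℝ E]
  {M : Type*} [MetricSpace M] [ChartedSpace E M]
  [RiemannianBundle (fun x : M => TangentSpace 𝓘(ℝ, E) x)]
  {e : ∀ x : M, TangentSpace 𝓘(ℝ, E) x → M}
  [FiniteDimensional ℝ E] [IsManifold 𝓘(ℝ, E) ∞ M]
  [IsContMDiffRiemannianBundle 𝓘(ℝ, E) ∞ E (fun x : M => TangentSpace 𝓘(ℝ, E) x)]
  [CompactSpace M] [ConnectedSpace M] [IsRiemannianManifold 𝓘(ℝ, E) M]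

variable {D : ℝ} {ι : Type} [Fintype ι] [DecidableEq ι]

section Plots

variable {E' : Type} [NormedAddCommGroup E'] [NormedSpace ℝ E'] [FiniteDimensional ℝ E']

theorem at_sum' {κ : Type*} (s : Finset κ) {f : E' → M} {a : κ → E' → E} {x : E'}
    (h0 : (dTM E M).At (fun s => tb (f s) (0 : E)) x)
    (h : ∀ i, (dTM E M).At (fun s => tb (f s) (a i s)) x) :
    (dTM E M).At (fun z => tb (f z) (∑ i ∈ s, a i z)) x := by
  classical
  induction s using Finset.induction_on with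
  | empty => simpa using h0
  | insert i s hi ih =>
    simp only [Finset.sum_insert hi]
    exact at_add (h i) ih

theorem sm_finsum {G : Type*} [NormedAddCommGroup G] [NormedSpace ℝ G] {κ : Type*} (s : Finset κ)
    {a : κ → E' → G} {x : E'} (h : ∀ i, Sm (a i) x) : Sm (fun z => ∑ i ∈ s, a i z) x := by
  classical
  induction s using Finset.induction_on with
  | empty => simpa using Sm.of_contDiff contDiff_const x
  | insert i s hi ih =>
    simp only [Finset.sum_insert hi]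
    filter_upwards [h i, ih] with z h1 h2 using h1.add h2

theorem sm_smul' {G : Type*} [NormedAddCommGroup G] [NormedSpace ℝ G] {c : E' → ℝ} {a : E' → G}
    {x : E'} (hc : Sm c x) (ha : Sm a x) : Sm (fun z => c z • a z) x := by
  filter_upwards [hc, ha] with z h1 h2 using h1.smul h2

theorem sm_coord {x : E' → EuclideanSpace ℝ ι} {z : E'} (h : Sm x z) (i : ι) :
    Sm (fun s => x s i) z :=
  Sm.comp (f := fun y : EuclideanSpace ℝ ι => y i) (g := x)
    (Sm.of_contDiff (EuclideanSpace.proj i : EuclideanSpace ℝ ι →L[ℝ] ℝ).contDiff _) h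

theorem at_zero {u : E' → UT E M} {x : E'} (hu : (dUT E M).At u x) :
    (dTM E M).At (fun s => tb (foot (u s)) (0 : E)) x := Fld.zero.map hu

/-- smoothness of the combinations with variable coefficients -/
theorem at_XX {X : ι → UT E M → E} (hX : ∀ i, Fld (X i)) {u : E' → UT E M} {x : E'}
    (hu : (dUT E M).At u x) {c : E' → EuclideanSpace ℝ ι} (hc : Sm c x) :
    (dTM E M).At (fun s => tb (foot (u s)) (XX X (c s) (u s))) x :=
  at_sum' Finset.univ (f := fun s => foot (u s)) (a := fun i s => c s i • X i (u s)) (at_zero hu)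
    fun i => at_smul (f := fun s => foot (u s)) (sm_coord hc i) ((hX i).map hu)

end Plots

/-! ### linear algebra -/

theorem Th0_XX (F : Facts e) (hD : 0 < D) (hB : InjGE e D) (hdiam : ∀ p q : M, dist p q ≤ D)
    (X : ι → UT E M → E) (x : EuclideanSpace ℝ ι) (v : UT E M) :
    Th0 F hD hB hdiam (XX X x) v = ∑ i, x i • Th0 F hD hB hdiam (X i) v := by
  unfold Th0 XX
  have h1 : prL e D v (∑ i, x i • X i v) = ∑ i, x i • prL e D v (X i v) := by
    let L : E →ₗ[ℝ] E :=
      { toFun := prL e D v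
        map_add' := prL_add D v
        map_smul' := prL_smul D v }
    have h := map_sum L (fun i => x i • X i v) Finset.univ
    refine h.trans (Finset.sum_congr rfl fun i _ => ?_)
    exact prL_smul D v (x i) (X i v)
  rw [h1, ← TrL_apply, map_sum]
  simp only [map_smul, TrL_apply, smul_sub, Finset.sum_sub_distrib]

/-- the Gram operator of the boundary operator -/
def Tm (F : Facts e) (hD : 0 < D) (hB : InjGE e D) (hdiam : ∀ p q : M, dist p q ≤ D)
    (X : ι → UT E M → E) (v : UT E M) : EuclideanSpace ℝ ι →L[ℝ] EuclideanSpace ℝ ι :=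
  ∑ i, ∑ j, ip (foot v) (Th0 F hD hB hdiam (X i) v) (Th0 F hD hB hdiam (X j) v) • Em i j

/-- the adjoint of the boundary operator -/
def bm (F : Facts e) (hD : 0 < D) (hB : InjGE e D) (hdiam : ∀ p q : M, dist p q ≤ D)
    (X : ι → UT E M → E) (v : UT E M) (w : E) : EuclideanSpace ℝ ι :=
  ∑ i, ip (foot v) w (Th0 F hD hB hdiam (X i) v) • EuclideanSpace.single i (1 : ℝ)

theorem inner_bm (F : Facts e) (hD : 0 < D) (hB : InjGE e D) (hdiam : ∀ p q : M, dist p q ≤ D)
    (X : ι → UT E M → E) (v : UT E M) (w : E) (y : EuclideanSpace ℝ ι) :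
    inner ℝ (bm F hD hB hdiam X v w) y = ip (foot v) w (Th0 F hD hB hdiam (XX X y) v) := by
  rw [Th0_XX, ip_sum_right]
  unfold bm
  rw [sum_inner]
  refine Finset.sum_congr rfl fun i _ => ?_
  rw [inner_smul_left, EuclideanSpace.inner_single_left, ip_smul_right']
  simp only [conj_trivial, map_one, one_mul]
  ring

theorem inner_Tm (F : Facts e) (hD : 0 < D) (hB : InjGE e D) (hdiam : ∀ p q : M, dist p q ≤ D)
    (X : ι → UT E M → E) (v : UT E M) (x y : EuclideanSpace ℝ ι) :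
    inner ℝ (Tm F hD hB hdiam X v x) y =
      ip (foot v) (Th0 F hD hB hdiam (XX X x) v) (Th0 F hD hB hdiam (XX X y) v) := by
  rw [Th0_XX, Th0_XX, ip_sum_left]
  unfold Tm
  simp only [sum_apply, smul_apply, sum_inner, inner_smul_left, inner_Em, conj_trivial]
  rw [Finset.sum_comm]
  refine Finset.sum_congr rfl fun i _ => ?_
  rw [ip_sum_right]
  refine Finset.sum_congr rfl fun j _ => ?_
  rw [ip_smul_left', ip_smul_right', ip_comm']
  ring

theorem Tm_eq_bm (F : Facts e) (hD : 0 < D) (hB : InjGE e D) (hdiam : ∀ p q : M, dist p q ≤ D)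
    (X : ι → UT E M → E) (v : UT E M) (x : EuclideanSpace ℝ ι) :
    Tm F hD hB hdiam X v x = bm F hD hB hdiam X v (Th0 F hD hB hdiam (XX X x) v) := by
  refine ext_inner_right ℝ fun y => ?_
  rw [inner_Tm, inner_bm]

/-- the projection to the negative space -/
def Pm (F : Facts e) (D : ℝ) (X δ : ι → UT E M → E) (ε : ℝ) (v : UT E M) :
    EuclideanSpace ℝ ι →L[ℝ] EuclideanSpace ℝ ι := pm ε (Qm F D X δ v)

def Gm (F : Facts e) (hD : 0 < D) (hB : InjGE e D) (hdiam : ∀ p q : M, dist p q ≤ D)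
    (X δ : ι → UT E M → E) (ε : ℝ) (v : UT E M) :
    EuclideanSpace ℝ ι →L[ℝ] EuclideanSpace ℝ ι :=
  Pm F D X δ ε v * Tm F hD hB hdiam X v * Pm F D X δ ε v + (1 - Pm F D X δ ε v)

/-- the coefficient vector of the negative field with given boundary value -/
def am (F : Facts e) (hD : 0 < D) (hB : InjGE e D) (hdiam : ∀ p q : M, dist p q ≤ D)
    (X δ : ι → UT E M → E) (ε : ℝ) (v : UT E M) (w : E) : EuclideanSpace ℝ ι :=
  Ring.inverse (Gm F hD hB hdiam X δ ε v) (Pm F D X δ ε v (bm F hD hB hdiam X v w))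

theorem bm_smul (F : Facts e) (hD : 0 < D) (hB : InjGE e D) (hdiam : ∀ p q : M, dist p q ≤ D)
    (X : ι → UT E M → E) (v : UT E M) (c : ℝ) (w : E) :
    bm F hD hB hdiam X v (c • w) = c • bm F hD hB hdiam X v w := by
  unfold bm
  rw [Finset.smul_sum]
  refine Finset.sum_congr rfl fun i _ => ?_
  rw [ip_smul_left', smul_smul]

theorem bm_add (F : Facts e) (hD : 0 < D) (hB : InjGE e D) (hdiam : ∀ p q : M, dist p q ≤ D)
    (X : ι → UT E M → E) (v : UT E M) (w w' : E) :
    bm F hD hB hdiam X v (w + w') = bm F hD hB hdiam X v w + bm F hD hB hdiam X v w' := by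
  unfold bm
  rw [← Finset.sum_add_distrib]
  refine Finset.sum_congr rfl fun i _ => ?_
  rw [ip_add_left', add_smul]

theorem am_smul (F : Facts e) (hD : 0 < D) (hB : InjGE e D) (hdiam : ∀ p q : M, dist p q ≤ D)
    (X δ : ι → UT E M → E) (ε : ℝ) (v : UT E M) (c : ℝ) (w : E) :
    am F hD hB hdiam X δ ε v (c • w) = c • am F hD hB hdiam X δ ε v w := by
  unfold am
  rw [bm_smul, map_smul, map_smul]

theorem am_add (F : Facts e) (hD : 0 < D) (hB : InjGE e D) (hdiam : ∀ p q : M, dist p q ≤ D)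
    (X δ : ι → UT E M → E) (ε : ℝ) (v : UT E M) (w w' : E) :
    am F hD hB hdiam X δ ε v (w + w') =
      am F hD hB hdiam X δ ε v w + am F hD hB hdiam X δ ε v w' := by
  unfold am
  rw [bm_add, map_add, map_add]

variable {F : Facts e} {hD : 0 < D} {hB : InjGE e D} {hdiam : ∀ p q : M, dist p q ≤ D}
  {l : ℕ} {X δ : ι → UT E M → E} {ε : ℝ}

namespace Fam

theorem Pm_Pm (h : Fam F hD hB hdiam l X δ ε) (v : UT E M) (x : EuclideanSpace ℝ ι) :
    Pm F D X δ ε v (Pm F D X δ ε v x) = Pm F D X δ ε v x := by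
  obtain ⟨N, -, hg⟩ := h.gap v
  exact hg.pm_pm x

theorem Pm_symm (h : Fam F hD hB hdiam l X δ ε) (v : UT E M) (x y : EuclideanSpace ℝ ι) :
    inner ℝ (Pm F D X δ ε v x) y = (inner ℝ x (Pm F D X δ ε v y) : ℝ) := by
  obtain ⟨N, -, hg⟩ := h.gap v
  exact hg.pm_symm x y

theorem eps_pos (h : Fam F hD hB hdiam l X δ ε) (v : UT E M) : 0 < ε := by
  obtain ⟨N, -, hg⟩ := h.gap v
  exact hg.pos

/-- the index form is negative on the negative space -/
theorem neg (h : Fam F hD hB hdiam l X δ ε) (v : UT E M) {x : EuclideanSpace ℝ ι}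
    (hx : Pm F D X δ ε v x = x) : inner ℝ (Qm F D X δ v x) x ≤ -2 * ε * ‖x‖ ^ 2 := by
  obtain ⟨N, -, hg⟩ := h.gap v
  exact hg.inner_neg_of_pm hx

theorem finrank_range (h : Fam F hD hB hdiam l X δ ε) (v : UT E M) :
    finrank ℝ (LinearMap.range ((Pm F D X δ ε v : EuclideanSpace ℝ ι →L[ℝ]
      EuclideanSpace ℝ ι) : EuclideanSpace ℝ ι →ₗ[ℝ] EuclideanSpace ℝ ι)) = l := by
  obtain ⟨N, hN, hg⟩ := h.gap v
  rw [← hN]
  exact hg.finrank_range

/-- the boundary operator is injective on the negative space -/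
theorem inj (hP : ∀ x y : M, dist x y = D → finrank ℝ (H775.Pl e D x y) = l + 1)
    (h : Fam F hD hB hdiam l X δ ε) (v : UT E M) {x : EuclideanSpace ℝ ι}
    (hx : Pm F D X δ ε v x = x) (h0 : Th0 F hD hB hdiam (XX X x) v = 0) : x = 0 := by
  have h1 := h.neg v hx
  have h2 := Qm_nonneg hP h.df v h0
  have h3 := h.eps_pos v
  have h4 : ‖x‖ ^ 2 ≤ 0 := by nlinarith only [h1, h2, h3, sq_nonneg ‖x‖]
  have h5 : ‖x‖ = 0 := by nlinarith only [h4, norm_nonneg x, sq_nonneg ‖x‖]
  exact norm_eq_zero.1 h5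

/-- the boundary operator is onto on the negative space -/
theorem surj (hP : ∀ x y : M, dist x y = D → finrank ℝ (H775.Pl e D x y) = l + 1)
    (h : Fam F hD hB hdiam l X δ ε) (v : UT E M) {w : E}
    (hw : (w : TangentSpace 𝓘(ℝ, E) (foot v)) ∈ Lf e D v) :
    ∃ x, Pm F D X δ ε v x = x ∧ Th0 F hD hB hdiam (XX X x) v = w := by
  set R := LinearMap.range ((Pm F D X δ ε v : EuclideanSpace ℝ ι →L[ℝ]
      EuclideanSpace ℝ ι) : EuclideanSpace ℝ ι →ₗ[ℝ] EuclideanSpace ℝ ι) with hR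
  let L : R →ₗ[ℝ] Lf e D v := (ThL F hD hB hdiam X v).comp R.subtype
  have hmem : ∀ x ∈ R, Pm F D X δ ε v x = x := by
    rintro _ ⟨y, rfl⟩
    exact h.Pm_Pm v y
  have hinj : Function.Injective L := by
    rw [← LinearMap.ker_eq_bot, LinearMap.ker_eq_bot']
    rintro ⟨x, hx⟩ h0
    have h1 : ThL F hD hB hdiam X v x = 0 := h0
    have h2 : Th0 F hD hB hdiam (XX X x) v = 0 := by
      rw [← ThL_apply, h1]
      rfl
    exact Subtype.ext (h.inj hP v (hmem x hx) h2)
  have hfd : FiniteDimensional ℝ (Lf e D v) := by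
    have h4 : FiniteDimensional ℝ (TangentSpace 𝓘(ℝ, E) (foot v)) :=
      inferInstanceAs (FiniteDimensional ℝ E)
    infer_instance
  have hfr : finrank ℝ R = finrank ℝ (Lf e D v) := by
    rw [finrank_Lf F hD hB hP v]
    exact h.finrank_range v
  have hsur := (LinearMap.injective_iff_surjective_of_finrank_eq_finrank hfr).1 hinj
  obtain ⟨⟨x, hx⟩, h1⟩ := hsur ⟨w, hw⟩
  refine ⟨x, hmem x hx, ?_⟩
  have h2 : ThL F hD hB hdiam X v x = ⟨w, hw⟩ := h1
  rw [← ThL_apply, h2]

theorem isUnit_Gm (hP : ∀ x y : M, dist x y = D → finrank ℝ (H775.Pl e D x y) = l + 1)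
    (h : Fam F hD hB hdiam l X δ ε) (v : UT E M) : IsUnit (Gm F hD hB hdiam X δ ε v) := by
  set P := Pm F D X δ ε v with hPdef
  set T := Tm F hD hB hdiam X v with hT
  have hinj : Function.Injective (Gm F hD hB hdiam X δ ε v) := by
    rw [injective_iff_map_eq_zero]
    intro x hx
    have h1 : P (T (P x)) + (x - P x) = 0 := hx
    have h2 : P (T (P x)) = 0 := by
      have k := congrArg P h1
      rw [map_add, map_sub, h.Pm_Pm v, h.Pm_Pm v, sub_self, add_zero, map_zero] at k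
      exact k
    have h3 : P x = x := by
      rw [h2, zero_add, sub_eq_zero] at h1
      exact h1.symm
    refine h.inj hP v h3 ?_
    have h4 : inner ℝ (T x) x = (0 : ℝ) := by
      have k : inner ℝ (P (T (P x))) x = (0 : ℝ) := by rw [h2, inner_zero_left]
      rw [h.Pm_symm v, ← hPdef, h3] at k
      exact k
    rw [hT, inner_Tm] at h4
    exact (inner_self_eq_zero (𝕜 := ℝ) (E := TangentSpace 𝓘(ℝ, E) (foot v))).1 h4
  have hbij : Function.Bijective (Gm F hD hB hdiam X δ ε v) :=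
    ⟨hinj, (LinearMap.injective_iff_surjective (f := ((Gm F hD hB hdiam X δ ε v :
      EuclideanSpace ℝ ι →L[ℝ] EuclideanSpace ℝ ι) :
        EuclideanSpace ℝ ι →ₗ[ℝ] EuclideanSpace ℝ ι))).1 hinj⟩
  let ℓ : EuclideanSpace ℝ ι ≃ₗ[ℝ] EuclideanSpace ℝ ι := LinearEquiv.ofBijective
    ((Gm F hD hB hdiam X δ ε v : EuclideanSpace ℝ ι →L[ℝ] EuclideanSpace ℝ ι) :
        EuclideanSpace ℝ ι →ₗ[ℝ] EuclideanSpace ℝ ι) hbij
  let ψ : EuclideanSpace ℝ ι ≃L[ℝ] EuclideanSpace ℝ ι := ℓ.toContinuousLinearEquiv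
  refine ⟨⟨Gm F hD hB hdiam X δ ε v, (ψ.symm : EuclideanSpace ℝ ι →L[ℝ] EuclideanSpace ℝ ι),
    ?_, ?_⟩, rfl⟩
  · ext1 x
    exact ψ.apply_symm_apply x
  · ext1 x
    exact ψ.symm_apply_apply x

/-- uniqueness of the coefficient vector -/
theorem am_unique (hP : ∀ x y : M, dist x y = D → finrank ℝ (H775.Pl e D x y) = l + 1)
    (h : Fam F hD hB hdiam l X δ ε) (v : UT E M) {x : EuclideanSpace ℝ ι} {w : E}
    (hx : Pm F D X δ ε v x = x) (hw : Th0 F hD hB hdiam (XX X x) v = w) :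
    am F hD hB hdiam X δ ε v w = x := by
  have hG := h.isUnit_Gm hP v
  have h1 : Gm F hD hB hdiam X δ ε v x = Pm F D X δ ε v (bm F hD hB hdiam X v w) := by
    have k : Gm F hD hB hdiam X δ ε v x = Pm F D X δ ε v (Tm F hD hB hdiam X v
      (Pm F D X δ ε v x)) + (x - Pm F D X δ ε v x) := rfl
    rw [k, hx, sub_self, add_zero, Tm_eq_bm, hw]
  unfold am
  rw [← h1]
  have h2 : (Ring.inverse (Gm F hD hB hdiam X δ ε v) * Gm F hD hB hdiam X δ ε v) x = x := by
    rw [Ring.inverse_mul_cancel _ hG]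
    rfl
  exact h2

theorem Pm_am (hP : ∀ x y : M, dist x y = D → finrank ℝ (H775.Pl e D x y) = l + 1)
    (h : Fam F hD hB hdiam l X δ ε) (v : UT E M) {w : E}
    (hw : (w : TangentSpace 𝓘(ℝ, E) (foot v)) ∈ Lf e D v) :
    Pm F D X δ ε v (am F hD hB hdiam X δ ε v w) = am F hD hB hdiam X δ ε v w := by
  obtain ⟨x, h1, h2⟩ := h.surj hP v hw
  rw [h.am_unique hP v h1 h2, h1]

theorem Th0_am (hP : ∀ x y : M, dist x y = D → finrank ℝ (H775.Pl e D x y) = l + 1)
    (h : Fam F hD hB hdiam l X δ ε) (v : UT E M) {w : E}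
    (hw : (w : TangentSpace 𝓘(ℝ, E) (foot v)) ∈ Lf e D v) :
    Th0 F hD hB hdiam (XX X (am F hD hB hdiam X δ ε v w)) v = w := by
  obtain ⟨x, h1, h2⟩ := h.surj hP v hw
  rw [h.am_unique hP v h1 h2, h2]

theorem am_ne_zero (hP : ∀ x y : M, dist x y = D → finrank ℝ (H775.Pl e D x y) = l + 1)
    (h : Fam F hD hB hdiam l X δ ε) (v : UT E M) {w : E}
    (hw : (w : TangentSpace 𝓘(ℝ, E) (foot v)) ∈ Lf e D v) (hw0 : w ≠ 0) :
    am F hD hB hdiam X δ ε v w ≠ 0 := by
  intro h0
  have h1 := h.Th0_am hP v hw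
  rw [h0, Th0_XX] at h1
  apply hw0
  rw [← h1]
  refine Finset.sum_eq_zero fun i _ => ?_
  rw [PiLp.zero_apply, zero_smul]

theorem Pm_phi (F : Facts e) (hD : 0 < D) (hB : InjGE e D) (hdiam : ∀ p q : M, dist p q ≤ D)
    (X δ : ι → UT E M → E) (ε : ℝ) (v : UT E M) (t : ℝ) :
    Pm F D X δ ε (phi F (v, t)) = Pm F D X δ ε v := by
  unfold Pm
  rw [Qm_phi F hD hB hdiam]

end Fam

/-! ### the transport -/

/-- **the transport of `L` along the geodesic flow** -/
def At (F : Facts e) (hD : 0 < D) (hB : InjGE e D) (hdiam : ∀ p q : M, dist p q ≤ D)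
    (X δ : ι → UT E M → E) (ε : ℝ) (v : UT E M) (t : ℝ) (w : E) : E :=
  Th0 F hD hB hdiam (XX X (am F hD hB hdiam X δ ε v w)) (phi F (v, t))

theorem At_smul (v : UT E M) (t c : ℝ) (w : E) :
    At F hD hB hdiam X δ ε v t (c • w) = c • At F hD hB hdiam X δ ε v t w := by
  unfold At
  rw [am_smul, Th0_XX, Th0_XX, Finset.smul_sum]
  refine Finset.sum_congr rfl fun i _ => ?_
  rw [PiLp.smul_apply, smul_eq_mul, mul_smul]

theorem At_add (v : UT E M) (t : ℝ) (w w' : E) :
    At F hD hB hdiam X δ ε v t (w + w') =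
      At F hD hB hdiam X δ ε v t w + At F hD hB hdiam X δ ε v t w' := by
  unfold At
  rw [am_add, Th0_XX, Th0_XX, Th0_XX, ← Finset.sum_add_distrib]
  refine Finset.sum_congr rfl fun i _ => ?_
  rw [PiLp.add_apply, add_smul]

theorem At_mem (v : UT E M) (t : ℝ) (w : E) :
    (At (E := E) F hD hB hdiam X δ ε v t w : TangentSpace 𝓘(ℝ, E) (foot (phi F (v, t)))) ∈
      Lf e D (phi F (v, t)) := Th0_mem F hD hB hdiam _ _

namespace Fam

/-- the coefficient vector is constant along the flow -/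
theorem am_phi (hP : ∀ x y : M, dist x y = D → finrank ℝ (H775.Pl e D x y) = l + 1)
    (h : Fam F hD hB hdiam l X δ ε) (v : UT E M) (t : ℝ) {w : E}
    (hw : (w : TangentSpace 𝓘(ℝ, E) (foot v)) ∈ Lf e D v) :
    am F hD hB hdiam X δ ε (phi F (v, t)) (At F hD hB hdiam X δ ε v t w) =
      am F hD hB hdiam X δ ε v w :=
  h.am_unique hP _ (by rw [Pm_phi F hD hB hdiam]; exact h.Pm_am hP v hw) rfl

theorem At_zero (hP : ∀ x y : M, dist x y = D → finrank ℝ (H775.Pl e D x y) = l + 1)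
    (h : Fam F hD hB hdiam l X δ ε) (v : UT E M) {w : E}
    (hw : (w : TangentSpace 𝓘(ℝ, E) (foot v)) ∈ Lf e D v) :
    At F hD hB hdiam X δ ε v 0 w = w := by
  unfold At
  rw [phi_zero]
  exact h.Th0_am hP v hw

theorem At_per (hP : ∀ x y : M, dist x y = D → finrank ℝ (H775.Pl e D x y) = l + 1)
    (h : Fam F hD hB hdiam l X δ ε) (v : UT E M) {w : E}
    (hw : (w : TangentSpace 𝓘(ℝ, E) (foot v)) ∈ Lf e D v) :
    At F hD hB hdiam X δ ε v (2 * D) w = w := by
  unfold At
  rw [W.phi_per F hD hB hdiam]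
  exact h.Th0_am hP v hw

theorem At_half (hP : ∀ x y : M, dist x y = D → finrank ℝ (H775.Pl e D x y) = l + 1)
    (h : Fam F hD hB hdiam l X δ ε) (v : UT E M) {w : E}
    (hw : (w : TangentSpace 𝓘(ℝ, E) (foot v)) ∈ Lf e D v) :
    At F hD hB hdiam X δ ε v D w = -Tr F hD hB hdiam v w := by
  unfold At
  rw [Th0_half, h.Th0_am hP v hw]

/-- the cocycle property -/
theorem At_At (hP : ∀ x y : M, dist x y = D → finrank ℝ (H775.Pl e D x y) = l + 1)
    (h : Fam F hD hB hdiam l X δ ε) (v : UT E M) (s t : ℝ) {w : E}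
    (hw : (w : TangentSpace 𝓘(ℝ, E) (foot v)) ∈ Lf e D v) :
    At F hD hB hdiam X δ ε (phi F (v, s)) t (At F hD hB hdiam X δ ε v s w) =
      At F hD hB hdiam X δ ε v (s + t) w := by
  have h1 := h.am_phi hP v s hw
  unfold At at h1 ⊢
  rw [h1, phi_add]

theorem At_ne_zero (hP : ∀ x y : M, dist x y = D → finrank ℝ (H775.Pl e D x y) = l + 1)
    (h : Fam F hD hB hdiam l X δ ε) (v : UT E M) (t : ℝ) {w : E}
    (hw : (w : TangentSpace 𝓘(ℝ, E) (foot v)) ∈ Lf e D v) (hw0 : w ≠ 0) :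
    At F hD hB hdiam X δ ε v t w ≠ 0 := by
  intro h0
  have h1 := h.am_phi hP v t hw
  have h2 := am_smul F hD hB hdiam X δ ε (phi F (v, t)) 0 (0 : E)
  rw [zero_smul, zero_smul] at h2
  rw [h0, h2] at h1
  exact h.am_ne_zero hP v hw hw0 h1.symm

section Plots

variable {E' : Type} [NormedAddCommGroup E'] [NormedSpace ℝ E'] [FiniteDimensional ℝ E']

theorem sm_Pm (h : Fam F hD hB hdiam l X δ ε) {u : E' → UT E M} {x : E'}
    (hu : (dUT E M).At u x) : Sm (fun s => Pm F D X δ ε (u s)) x := by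
  have h1 : Sm (fun s => Qm F D X δ (u s)) x :=
    map_Qm F (fun i => (h.df i).fld) (fun i => (h.df i).sfld) hu
  filter_upwards [h1] with s hs
  obtain ⟨N, -, hg⟩ := h.gap (u s)
  exact hg.contDiffAt_pm.comp s hs

/-- the coefficient vector is smooth -/
theorem sm_am (hP : ∀ x y : M, dist x y = D → finrank ℝ (H775.Pl e D x y) = l + 1)
    (h : Fam F hD hB hdiam l X δ ε) {u : E' → UT E M} {x : E'} (hu : (dUT E M).At u x)
    {w : E' → E} (hw : (dTM E M).At (fun s => tb (foot (u s)) (w s)) x) :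
    Sm (fun s => am F hD hB hdiam X δ ε (u s) (w s)) x := by
  have hTh : ∀ i, Fld (Th0 F hD hB hdiam (X i)) := fun i =>
    fld_Th0 F hD hB hdiam hP (h.df i).fld
  have h1 := h.sm_Pm hu
  have h2 : Sm (fun s => Tm F hD hB hdiam X (u s)) x := by
    refine sm_finsum Finset.univ fun i => sm_finsum Finset.univ fun j => ?_
    refine sm_smul' ?_ (Sm.of_contDiff contDiff_const x)
    exact (hTh i).ip (hTh j) hu
  have h3 : Sm (fun s => bm F hD hB hdiam X (u s) (w s)) x := by
    refine sm_finsum Finset.univ fun i => ?_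
    refine sm_smul' ?_ (Sm.of_contDiff contDiff_const x)
    exact sm_ip_tb hw ((hTh i).map hu)
  filter_upwards [h1, h2, h3] with s g1 g2 g3
  have g4 : ContDiffAt ℝ ∞ (fun s => Gm F hD hB hdiam X δ ε (u s)) s :=
    ((g1.mul g2).mul g1).add (contDiffAt_const.sub g1)
  have g5 : ContDiffAt ℝ ∞ (fun s => Ring.inverse (Gm F hD hB hdiam X δ ε (u s))) s := by
    have hunit := h.isUnit_Gm hP (u s)
    have hV : CompleteSpace (EuclideanSpace ℝ ι) := inferInstance
    obtain ⟨a, ha⟩ := hunit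
    have k := contDiffAt_ringInverse ℝ (n := ∞) a
    rw [ha] at k
    exact k.comp s g4
  exact g5.clm_apply (g1.clm_apply g3)

/-- the transport is smooth -/
theorem at_At (hP : ∀ x y : M, dist x y = D → finrank ℝ (H775.Pl e D x y) = l + 1)
    (h : Fam F hD hB hdiam l X δ ε) {u : E' → UT E M} {x : E'} (hu : (dUT E M).At u x)
    {w : E' → E} (hw : (dTM E M).At (fun s => tb (foot (u s)) (w s)) x) {t : E' → ℝ}
    (ht : Sm t x) :
    (dTM E M).At (fun s => tb (gm e (u s, t s)) (At F hD hB hdiam X δ ε (u s) (t s) (w s))) x := by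
  have h1 := h.sm_am hP hu hw
  have h2 : (dUT E M).At (fun s => phi F (u s, t s)) x :=
    map_phi F (u := fun s => (u s, t s)) ⟨hu, ht⟩
  have hTh : ∀ i, Fld (Th0 F hD hB hdiam (X i)) := fun i =>
    fld_Th0 F hD hB hdiam hP (h.df i).fld
  have h3 := at_XX hTh h2 h1
  have h4 : (fun s => tb (gm e (u s, t s)) (At F hD hB hdiam X δ ε (u s) (t s) (w s))) =
      fun s => tb (foot (phi F (u s, t s))) (XX (fun i => Th0 F hD hB hdiam (X i))
        (am F hD hB hdiam X δ ε (u s) (w s)) (phi F (u s, t s))) := by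
    funext s
    refine tb_congr rfl ?_
    unfold At
    rw [Th0_XX]
    rfl
  rw [h4]
  exact h3

end Plots

end Fam

end

end Vale.Agent.P231.S2N
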