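import Vale.Agent.P231.S2N.Jac
import Vale.Agent.P231.H766.Sum

/-!
# P231, stage 2, S2-NEG: the energy of the push-off of one closed geodesic along a periodic field
-/

set_option maxSynthPendingDepth 3
set_option linter.unusedSectionVars false
set_option linter.unusedVariables false

open Bundle Manifold Set Filter Module MeasureTheory
open scoped ContDiff Manifold Topology ENNReal

namespace Vale.Agent.P231.S2N

noncomputable section

open Vale.Agent.P234 Vale.Agent.P231 Vale.Agent.P231.Fm Vale.Agent.P231.W Vale.Agent.P231.WR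
open Vale.Agent.P231.H775 Vale.Agent.P231.WC

section Calc

variable {G : Type*} [NormedAddCommGroup G] [NormedSpace ℝ G]

theorem d1_shift (f : ℝ × ℝ → G) (a : ℝ × ℝ) :
    d1 (fun z => f (a + z)) = fun z => d1 f (a + z) := by
  funext z
  unfold d1
  rw [fderiv_comp_add_left]

theorem d2_shift (f : ℝ × ℝ → G) (a : ℝ × ℝ) :
    d2 (fun z => f (a + z)) = fun z => d2 f (a + z) := by
  funext z
  unfold d2
  rw [fderiv_comp_add_left]

theorem contDiff_d1' {f : ℝ × ℝ → G} (h : ContDiff ℝ ∞ f) : ContDiff ℝ ∞ (d1 f) :=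
  (h.fderiv_right (m := ∞) (by simp)).clm_apply contDiff_const

theorem contDiff_d2' {f : ℝ × ℝ → G} (h : ContDiff ℝ ∞ f) : ContDiff ℝ ∞ (d2 f) :=
  (h.fderiv_right (m := ∞) (by simp)).clm_apply contDiff_const

theorem deriv_d1 {f : ℝ × ℝ → G} (h : ContDiff ℝ ∞ f) (a t : ℝ) :
    deriv (fun s => f (s, t)) a = d1 f (a, t) :=
  (hasDerivAt_d1 (h.differentiable (by simp)).differentiableAt).deriv

theorem deriv_int_d1 {f : ℝ × ℝ → ℝ} (h : ContDiff ℝ ∞ f) (a b : ℝ) :
    deriv (fun s => ∫ t in a..b, f (s, t)) = fun s => ∫ t in a..b, d1 f (s, t) := by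
  rw [H766.deriv_int h]
  funext s
  refine intervalIntegral.integral_congr fun t _ => ?_
  exact deriv_d1 h s t

/-- the integral of the second partial derivative of a periodic function vanishes -/
theorem int_d2 {f : ℝ × ℝ → ℝ} (h : ContDiff ℝ ∞ f) {a b c : ℝ} (hp : f (a, c) = f (a, b)) :
    ∫ t in b..c, d2 f (a, t) = 0 := by
  have h1 : ∀ t ∈ uIcc b c, HasDerivAt (fun t => f (a, t)) (d2 f (a, t)) t := fun t _ =>
    hasDerivAt_d2 (h.differentiable (by simp)).differentiableAt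
  have h2 : Continuous fun t => d2 f (a, t) :=
    (contDiff_d2' h).continuous.comp (continuous_const.prodMk continuous_id)
  rw [intervalIntegral.integral_eq_sub_of_hasDerivAt h1 (h2.intervalIntegrable _ _), hp, sub_self]

end Calc

variable {E : Type*} [NormedAddCommGroup E] [NormedSpace ℝ E]
  {M : Type*} [MetricSpace M] [ChartedSpace E M]
  [RiemannianBundle (fun x : M => TangentSpace 𝓘(ℝ, E) x)]
  {e : ∀ x : M, TangentSpace 𝓘(ℝ, E) x → M}
  [FiniteDimensional ℝ E] [IsManifold 𝓘(ℝ, E) ∞ M]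
  [IsContMDiffRiemannianBundle 𝓘(ℝ, E) ∞ E (fun x : M => TangentSpace 𝓘(ℝ, E) x)]
  [CompactSpace M] [ConnectedSpace M] [IsRiemannianManifold 𝓘(ℝ, E) M]

variable {D : ℝ}

theorem vl_shift' {g : ℝ → M} (hg : ∀ t, ContMDiffAt 𝓘(ℝ, ℝ) 𝓘(ℝ, E) ∞ g t) (t s : ℝ) :
    (WC.vl (fun s => g (t + s)) s : E) = WC.vl g (t + s) := by
  have h1 : ∀ s, ContMDiffAt 𝓘(ℝ, ℝ) 𝓘(ℝ, E) ∞ (fun s => g (t + s)) s := fun s =>
    ContMDiffAt.comp s (g := g) (f := fun s : ℝ => t + s) (hg _)
      (contDiffAt_const.add contDiffAt_id).contMDiffAt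
  have h2 := WC.vl_shift (g := fun s => g (t + s)) (t := s) (h1 s)
  have h3 := WC.vl_shift (g := g) (t := t + s) (hg (t + s))
  rw [← h2, ← h3]
  refine congrArg (fun f : ℝ → M => (WC.vl f 0 : E)) ?_
  funext r
  rw [add_assoc]

section Single

variable {v : UT E M} {Z : ℝ → E}

theorem cm_line2 (F : Facts e) (hZ : ∀ t, FA e v Z t) (a t : ℝ) :
    ContMDiffAt 𝓘(ℝ, ℝ) 𝓘(ℝ, E) ∞ (fun s => po2 e v Z (a, s)) t :=
  (s2_po2 F v a (hZ t)).line2

theorem cm_line1 (F : Facts e) (hZ : ∀ t, FA e v Z t) (a t : ℝ) :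
    ContMDiffAt 𝓘(ℝ, ℝ) 𝓘(ℝ, E) ∞ (fun s => po2 e v Z (s, t)) a :=
  (s2_po2 F v a (hZ t)).line1

theorem cd_sq2 (F : Facts e) (hZ : ∀ t, FA e v Z t) : ContDiff ℝ ∞ (sq2 (E := E) (po2 e v Z)) := by
  refine contDiff_iff_contDiffAt.2 fun z => ?_
  set g := po2 e v Z with hg
  have hS : S2 (E := E) g z := s2_po2 F v z.1 (hZ z.2)
  have hsrc : g z ∈ (extChartAt 𝓘(ℝ, E) (g z)).source := mem_extChartAt_source _
  have hCs : Sm (fun y => extChartAt 𝓘(ℝ, E) (g z) (g y)) z := hS.sm _ hsrc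
  have htar := (extChartAt 𝓘(ℝ, E) (g z)).map_source hsrc
  have ham : Ae (cm (g z)) (fun y => extChartAt 𝓘(ℝ, E) (g z) (g y)) =ᶠ[𝓝 z]
      sq2 (E := E) g := by
    filter_upwards [hS.eventually, hS.src _ hsrc] with y e1 e2 using e1.ae _ e2
  exact ((sm_Ae (c := fun y => extChartAt 𝓘(ℝ, E) (g z) (g y)) (sm_cm _ htar) hCs).congr
    ham).contDiffAt

theorem cd_mx2 (F : Facts e) (hZ : ∀ t, FA e v Z t) : ContDiff ℝ ∞ (mx2 (E := E) (po2 e v Z)) := by
  refine contDiff_iff_contDiffAt.2 fun z => ?_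
  set g := po2 e v Z with hg
  have hS : S2 (E := E) g z := s2_po2 F v z.1 (hZ z.2)
  have hsrc : g z ∈ (extChartAt 𝓘(ℝ, E) (g z)).source := mem_extChartAt_source _
  have hCs : Sm (fun y => extChartAt 𝓘(ℝ, E) (g z) (g y)) z := hS.sm _ hsrc
  have htar := (extChartAt 𝓘(ℝ, E) (g z)).map_source hsrc
  have ham : Am (cm (g z)) (fun y => extChartAt 𝓘(ℝ, E) (g z) (g y)) =ᶠ[𝓝 z]
      mx2 (E := E) g := by
    filter_upwards [hS.eventually, hS.src _ hsrc] with y e1 e2 using e1.am _ e2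
  exact ((sm_Am (c := fun y => extChartAt 𝓘(ℝ, E) (g z) (g y)) (sm_cm _ htar) hCs).congr
    ham).contDiffAt

theorem po2_shift (F : Facts e) (t : ℝ) :
    po2 e (phi F (v, t)) (fun s => Z (t + s)) = fun z => po2 e v Z ((0, t) + z) := by
  funext z
  unfold po2
  have h1 : gm e (phi F (v, t), z.2) = gm e (v, ((0, t) + z).2) := by
    rw [gm_phi F]
    rfl
  have h2 : ((0, t) + z : ℝ × ℝ).1 = z.1 := zero_add _
  rw [h2]
  have h3 : ∀ (x y : M) (a b : E), x = y → a = b → e x a = e y b := by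
    rintro x y a b rfl rfl
    rfl
  exact h3 _ _ _ _ h1 rfl

theorem sq2_shift (F : Facts e) (hZ : ∀ t, FA e v Z t) (t : ℝ) :
    sq2 (E := E) (po2 e (phi F (v, t)) (fun s => Z (t + s))) =
      fun z => sq2 (E := E) (po2 e v Z) ((0, t) + z) := by
  funext z
  rw [po2_shift F]
  unfold sq2
  have h1 := vl_shift' (g := fun s => po2 e v Z (0 + z.1, s)) (fun s => cm_line2 F hZ _ s) t z.2
  exact congrArg (fun a : E => nm (po2 e v Z ((0, t) + z)) a ^ 2) h1

theorem mx2_shift (F : Facts e) (hZ : ∀ t, FA e v Z t) (t : ℝ) :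
    mx2 (E := E) (po2 e (phi F (v, t)) (fun s => Z (t + s))) =
      fun z => mx2 (E := E) (po2 e v Z) ((0, t) + z) := by
  funext z
  rw [po2_shift F]
  unfold mx2
  have h1 := vl_shift' (g := fun s => po2 e v Z (0 + z.1, s)) (fun s => cm_line2 F hZ _ s) t z.2
  have h2 := vl_shift' (g := fun s => po2 e v Z (s, t + z.2)) (fun s => cm_line1 F hZ s _) 0 z.1
  exact congrArg₂ (fun a b : E => ip (po2 e v Z ((0, t) + z)) a b) h1 h2

/-- smoothness of the shifted field -/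
theorem fa_shift (F : Facts e) (hZ : ∀ t, FA e v Z t) (t s : ℝ) :
    FA e (phi F (v, t)) (fun s => Z (t + s)) s := by
  refine Eventually.of_forall fun s => ?_
  have h1 : SmV (fun s => gm e (v, t + s)) (fun s => (Z (t + s) : E)) s :=
    SmV.comp (f := fun t => gm e (v, t)) (u := fun t => (Z t : E)) (h := fun s : ℝ => t + s)
      (hZ (t + s)).self_of_nhds (contDiffAt_const.add contDiffAt_id)
  refine ContMDiffAt.congr_of_eventuallyEq h1 ?_
  exact Eventually.of_forall fun s' => tb_congr (gm_phi F v t s') rfl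

/-- the energy of the push-off of the geodesic of `v` along the field `Z` -/
def enZ (e : ∀ x : M, TangentSpace 𝓘(ℝ, E) x → M) (D : ℝ) (v : UT E M) (Z : ℝ → E) (ε : ℝ) : ℝ :=
  ∫ t in (0 : ℝ)..(2 * D), sq2 (E := E) (po2 e v Z) (ε, t)

/-- the push-off of a closed geodesic along a periodic field is closed -/
theorem po2_per (F : Facts e) (hD : 0 < D) (hB : InjGE e D) (hdiam : ∀ p q : M, dist p q ≤ D)
    (hper : ∀ t, Z (t + 2 * D) = Z t) (a t : ℝ) :
    po2 e v Z (a, t + 2 * D) = po2 e v Z (a, t) := by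
  unfold po2
  have h1 : gm e (v, t + 2 * D) = gm e (v, t) := by
    have h2 := gm_phi F v (2 * D) t
    rw [W.phi_per F hD hB hdiam] at h2
    rw [add_comm, ← h2]
  have h3 : ∀ (x y : M) (a b : E), x = y → a = b → e x a = e y b := by
    rintro x y a b rfl rfl
    rfl
  exact h3 _ _ _ _ h1 (congrArg (fun b : E => a • b) (hper t))

theorem mx2_per (F : Facts e) (hD : 0 < D) (hB : InjGE e D) (hdiam : ∀ p q : M, dist p q ≤ D)
    (hZ : ∀ t, FA e v Z t) (hper : ∀ t, Z (t + 2 * D) = Z t) (a : ℝ) :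
    mx2 (E := E) (po2 e v Z) (a, 2 * D) = mx2 (E := E) (po2 e v Z) (a, 0) := by
  have hp : ∀ a t, po2 e v Z (a, t + 2 * D) = po2 e v Z (a, t) := po2_per F hD hB hdiam hper
  have h1 : po2 e v Z (a, 2 * D) = po2 e v Z (a, 0) := by
    have h := hp a 0
    rwa [zero_add] at h
  have h2 : (WC.vl (fun t => po2 e v Z (a, t)) (2 * D) : E) =
      WC.vl (fun t => po2 e v Z (a, t)) 0 := by
    have k := vl_shift' (g := fun t => po2 e v Z (a, t)) (fun s => cm_line2 F hZ _ s) (2 * D) 0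
    rw [add_zero] at k
    rw [← k]
    refine congrArg (fun f : ℝ → M => (WC.vl f 0 : E)) ?_
    funext s
    rw [add_comm]
    exact hp a s
  have h3 : (WC.vl (fun s => po2 e v Z (s, 2 * D)) a : E) =
      WC.vl (fun s => po2 e v Z (s, 0)) a := by
    refine congrArg (fun f : ℝ → M => (WC.vl f a : E)) ?_
    funext s
    have h := hp s 0
    rwa [zero_add] at h
  unfold mx2
  exact ip_congr3' (E := E) h1 h2 h3

theorem contDiff_enZ (F : Facts e) (hZ : ∀ t, FA e v Z t) :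
    ContDiff ℝ ∞ (enZ e D v Z) := by
  have h1 : ((Dif.lin ℝ).prod (Dif.lin ℝ)).Map (Dif.lin ℝ)
      (fun q : ℝ × ℝ => sq2 (E := E) (po2 e v Z) q) := by
    intro E' _ _ _ u x hu
    exact Sm.comp (f := sq2 (E := E) (po2 e v Z)) (g := u) (Sm.of_contDiff (cd_sq2 F hZ) _)
      (Sm.prodMk hu.1 hu.2)
  have h2 : (Dif.lin ℝ).Map (Dif.lin ℝ) (fun x : ℝ => ∫ t in (0 : ℝ)..(2 * D),
      (fun q : ℝ × ℝ => sq2 (E := E) (po2 e v Z) q) (x, t)) := H766.map_integral h1 (2 * D)
  refine contDiff_iff_contDiffAt.2 fun t => ?_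
  have h3 : Sm (fun x : ℝ => ∫ t in (0 : ℝ)..(2 * D), sq2 (E := E) (po2 e v Z) (x, t)) t :=
    h2 (u := fun x : ℝ => x) (Sm.of_contDiff contDiff_id t)
  exact h3.contDiffAt

/-- the energy at zero -/
theorem enZ_zero (F : Facts e) (D : ℝ) (v : UT E M) (Z : ℝ → E) : enZ e D v Z 0 = 2 * D := by
  have h1 : ∀ t, sq2 (E := E) (po2 e v Z) (0, t) = 1 := by
    intro t
    have e1 : (fun s => po2 e v Z (0, s)) = fun s => gm e (v, s) := funext fun s => po2_zero F v Z s
    have e2 : (WC.vl (fun s => gm e (v, s)) t : E) = vec' (phi F (v, t)) :=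
      mfderiv_gam F.isExp (foot v) (vec' v) t
    unfold sq2
    change nm (po2 e v Z (0, t)) (WC.vl (fun s => po2 e v Z (0, s)) t : E) ^ 2 = 1
    rw [e1, e2, po2_zero F]
    have h5 : nm (gm e (v, t)) (vec' (phi F (v, t))) = 1 := nm_vec' (phi F (v, t))
    rw [h5, one_pow]
  unfold enZ
  simp only [h1, intervalIntegral.integral_const, sub_zero, smul_eq_mul, mul_one]

/-- THE FIRST VARIATION of the energy -/
theorem deriv_enZ (F : Facts e) (hD : 0 < D) (hB : InjGE e D) (hdiam : ∀ p q : M, dist p q ≤ D)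
    (hZ : ∀ t, FA e v Z t) (hper : ∀ t, Z (t + 2 * D) = Z t) : deriv (enZ e D v Z) 0 = 0 := by
  have h0 := congrFun (deriv_int_d1 (cd_sq2 F hZ) 0 (2 * D)) 0
  have h1 : ∀ t, d1 (sq2 (E := E) (po2 e v Z)) (0, t) =
      2 * d2 (mx2 (E := E) (po2 e v Z)) (0, t) := by
    intro t
    have h2 := first_field F hD hB (phi F (v, t)) (X := fun s => Z (t + s)) (fa_shift F hZ t 0)
    rw [sq2_shift F hZ, mx2_shift F hZ, d1_shift, d2_shift] at h2
    beta_reduce at h2
    have h3 : ((0, t) + (0, 0) : ℝ × ℝ) = (0, t) := by simp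
    rw [h3] at h2
    linarith
  have h4 : deriv (enZ e D v Z) 0 = ∫ t in (0 : ℝ)..(2 * D), d1 (sq2 (E := E) (po2 e v Z)) (0, t) :=
    h0
  rw [h4]
  simp only [h1]
  rw [intervalIntegral.integral_const_mul, int_d2 (cd_mx2 F hZ)
    (mx2_per F hD hB hdiam hZ hper 0), mul_zero]

/-- THE SECOND VARIATION of the energy -/
theorem deriv2_enZ (F : Facts e) (hD : 0 < D) (hB : InjGE e D) (hdiam : ∀ p q : M, dist p q ≤ D)
    (hZ : ∀ t, FA e v Z t) (hper : ∀ t, Z (t + 2 * D) = Z t) {δ : ℝ → E}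
    (hδ : ∀ t, JE e (foot (phi F (v, t))) (phi F (v, t)) (fun s => Z (t + s)) (δ t))
    (hc : Continuous fun t => ip (gm e (v, t)) (δ t) (Z t)) :
    (1 / 2 : ℝ) * deriv (deriv (enZ e D v Z)) 0 =
      -∫ t in (0 : ℝ)..(2 * D), ip (gm e (v, t)) (δ t) (Z t) := by
  have hs := cd_sq2 F hZ
  have hm := cd_mx2 F hZ
  have h0 : deriv (enZ e D v Z) = fun s =>
      ∫ t in (0 : ℝ)..(2 * D), d1 (sq2 (E := E) (po2 e v Z)) (s, t) := deriv_int_d1 hs 0 (2 * D)
  have h0' : deriv (deriv (enZ e D v Z)) 0 =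
      ∫ t in (0 : ℝ)..(2 * D), d1 (d1 (sq2 (E := E) (po2 e v Z))) (0, t) := by
    rw [h0]
    exact congrFun (deriv_int_d1 (contDiff_d1' hs) 0 (2 * D)) 0
  have h1 : ∀ t, d1 (d1 (sq2 (E := E) (po2 e v Z))) (0, t) =
      2 * d2 (d1 (mx2 (E := E) (po2 e v Z))) (0, t) - 2 * ip (gm e (v, t)) (δ t) (Z t) := by
    intro t
    have h2 := second_field F hD hB (foot (phi F (v, t))) (phi F (v, t))
      (mem_extChartAt_source _) (X := fun s => Z (t + s)) (fa_shift F hZ t 0) (hδ t)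
    rw [sq2_shift F hZ, mx2_shift F hZ, d1_shift, d1_shift, d1_shift, d2_shift] at h2
    beta_reduce at h2
    have h3 : ((0, t) + (0, 0) : ℝ × ℝ) = (0, t) := by simp
    rw [h3] at h2
    have h4 : ip (foot (phi F (v, t))) (δ t) (Z (t + 0)) = ip (gm e (v, t)) (δ t) (Z t) := by
      change ip (gm e (v, t)) (δ t) (Z (t + 0)) = _
      rw [add_zero]
    rw [h4] at h2
    linarith
  have hper2 : ∀ a, mx2 (E := E) (po2 e v Z) (a, 2 * D) = mx2 (E := E) (po2 e v Z) (a, 0) :=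
    mx2_per F hD hB hdiam hZ hper
  have hper3 : d1 (mx2 (E := E) (po2 e v Z)) (0, 2 * D) = d1 (mx2 (E := E) (po2 e v Z)) (0, 0) := by
    rw [← deriv_d1 hm, ← deriv_d1 hm]
    exact congrArg (fun f => deriv f 0) (funext hper2)
  have c1 : Continuous fun t => d2 (d1 (mx2 (E := E) (po2 e v Z))) (0, t) :=
    (contDiff_d2' (contDiff_d1' hm)).continuous.comp (continuous_const.prodMk continuous_id)
  rw [h0']
  simp only [h1]
  rw [intervalIntegral.integral_sub ((c1.const_mul 2).intervalIntegrable _ _)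
    ((hc.const_mul 2).intervalIntegrable _ _), intervalIntegral.integral_const_mul,
    intervalIntegral.integral_const_mul, int_d2 (contDiff_d1' hm) hper3]
  ring

/-- if the field vanishes at the times `0` and `D`, the second variation is nonnegative -/
theorem deriv2_enZ_nonneg (F : Facts e) (hD : 0 < D) (hB : InjGE e D)
    (hdiam : ∀ p q : M, dist p q ≤ D) (hZ : ∀ t, FA e v Z t) (hper : ∀ t, Z (t + 2 * D) = Z t)
    (h0 : Z 0 = 0) (h1 : Z D = 0) : 0 ≤ deriv (deriv (enZ e D v Z)) 0 := by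
  by_contra hneg
  push Not at hneg
  have hcd : ContDiff ℝ ∞ (enZ e D v Z) := contDiff_enZ F hZ
  have hcd1 : ContDiff ℝ ∞ (deriv (enZ e D v Z)) := (contDiff_infty_iff_deriv.1 hcd).2
  have hc2 : Continuous (deriv (deriv (enZ e D v Z))) := hcd1.continuous_deriv (by simp)
  obtain ⟨δ, hδ, hδ'⟩ := Metric.eventually_nhds_iff.1
    (hc2.continuousAt.eventually (gt_mem_nhds hneg))
  have h2 : enZ e D v Z (δ / 2) < enZ e D v Z 0 :=
    H766.lt_of_concave hcd (deriv_enZ F hD hB hdiam hZ hper) (δ := δ)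
      (fun r hr => hδ' (by rw [Real.dist_eq, sub_zero]; exact hr)) (by positivity)
      (by rw [abs_of_pos (by positivity)]; linarith)
  rw [enZ_zero F] at h2
  set ε := δ / 2 with hε
  set c : ℝ → M := fun t => po2 e v Z (ε, t) with hc
  have hcs : ContMDiff 𝓘(ℝ, ℝ) 𝓘(ℝ, E) ∞ c := fun t => cm_line2 F hZ ε t
  have h3 := H766.variation_lt hcs hD h2
  have e0 : c 0 = gm e (v, 0) := by
    have k : po2 e v Z (ε, 0) = e (gm e (v, 0)) (ε • Z 0 : E) := rfl
    rw [hc]
    refine k.trans ?_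
    rw [h0, smul_zero]
    exact F.isExp.map_zero _
  have e1 : c D = gm e (v, D) := by
    have k : po2 e v Z (ε, D) = e (gm e (v, D)) (ε • Z D : E) := rfl
    rw [hc]
    refine k.trans ?_
    rw [h1, smul_zero]
    exact F.isExp.map_zero _
  have e2 : c (2 * D) = c 0 := by
    have k := po2_per (v := v) F hD hB hdiam hper ε 0
    rwa [zero_add] at k
  have hd : edist (c 0) (c D) = ENNReal.ofReal D := by
    rw [e0, e1, gm_zero F, edist_dist]
    exact congrArg ENNReal.ofReal (dist_bar F hD hB v)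
  have h4 : edist (c 0) (c D) ≤ eVariationOn c (Icc 0 D) :=
    eVariationOn.edist_le _ (left_mem_Icc.2 hD.le) (right_mem_Icc.2 hD.le)
  have h5 : edist (c D) (c (2 * D)) ≤ eVariationOn c (Icc D (2 * D)) :=
    eVariationOn.edist_le _ (left_mem_Icc.2 (by linarith)) (right_mem_Icc.2 (by linarith))
  have h6 : eVariationOn c (Icc 0 D) + eVariationOn c (Icc D (2 * D)) =
      eVariationOn c (Icc 0 (2 * D)) := by
    have k := eVariationOn.Icc_add_Icc c (s := univ) hD.le (by linarith : D ≤ 2 * D)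
      (mem_univ D)
    simpa only [univ_inter] using k
  rw [e2, edist_comm (c D) (c 0)] at h5
  have h7 : ENNReal.ofReal (2 * D) = ENNReal.ofReal D + ENNReal.ofReal D := by
    rw [← ENNReal.ofReal_add hD.le hD.le]
    congr 1
    ring
  rw [← h6, h7] at h3
  rw [hd] at h4 h5
  exact absurd (add_le_add h4 h5) (not_le.2 h3)

end Single

end

end Vale.Agent.P231.S2N
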